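import Vale.Agent.Lib.Common.PolyTime.MA

/-! Wrapper: the contents are in `Vale.Agent.Lib.Common.PolyTime.MA`. -/
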