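import Mathlib

/-!
Polynomial time computations: definitions.

* `D`: binary trees, the universal data type;
* `Cmd`: a structured language for machines with finitely many stacks, `Exec` its semantics
  with step count;
* `PolyOn S F`: the program computes `F : D → D` on inputs in `S` in polynomial time (with the
  frame property: whatever is below the argument on the stacks is preserved);
* `TEnc`, `PT`: encodings of types by trees, functions between encoded types computable in
  polynomial time.
-/

namespace Vale.Agent.Lib.Common.PolyTime

/-- binary trees -/
inductive D : Type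
  | leaf : D
  | node : D → D → D
  deriving DecidableEq, Inhabited

namespace D

/-- number of nodes and leaves -/
def size : D → ℕ
  | leaf => 1
  | node l r => l.size + r.size + 1

/-- left subtree -/
def left : D → D
  | leaf => leaf
  | node l _ => l

/-- right subtree -/
def right : D → D
  | leaf => leaf
  | node _ r => r

/-- length of the right spine -/
def len : D → ℕ
  | leaf => 0
  | node _ r => r.len + 1

end D

/-- symbols on the work stacks -/
inductive Sy : Type
  | L : Sy
  | N : Sy
  | H : Sy
  deriving DecidableEq, Inhabited

instance : Fintype Sy := ⟨{Sy.L, Sy.N, Sy.H}, by intro x; cases x <;> simp⟩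

/-- prefix-free code (Polish notation) of a tree -/
def code : D → List Sy
  | D.leaf => [Sy.L]
  | D.node l r => Sy.N :: (code l ++ code r)

/-- programs for machines with stacks `k : K` over the alphabets `Γ k` -/
inductive Cmd (K : Type) (Γ : K → Type) : Type
  | skip : Cmd K Γ
  | push (k : K) (a : Γ k) : Cmd K Γ
  | pop (k : K) : Cmd K Γ
  | seq (c d : Cmd K Γ) : Cmd K Γ
  /-- if the top symbol of stack `k` is `a` then `c` else `d` -/
  | cond (k : K) (a : Γ k) (c d : Cmd K Γ) : Cmd K Γ
  /-- while the top symbol of stack `k` is `a` do `c` -/
  | loop (k : K) (a : Γ k) (c : Cmd K Γ) : Cmd K Γ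

/-- contents of the stacks (top first) -/
abbrev Store (K : Type) (Γ : K → Type) := ∀ k, List (Γ k)

/-- `Exec c s s' t`: the program `c` started in `s` stops in `s'` after `t` steps -/
inductive Exec {K : Type} [DecidableEq K] {Γ : K → Type} :
    Cmd K Γ → Store K Γ → Store K Γ → ℕ → Prop
  | skip (s) : Exec Cmd.skip s s 1
  | push (k a s) : Exec (Cmd.push k a) s (Function.update s k (a :: s k)) 1
  | pop (k s) : Exec (Cmd.pop k) s (Function.update s k (s k).tail) 1
  | seq {c d s s' s'' t t'} : Exec c s s' t → Exec d s' s'' t' →
      Exec (Cmd.seq c d) s s'' (t + t' + 1)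
  | cond_true {k a c d s s' t} : (s k).head? = some a → Exec c s s' t →
      Exec (Cmd.cond k a c d) s s' (t + 1)
  | cond_false {k a c d s s' t} : (s k).head? ≠ some a → Exec d s s' t →
      Exec (Cmd.cond k a c d) s s' (t + 1)
  | loop_done {k a c s} : (s k).head? ≠ some a → Exec (Cmd.loop k a c) s s 1
  | loop_step {k a c s s' s'' t t'} : (s k).head? = some a → Exec c s s' t →
      Exec (Cmd.loop k a c) s' s'' t' → Exec (Cmd.loop k a c) s s'' (t + t' + 1)

/-- index type of the work stacks; stack `0` carries the argument and the result -/
abbrev WK := Fin 6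

/-- work programs -/
abbrev WCmd := Cmd WK (fun _ => Sy)

/-- work stores -/
abbrev WStore := Store WK (fun _ => Sy)

/-- push the code of a tree onto stack `0` -/
def WStore.put (s : WStore) (x : D) : WStore := Function.update s 0 (code x ++ s 0)

/-- functions on trees computable in polynomial time on the inputs in `S` -/
def PolyOn (S : Set D) (F : D → D) : Prop :=
  ∃ (c : WCmd) (p : Polynomial ℕ), ∀ x ∈ S, (F x).size ≤ p.eval x.size ∧
    ∀ s : WStore, ∃ t ≤ p.eval x.size, Exec c (WStore.put s x) (WStore.put s (F x)) t

/-- types encoded by trees -/
class TEnc (α : Type) where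
  enc : α → D
  inj : Function.Injective enc

/-- size of the encoding -/
def sz {α : Type} [TEnc α] (a : α) : ℕ := (TEnc.enc a).size

/-- polynomial time computable functions between encoded types -/
@[fun_prop]
def PT {α β : Type} [TEnc α] [TEnc β] (f : α → β) : Prop :=
  ∃ F : D → D, PolyOn (Set.range (TEnc.enc : α → D)) F ∧ ∀ a, F (TEnc.enc a) = TEnc.enc (f a)

/-- unary code of naturals -/
def encNat : ℕ → D
  | 0 => D.leaf
  | n + 1 => D.node D.leaf (encNat n)

/-- code of lists, given a code of the entries -/
def encList {α : Type} (e : α → D) : List α → D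
  | [] => D.leaf
  | a :: l => D.node (e a) (encList e l)

theorem encNat_injective : Function.Injective encNat := by
  intro a
  induction a with
  | zero =>
    intro b h
    cases b with
    | zero => rfl
    | succ b => simp [encNat] at h
  | succ a ih =>
    intro b h
    cases b with
    | zero => simp [encNat] at h
    | succ b =>
      simp only [encNat, D.node.injEq, true_and] at h
      rw [ih h]

theorem encList_injective {α : Type} {e : α → D} (he : Function.Injective e) :
    Function.Injective (encList e) := by
  intro a
  induction a with
  | nil =>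
    intro b h
    cases b with
    | nil => rfl
    | cons b l => simp [encList] at h
  | cons a l ih =>
    intro b h
    cases b with
    | nil => simp [encList] at h
    | cons b l' =>
      simp only [encList, D.node.injEq] at h
      rw [he h.1, ih h.2]

instance : TEnc Unit := ⟨fun _ => D.leaf, fun _ _ _ => rfl⟩

instance : TEnc Bool := ⟨fun b => if b then D.node D.leaf D.leaf else D.leaf, by
  intro a b; cases a <;> cases b <;> simp⟩

instance : TEnc ℕ := ⟨encNat, encNat_injective⟩

instance {α β : Type} [TEnc α] [TEnc β] : TEnc (α × β) :=
  ⟨fun p => D.node (TEnc.enc p.1) (TEnc.enc p.2), by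
    intro p q h
    simp only [D.node.injEq] at h
    exact Prod.ext (TEnc.inj h.1) (TEnc.inj h.2)⟩

instance {α : Type} [TEnc α] : TEnc (List α) := ⟨encList TEnc.enc, encList_injective TEnc.inj⟩

instance {α : Type} [TEnc α] : TEnc (Option α) :=
  ⟨fun o => match o with
    | none => D.leaf
    | some a => D.node D.leaf (TEnc.enc a), by
    intro a b h
    cases a <;> cases b <;> simp_all [TEnc.inj.eq_iff]⟩

end Vale.Agent.Lib.Common.PolyTime
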