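import Mathlib
import Vale.Agent.Lib.Common.PolyTime.Defs

/-!
Module PT-A: from programs to `Turing.FinTM2` machines.
-/

namespace Vale.Agent.Lib.Common.PolyTime

open Turing StateTransition

namespace Machine

variable {K : Type} {Γ : K → Type}

/-- continuation stacks reachable from `c :: l`, before `l` is reached -/
def reach : Cmd K Γ → List (Cmd K Γ) → Set (List (Cmd K Γ))
  | .skip, l => {Cmd.skip :: l}
  | .push k a, l => {Cmd.push k a :: l}
  | .pop k, l => {Cmd.pop k :: l}
  | .seq a b, l => {Cmd.seq a b :: l} ∪ (reach a (b :: l) ∪ reach b l)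
  | .cond k a c d, l => {Cmd.cond k a c d :: l} ∪ (reach c l ∪ reach d l)
  | .loop k a c, l => {Cmd.loop k a c :: l} ∪ reach c (Cmd.loop k a c :: l)

theorem self_mem_reach (c : Cmd K Γ) (l : List (Cmd K Γ)) : c :: l ∈ reach c l := by
  cases c <;> simp [reach]

theorem reach_finite (c : Cmd K Γ) : ∀ l : List (Cmd K Γ), (reach c l).Finite := by
  induction c with
  | skip => intro l; exact Set.finite_singleton _
  | push k a => intro l; exact Set.finite_singleton _
  | pop k => intro l; exact Set.finite_singleton _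
  | seq a b iha ihb =>
    intro l
    exact (Set.finite_singleton _).union ((iha _).union (ihb _))
  | cond k a c d ihc ihd =>
    intro l
    exact (Set.finite_singleton _).union ((ihc _).union (ihd _))
  | loop k a c ih =>
    intro l
    exact (Set.finite_singleton _).union (ih _)

variable (S : Set (List (Cmd K Γ))) (h0 : [] ∈ S)

open Classical in
/-- labels -/
noncomputable def mk (x : List (Cmd K Γ)) : S := if h : x ∈ S then ⟨x, h⟩ else ⟨[], h0⟩

theorem mk_of_mem {x : List (Cmd K Γ)} (h : x ∈ S) : mk S h0 x = ⟨x, h⟩ := by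
  simp [mk, h]

open Classical in
/-- the machine statements -/
noncomputable def stmt : List (Cmd K Γ) → TM2.Stmt Γ S Bool
  | [] => .halt
  | .skip :: l => .goto fun _ => mk S h0 l
  | .push k a :: l => .push k (fun _ => a) (.goto fun _ => mk S h0 l)
  | .pop k :: l => .pop k (fun v _ => v) (.goto fun _ => mk S h0 l)
  | .seq a b :: l => .goto fun _ => mk S h0 (a :: b :: l)
  | .cond k a c d :: l => .peek k (fun _ o => decide (o = some a))
      (.branch id (.load (fun _ => false) (.goto fun _ => mk S h0 (c :: l)))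
        (.load (fun _ => false) (.goto fun _ => mk S h0 (d :: l))))
  | .loop k a c :: l => .peek k (fun _ o => decide (o = some a))
      (.branch id (.load (fun _ => false) (.goto fun _ => mk S h0 (c :: .loop k a c :: l)))
        (.load (fun _ => false) (.goto fun _ => mk S h0 l)))

variable [DecidableEq K]

/-- `n` machine steps -/
def Run (n : ℕ) (x y : TM2.Cfg Γ S Bool) : Prop :=
  (flip bind (TM2.step fun x : S => stmt S h0 x.1))^[n] (some x) = some y

theorem Run.trans {n m : ℕ} {x y z : TM2.Cfg Γ S Bool} (h1 : Run S h0 n x y)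
    (h2 : Run S h0 m y z) : Run S h0 (n + m) x z := by
  unfold Run at *
  rw [add_comm, Function.iterate_add_apply, h1, h2]

theorem Run.one {x y : TM2.Cfg Γ S Bool} (h : TM2.step (fun x : S => stmt S h0 x.1) x = some y) :
    Run S h0 1 x y := h

/-- configuration at a continuation stack -/
noncomputable def cfg (x : List (Cmd K Γ)) (s : Store K Γ) : TM2.Cfg Γ S Bool :=
  ⟨some (mk S h0 x), false, s⟩

theorem step_cfg {x : List (Cmd K Γ)} (hx : x ∈ S) (s : Store K Γ) :
    TM2.step (fun x : S => stmt S h0 x.1) (cfg S h0 x s) =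
      some (TM2.stepAux (stmt S h0 x) false s) := by
  simp [cfg, mk_of_mem S h0 hx]

theorem exec_run {c : Cmd K Γ} {s s' : Store K Γ} {t : ℕ} (h : Exec c s s' t) :
    ∀ l : List (Cmd K Γ), reach c l ⊆ S → Run S h0 t (cfg S h0 (c :: l) s) (cfg S h0 l s') := by
  induction h with
  | skip s =>
    intro l hS
    have hx := hS (self_mem_reach _ _)
    apply Run.one
    rw [step_cfg S h0 hx]
    rfl
  | push k a s =>
    intro l hS
    have hx := hS (self_mem_reach _ _)
    apply Run.one
    rw [step_cfg S h0 hx]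
    rfl
  | pop k s =>
    intro l hS
    have hx := hS (self_mem_reach _ _)
    apply Run.one
    rw [step_cfg S h0 hx]
    rfl
  | @seq c d s s' s'' t t' _ _ ih1 ih2 =>
    intro l hS
    have hx := hS (self_mem_reach _ _)
    have h1 : Run S h0 1 (cfg S h0 (Cmd.seq c d :: l) s) (cfg S h0 (c :: d :: l) s) := by
      apply Run.one
      rw [step_cfg S h0 hx]
      rfl
    have h2 := ih1 (d :: l) (fun y hy => hS (Or.inr (Or.inl hy)))
    have h3 := ih2 l (fun y hy => hS (Or.inr (Or.inr hy)))
    have h4 := Run.trans S h0 h1 (Run.trans S h0 h2 h3)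
    rwa [add_comm 1 (t + t')] at h4
  | @cond_true k a c d s s' t hk _ ih =>
    intro l hS
    have hx := hS (self_mem_reach _ _)
    have h1 : Run S h0 1 (cfg S h0 (Cmd.cond k a c d :: l) s) (cfg S h0 (c :: l) s) := by
      apply Run.one
      rw [step_cfg S h0 hx]
      simp [stmt, hk, cfg]
    have h2 := ih l (fun y hy => hS (Or.inr (Or.inl hy)))
    have h4 := Run.trans S h0 h1 h2
    rwa [add_comm 1 t] at h4
  | @cond_false k a c d s s' t hk _ ih =>
    intro l hS
    have hx := hS (self_mem_reach _ _)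
    have h1 : Run S h0 1 (cfg S h0 (Cmd.cond k a c d :: l) s) (cfg S h0 (d :: l) s) := by
      apply Run.one
      rw [step_cfg S h0 hx]
      simp [stmt, hk, cfg]
    have h2 := ih l (fun y hy => hS (Or.inr (Or.inr hy)))
    have h4 := Run.trans S h0 h1 h2
    rwa [add_comm 1 t] at h4
  | @loop_done k a c s hk =>
    intro l hS
    have hx := hS (self_mem_reach _ _)
    apply Run.one
    rw [step_cfg S h0 hx]
    simp [stmt, hk, cfg]
  | @loop_step k a c s s' s'' t t' hk _ _ ih1 ih2 =>
    intro l hS
    have hx := hS (self_mem_reach _ _)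
    have h1 : Run S h0 1 (cfg S h0 (Cmd.loop k a c :: l) s)
        (cfg S h0 (c :: Cmd.loop k a c :: l) s) := by
      apply Run.one
      rw [step_cfg S h0 hx]
      simp [stmt, hk, cfg]
    have h2 := ih1 (Cmd.loop k a c :: l) (fun y hy => hS (Or.inr hy))
    have h3 := ih2 l hS
    have h4 := Run.trans S h0 h1 (Run.trans S h0 h2 h3)
    rwa [add_comm 1 (t + t')] at h4

/-- the initial store of a machine -/
def initS (k₀ : K) (l : List (Γ k₀)) : Store K Γ := Function.update (fun _ => []) k₀ l

theorem dite_eq_initS (k₀ : K) (l : List (Γ k₀)) (k : K) (d : Decidable (k = k₀)) :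
    (@dite (List (Γ k)) (k = k₀) d (fun h => by rw [h]; exact l) fun _ => []) =
      initS k₀ l k := by
  by_cases hk : k = k₀
  · subst hk
    simp [initS]
  · simp [initS, hk]

end Machine

open Machine in
/-- the machine of a program -/
noncomputable def toTM {K : Type} [DecidableEq K] [Fintype K] {Γ : K → Type} (k₀ k₁ : K)
    [Fintype (Γ k₀)] (c : Cmd K Γ) : FinTM2 :=
  have : Finite ↥(insert [] (reach c []) : Set (List (Cmd K Γ))) :=
    ((reach_finite c []).insert _).to_subtype
  letI : Fintype ↥(insert [] (reach c []) : Set (List (Cmd K Γ))) := Fintype.ofFinite _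
  { K := K
    k₀ := k₀
    k₁ := k₁
    Γ := Γ
    Λ := ↥(insert [] (reach c []) : Set (List (Cmd K Γ)))
    main := mk _ (Set.mem_insert _ _) [c]
    σ := Bool
    initialState := false
    m := fun x => stmt _ (Set.mem_insert _ _) x.1 }

open Machine in
theorem toTM_outputs {K : Type} [DecidableEq K] [Fintype K] {Γ : K → Type} (k₀ k₁ : K)
    [Fintype (Γ k₀)] (c : Cmd K Γ) (l : List (Γ k₀)) (l' : List (Γ k₁)) {t T : ℕ}
    (h : Exec c (initS k₀ l) (initS k₁ l') t) (hT : t + 1 ≤ T) :
    Nonempty (TM2OutputsInTime (toTM k₀ k₁ c) l (some l') T) := by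
  have h1 := exec_run (insert [] (reach c [])) (Set.mem_insert _ _) h []
    (Set.subset_insert _ _)
  have h2 : Run (insert [] (reach c [])) (Set.mem_insert _ _) 1
      (cfg (insert [] (reach c [])) (Set.mem_insert _ _) [] (initS k₁ l'))
      ⟨none, false, initS k₁ l'⟩ := by
    apply Run.one
    rw [step_cfg _ _ (Set.mem_insert _ _)]
    rfl
  have h3 := Run.trans _ _ h1 h2
  refine ⟨⟨⟨t + 1, ?_⟩, hT⟩⟩
  have e1 : initList (toTM k₀ k₁ c) l =
      cfg (insert [] (reach c [])) (Set.mem_insert _ _) [c] (initS k₀ l) := by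
    unfold initList cfg
    congr 1
    funext k
    exact dite_eq_initS k₀ l k _
  have e2 : haltList (toTM k₀ k₁ c) l' = ⟨none, false, initS k₁ l'⟩ := by
    unfold haltList
    congr 1
    funext k
    exact dite_eq_initS k₁ l' k _
  have e3 : Option.map (haltList (toTM k₀ k₁ c)) (some l') = some ⟨none, false, initS k₁ l'⟩ :=
    congrArg some e2
  refine Eq.trans ?_ e3.symm
  refine Eq.trans (congrArg (fun z => (flip bind (toTM k₀ k₁ c).step)^[t + 1] (some z)) e1) ?_
  exact h3

/-! ### executions with time bounds -/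

section ExecLe

variable {K : Type} [DecidableEq K] {Γ : K → Type}

/-- execution in time at most `T` -/
def ExecLe (c : Cmd K Γ) (s s' : Store K Γ) (T : ℕ) : Prop := ∃ t ≤ T, Exec c s s' t

namespace ExecLe

variable {c d : Cmd K Γ} {s s' s'' : Store K Γ} {k : K} {a : Γ k} {T T' : ℕ}

theorem mono (h : ExecLe c s s' T) (hT : T ≤ T') : ExecLe c s s' T' := by
  obtain ⟨t, ht, h⟩ := h
  exact ⟨t, ht.trans hT, h⟩

theorem skip : ExecLe (Cmd.skip : Cmd K Γ) s s 1 := ⟨1, le_rfl, Exec.skip s⟩

theorem push (h : Function.update s k (a :: s k) = s') : ExecLe (Cmd.push k a) s s' 1 := by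
  subst h; exact ⟨1, le_rfl, Exec.push k a s⟩

theorem pop (h : Function.update s k (s k).tail = s') : ExecLe (Cmd.pop k) s s' 1 := by
  subst h; exact ⟨1, le_rfl, Exec.pop k s⟩

theorem seq (h : ExecLe c s s' T) (h' : ExecLe d s' s'' T') :
    ExecLe (Cmd.seq c d) s s'' (T + T' + 1) := by
  obtain ⟨t, ht, h⟩ := h
  obtain ⟨t', ht', h'⟩ := h'
  exact ⟨t + t' + 1, by omega, Exec.seq h h'⟩

theorem cond_true (hk : (s k).head? = some a) (h : ExecLe c s s' T) :
    ExecLe (Cmd.cond k a c d) s s' (T + 1) := by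
  obtain ⟨t, ht, h⟩ := h
  exact ⟨t + 1, by omega, Exec.cond_true hk h⟩

theorem cond_false (hk : (s k).head? ≠ some a) (h : ExecLe d s s' T) :
    ExecLe (Cmd.cond k a c d) s s' (T + 1) := by
  obtain ⟨t, ht, h⟩ := h
  exact ⟨t + 1, by omega, Exec.cond_false hk h⟩

theorem loop_done (hk : (s k).head? ≠ some a) : ExecLe (Cmd.loop k a c) s s 1 :=
  ⟨1, le_rfl, Exec.loop_done hk⟩

theorem loop_step (hk : (s k).head? = some a) (h : ExecLe c s s' T)
    (h' : ExecLe (Cmd.loop k a c) s' s'' T') : ExecLe (Cmd.loop k a c) s s'' (T + T' + 1) := by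
  obtain ⟨t, ht, h⟩ := h
  obtain ⟨t', ht', h'⟩ := h'
  exact ⟨t + t' + 1, by omega, Exec.loop_step hk h h'⟩

end ExecLe

/-- case distinction on the top symbol -/
def switch (k : K) (P : Γ k → Cmd K Γ) (e : Cmd K Γ) : List (Γ k) → Cmd K Γ
  | [] => e
  | a :: l => Cmd.cond k a (P a) (switch k P e l)

theorem switch_mem {k : K} {P : Γ k → Cmd K Γ} {e : Cmd K Γ} {s s' : Store K Γ} {a : Γ k} {T : ℕ}
    (hk : (s k).head? = some a) (h : ExecLe (P a) s s' T) :
    ∀ l : List (Γ k), a ∈ l → ExecLe (switch k P e l) s s' (T + l.length)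
  | [], hl => absurd hl (by simp)
  | b :: l, hl => by
    by_cases hb : b = a
    · subst hb
      exact (ExecLe.cond_true hk h).mono (by simp)
    · have hl' : a ∈ l := by
        rcases List.mem_cons.mp hl with h1 | h1
        · exact absurd h1.symm hb
        · exact h1
      refine (ExecLe.cond_false ?_ (switch_mem hk h l hl')).mono (by simp [add_assoc])
      rw [hk]
      intro h2
      exact hb (Option.some.inj h2).symm

theorem switch_none {k : K} {P : Γ k → Cmd K Γ} {e : Cmd K Γ} {s s' : Store K Γ} {T : ℕ}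
    (hk : (s k).head? = none) (h : ExecLe e s s' T) :
    ∀ l : List (Γ k), ExecLe (switch k P e l) s s' (T + l.length)
  | [] => h
  | b :: l => by
    refine (ExecLe.cond_false ?_ (switch_none hk h l)).mono (by simp [add_assoc])
    rw [hk]
    simp

theorem switch_mem' {k : K} {P : Γ k → Cmd K Γ} {e : Cmd K Γ} {s s' : Store K Γ} {a : Γ k}
    {T N : ℕ} (hk : (s k).head? = some a) (h : ExecLe (P a) s s' T) (l : List (Γ k)) (hl : a ∈ l)
    (hN : l.length ≤ N) : ExecLe (switch k P e l) s s' (T + N) :=
  (switch_mem hk h l hl).mono (by omega)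

theorem switch_none' {k : K} {P : Γ k → Cmd K Γ} {e : Cmd K Γ} {s s' : Store K Γ} {T N : ℕ}
    (hk : (s k).head? = none) (h : ExecLe e s s' T) (l : List (Γ k)) (hN : l.length ≤ N) :
    ExecLe (switch k P e l) s s' (T + N) :=
  (switch_none hk h l).mono (by omega)

/-- push a word -/
def pushList (k : K) : List (Γ k) → Cmd K Γ
  | [] => Cmd.skip
  | a :: w => Cmd.seq (pushList k w) (Cmd.push k a)

theorem exec_pushList (k : K) (s : Store K Γ) : ∀ (w : List (Γ k)),
    ExecLe (pushList k w) s (Function.update s k (w ++ s k)) (2 * w.length + 1)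
  | [] => by
    have h : Function.update s k ([] ++ s k) = s := by simp
    rw [h]
    exact ExecLe.skip
  | a :: w => by
    refine (ExecLe.seq (exec_pushList k s w) (ExecLe.push ?_)).mono (by simp; omega)
    simp

end ExecLe

/-! ### the extended machine -/

/-- stacks of the extended machine -/
inductive EK : Type
  | inp : EK
  | rv : EK
  | out : EK
  | rw : EK
  | flag : EK
  | wk (i : WK) : EK
  deriving DecidableEq, Fintype

/-- alphabets of the extended machine -/
def EG (Γ₀ Γ₁ : Type) : EK → Type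
  | .inp => Γ₀
  | .rv => Γ₀
  | .out => Γ₁
  | .rw => Γ₁
  | .flag => Unit
  | .wk _ => Sy

/-- stores of the extended machine -/
def st {Γ₀ Γ₁ : Type} (a r : List Γ₀) (b r' : List Γ₁) (f : List Unit) (s : WStore) :
    Store EK (EG Γ₀ Γ₁)
  | .inp => a
  | .rv => r
  | .out => b
  | .rw => r'
  | .flag => f
  | .wk i => s i

section
variable {Γ₀ Γ₁ : Type} (a r : List Γ₀) (b r' : List Γ₁) (f : List Unit) (s : WStore)

theorem upd_inp (x : List Γ₀) : Function.update (st a r b r' f s) EK.inp x = st x r b r' f s := by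
  funext k
  cases k <;> first
    | exact Function.update_self _ _ _
    | exact Function.update_of_ne (by simp) _ _

theorem upd_rv (x : List Γ₀) : Function.update (st a r b r' f s) EK.rv x = st a x b r' f s := by
  funext k
  cases k <;> first
    | exact Function.update_self _ _ _
    | exact Function.update_of_ne (by simp) _ _

theorem upd_out (x : List Γ₁) : Function.update (st a r b r' f s) EK.out x = st a r x r' f s := by
  funext k
  cases k <;> first
    | exact Function.update_self _ _ _
    | exact Function.update_of_ne (by simp) _ _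

theorem upd_rw (x : List Γ₁) : Function.update (st a r b r' f s) EK.rw x = st a r b x f s := by
  funext k
  cases k <;> first
    | exact Function.update_self _ _ _
    | exact Function.update_of_ne (by simp) _ _

theorem upd_flag (x : List Unit) :
    Function.update (st a r b r' f s) EK.flag x = st a r b r' x s := by
  funext k
  cases k <;> first
    | exact Function.update_self _ _ _
    | exact Function.update_of_ne (by simp) _ _

theorem upd_wk (i : WK) (x : List Sy) : Function.update (st a r b r' f s) (EK.wk i) x =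
    st a r b r' f (Function.update s i x) := by
  funext k
  cases k with
  | wk j =>
    by_cases h : j = i
    · subst h
      refine Eq.trans (Function.update_self _ _ _) ?_
      exact (Function.update_self j x s).symm
    · refine Eq.trans (Function.update_of_ne (by simpa using h) _ _) ?_
      exact (Function.update_of_ne h x s).symm
  | _ => exact Function.update_of_ne (by simp) _ _

/-- work programs as programs of the extended machine -/
def embed : WCmd → Cmd EK (EG Γ₀ Γ₁)
  | .skip => .skip
  | .push i x => .push (EK.wk i) x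
  | .pop i => .pop (EK.wk i)
  | .seq c d => .seq (embed c) (embed d)
  | .cond i x c d => .cond (EK.wk i) x (embed c) (embed d)
  | .loop i x c => .loop (EK.wk i) x (embed c)

theorem exec_embed {c : WCmd} {s s' : WStore} {t : ℕ} (h : Exec c s s' t) :
    Exec (embed c) (st a r b r' f s) (st a r b r' f s') t := by
  induction h with
  | skip s => exact Exec.skip _
  | push k x s =>
    rw [← upd_wk]
    exact Exec.push (Γ := EG Γ₀ Γ₁) (EK.wk k) x (st a r b r' f s)
  | pop k s =>
    rw [← upd_wk]
    exact Exec.pop (Γ := EG Γ₀ Γ₁) (EK.wk k) (st a r b r' f s)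
  | seq _ _ ih1 ih2 => exact Exec.seq ih1 ih2
  | cond_true hk _ ih => exact Exec.cond_true hk ih
  | cond_false hk _ ih => exact Exec.cond_false hk ih
  | loop_done hk => exact Exec.loop_done hk
  | loop_step hk _ _ ih1 ih2 => exact Exec.loop_step hk ih1 ih2

end

/-! ### codes -/

theorem code_append_cancel : ∀ (x y : D) (u v : List Sy), code x ++ u = code y ++ v →
    x = y ∧ u = v
  | .leaf, .leaf, u, v, h => by simpa [code] using h
  | .leaf, .node _ _, u, v, h => by simp [code] at h
  | .node _ _, .leaf, u, v, h => by simp [code] at h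
  | .node a b, .node a' b', u, v, h => by
    simp only [code, List.cons_append, List.cons.injEq, true_and, List.append_assoc] at h
    obtain ⟨h1, h2⟩ := code_append_cancel a a' _ _ h
    obtain ⟨h3, h4⟩ := code_append_cancel b b' _ _ h2
    exact ⟨by rw [h1, h3], h4⟩

theorem length_code : ∀ x : D, (code x).length = x.size
  | .leaf => rfl
  | .node a b => by
    simp [code, D.size, length_code a, length_code b]

section Load

variable {Γ₀ Γ₁ : Type} [Fintype Γ₀]

/-- the list of all symbols -/
noncomputable def symbs (Γ : Type) [Fintype Γ] : List Γ := Finset.univ.toList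

theorem mem_symbs {Γ : Type} [Fintype Γ] (x : Γ) : x ∈ symbs Γ := by simp [symbs]

theorem length_symbs (Γ : Type) [Fintype Γ] : (symbs Γ).length = Fintype.card Γ := by
  simp [symbs]

/-- reverse the input -/
noncomputable def prog1 : Cmd EK (EG Γ₀ Γ₁) :=
  .loop EK.flag () (switch EK.inp (fun g => .seq (.pop EK.inp) (.push EK.rv g)) (.pop EK.flag)
    (symbs Γ₀))

theorem exec_prog1 (b r' : List Γ₁) (s : WStore) : ∀ (a r : List Γ₀),
    ExecLe (prog1 : Cmd EK (EG Γ₀ Γ₁)) (st a r b r' [()] s) (st [] (a.reverse ++ r) b r' [] s)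
      ((Fintype.card Γ₀ + 4) * (a.length + 1))
  | [], r => by
    have h1 : ExecLe (Cmd.pop EK.flag : Cmd EK (EG Γ₀ Γ₁)) (st [] r b r' [()] s)
        (st [] r b r' [] s) 1 := ExecLe.pop (upd_flag [] r b r' [()] s [])
    have h2 := switch_none' (k := EK.inp) (P := fun g => Cmd.seq (.pop EK.inp) (.push EK.rv g))
      (s := st [] r b r' [()] s) rfl h1 (symbs Γ₀) (length_symbs Γ₀).le
    have h3 := ExecLe.loop_step (k := EK.flag) (a := ()) (s := st [] r b r' [()] s) rfl h2
      (ExecLe.loop_done (show ([] : List Unit).head? ≠ some () by simp))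
    refine h3.mono ?_
    rw [List.length_nil]
    omega
  | g :: a, r => by
    have h0 : ExecLe (Cmd.pop EK.inp : Cmd EK (EG Γ₀ Γ₁)) (st (g :: a) r b r' [()] s)
        (st a r b r' [()] s) 1 := ExecLe.pop (upd_inp (g :: a) r b r' [()] s a)
    have h0' : ExecLe (Cmd.push EK.rv g : Cmd EK (EG Γ₀ Γ₁)) (st a r b r' [()] s)
        (st a (g :: r) b r' [()] s) 1 := ExecLe.push (upd_rv a r b r' [()] s (g :: r))
    have h2 := switch_mem' (k := EK.inp) (P := fun g => Cmd.seq (.pop EK.inp) (.push EK.rv g))
      (e := .pop EK.flag) (s := st (g :: a) r b r' [()] s) (a := g) rfl (h0.seq h0') (symbs Γ₀)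
      (mem_symbs g) (length_symbs Γ₀).le
    have h3 := ExecLe.loop_step (k := EK.flag) (a := ()) (s := st (g :: a) r b r' [()] s) rfl h2
      (exec_prog1 b r' s a (g :: r))
    have e : (g :: a).reverse ++ r = a.reverse ++ (g :: r) := by simp
    rw [e]
    refine h3.mono ?_
    rw [List.length_cons]
    have h5 : (Fintype.card Γ₀ + 4) * (a.length + 1 + 1) =
      (Fintype.card Γ₀ + 4) * (a.length + 1) + (Fintype.card Γ₀ + 4) := by ring
    omega

/-- build the code of the input list on work stack `0` -/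
noncomputable def prog2 (c₀ : Γ₀ → D) : Cmd EK (EG Γ₀ Γ₁) :=
  .loop EK.flag () (switch EK.rv (fun g => .seq (.pop EK.rv)
    (pushList (EK.wk 0) (Sy.N :: code (c₀ g)))) (.pop EK.flag) (symbs Γ₀))

theorem exec_prog2 {c₀ : Γ₀ → D} {M : ℕ} (hM : ∀ g, (c₀ g).size ≤ M) (a : List Γ₀)
    (b r' : List Γ₁) : ∀ (r l : List Γ₀) (s : WStore), s 0 = code (encList c₀ l) →
    ExecLe (prog2 c₀ : Cmd EK (EG Γ₀ Γ₁)) (st a r b r' [()] s)
      (st a [] b r' [] (Function.update s 0 (code (encList c₀ (r.reverse ++ l)))))
      ((Fintype.card Γ₀ + 2 * M + 8) * (r.length + 1))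
  | [], l, s, hs => by
    have h1 : ExecLe (Cmd.pop EK.flag : Cmd EK (EG Γ₀ Γ₁)) (st a [] b r' [()] s)
        (st a [] b r' [] s) 1 := ExecLe.pop (upd_flag a [] b r' [()] s [])
    have h2 := switch_none' (k := EK.rv) (P := fun g => Cmd.seq (.pop EK.rv)
      (pushList (EK.wk 0) (Sy.N :: code (c₀ g))))
      (s := st a [] b r' [()] s) rfl h1 (symbs Γ₀) (length_symbs Γ₀).le
    have h3 := ExecLe.loop_step (k := EK.flag) (a := ()) (s := st a [] b r' [()] s) rfl h2
      (ExecLe.loop_done (show ([] : List Unit).head? ≠ some () by simp))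
    have e : Function.update s 0 (code (encList c₀ ([].reverse ++ l))) = s := by
      rw [List.reverse_nil, List.nil_append, ← hs]
      exact Function.update_eq_self _ _
    rw [e]
    refine h3.mono ?_
    rw [List.length_nil]
    omega
  | g :: r, l, s, hs => by
    have h0 : ExecLe (Cmd.pop EK.rv : Cmd EK (EG Γ₀ Γ₁)) (st a (g :: r) b r' [()] s)
        (st a r b r' [()] s) 1 := ExecLe.pop (upd_rv a (g :: r) b r' [()] s r)
    have h0' := exec_pushList (Γ := EG Γ₀ Γ₁) (EK.wk 0) (st a r b r' [()] s)
      (Sy.N :: code (c₀ g))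
    have e0 : Function.update (st a r b r' [()] s) (EK.wk 0) ((Sy.N :: code (c₀ g)) ++ s 0) =
        st a r b r' [()] (Function.update s 0 (code (encList c₀ (g :: l)))) := by
      refine (upd_wk a r b r' [()] s 0 _).trans ?_
      congr 2
      rw [hs]
      simp [code, encList]
    replace h0' := Eq.mp (congrArg (fun z => ExecLe (pushList (Γ := EG Γ₀ Γ₁) (EK.wk 0)
      (Sy.N :: code (c₀ g))) (st a r b r' [()] s) z _) e0) h0'
    have h2 := switch_mem' (k := EK.rv) (P := fun g => Cmd.seq (.pop EK.rv)
      (pushList (EK.wk 0) (Sy.N :: code (c₀ g))))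
      (e := .pop EK.flag) (s := st a (g :: r) b r' [()] s) (a := g) rfl (h0.seq h0') (symbs Γ₀)
      (mem_symbs g) (length_symbs Γ₀).le
    have h3 := ExecLe.loop_step (k := EK.flag) (a := ()) (s := st a (g :: r) b r' [()] s) rfl h2
      (exec_prog2 hM a b r' r (g :: l) (Function.update s 0 (code (encList c₀ (g :: l))))
        (Function.update_self _ _ _))
    rw [Function.update_idem] at h3
    have e : (g :: r).reverse ++ l = r.reverse ++ (g :: l) := by simp
    rw [e]
    refine h3.mono ?_
    have h6 : (Sy.N :: code (c₀ g)).length ≤ M + 1 := by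
      rw [List.length_cons, length_code]
      exact Nat.succ_le_succ (hM g)
    rw [List.length_cons (a := g)]
    have h5 : (Fintype.card Γ₀ + 2 * M + 8) * (r.length + 1 + 1) =
      (Fintype.card Γ₀ + 2 * M + 8) * (r.length + 1) + (Fintype.card Γ₀ + 2 * M + 8) := by ring
    refine le_trans (b := 1 + (2 * (M + 1) + 1) + 1 + Fintype.card Γ₀ +
      (Fintype.card Γ₀ + 2 * M + 8) * (r.length + 1) + 1) ?_ ?_
    · gcongr
      exact h6
    · omega

end Load

/-! ### matching words -/

section Match

variable {K : Type} [DecidableEq K] {Γ : K → Type}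

/-- if the word `w` is on the top of stack `k`, remove it and run `c`, otherwise run `e` -/
def tryWord (k : K) : List (Γ k) → Cmd K Γ → Cmd K Γ → Cmd K Γ
  | [], c, _ => c
  | x :: w, c, e => .cond k x (.seq (.pop k) (tryWord k w c (.seq (.push k x) e))) e

theorem try_succ (k : K) {c : Cmd K Γ} {s' : Store K Γ} {T : ℕ} :
    ∀ (w : List (Γ k)) (e : Cmd K Γ) (s : Store K Γ) (rest : List (Γ k)), s k = w ++ rest →
      ExecLe c (Function.update s k rest) s' T →
      ExecLe (tryWord k w c e) s s' (3 * w.length + T)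
  | [], e, s, rest, hs, h => by
    have e1 : Function.update s k rest = s := by
      rw [List.nil_append] at hs
      rw [← hs]
      exact Function.update_eq_self _ _
    rw [e1] at h
    exact h.mono (by simp)
  | x :: w, e, s, rest, hs, h => by
    have h1 : ExecLe (Cmd.pop k) s (Function.update s k (w ++ rest)) 1 :=
      ExecLe.pop (by rw [hs]; rfl)
    have h2 := try_succ k w (.seq (.push k x) e) (Function.update s k (w ++ rest)) rest
      (Function.update_self _ _ _) (by rw [Function.update_idem]; exact h)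
    refine (ExecLe.cond_true (by rw [hs]; rfl) (h1.seq h2)).mono ?_
    rw [List.length_cons]
    omega

theorem try_fail (k : K) {s' : Store K Γ} :
    ∀ (w : List (Γ k)) (c e : Cmd K Γ) (s : Store K Γ) (T : ℕ), ¬ w <+: s k →
      ExecLe e s s' T → ExecLe (tryWord k w c e) s s' (5 * w.length + T)
  | [], c, e, s, T, hs, h => absurd List.nil_prefix hs
  | x :: w, c, e, s, T, hs, h => by
    cases hsk : s k with
    | nil =>
      refine (ExecLe.cond_false (by rw [hsk]; simp) h).mono ?_
      rw [List.length_cons]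
      omega
    | cons y rest =>
      by_cases hy : y = x
      · subst hy
        have h1 : ExecLe (Cmd.pop k) s (Function.update s k rest) 1 :=
          ExecLe.pop (by rw [hsk]; rfl)
        have h2 : ExecLe (Cmd.push k y) (Function.update s k rest) s 1 := by
          apply ExecLe.push
          rw [Function.update_self, Function.update_idem, ← hsk]
          exact Function.update_eq_self _ _
        have h3 := try_fail k w c (.seq (.push k y) e) (Function.update s k rest) _ (by
          rw [Function.update_self]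
          intro h4
          apply hs
          rw [hsk]
          exact List.cons_prefix_cons.mpr ⟨rfl, h4⟩) (h2.seq h)
        refine (ExecLe.cond_true (by rw [hsk]; rfl) (h1.seq h3)).mono ?_
        rw [List.length_cons]
        omega
      · refine (ExecLe.cond_false (by rw [hsk]; simpa using hy) h).mono ?_
        rw [List.length_cons]
        omega

end Match

/-! ### unloading -/

section Unload

variable {Γ₀ Γ₁ : Type}

/-- match the code of a symbol -/
def unl (c₁ : Γ₁ → D) : List Γ₁ → Cmd EK (EG Γ₀ Γ₁)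
  | [] => .skip
  | b :: l => tryWord (EK.wk 0) (code (c₁ b)) (.push EK.rw b) (unl c₁ l)

theorem exec_unl {c₁ : Γ₁ → D} (hc₁ : Function.Injective c₁) {M : ℕ} (hM : ∀ g, (c₁ g).size ≤ M)
    (a r : List Γ₀) (b r' : List Γ₁) (f : List Unit) (s : WStore) {x : Γ₁} {rest : List Sy}
    (hs : s 0 = code (c₁ x) ++ rest) : ∀ l : List Γ₁, x ∈ l →
    ExecLe (unl c₁ l : Cmd EK (EG Γ₀ Γ₁)) (st a r b r' f s)
      (st a r b (x :: r') f (Function.update s 0 rest)) (5 * M * l.length + 1)
  | [], hl => absurd hl (by simp)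
  | y :: l, hl => by
    have e5 : 5 * M * (l.length + 1) = 5 * M * l.length + 5 * M := by ring
    have hly : (code (c₁ y)).length ≤ M := by rw [length_code]; exact hM y
    by_cases hy : y = x
    · subst hy
      have h1 : ExecLe (Cmd.push EK.rw y : Cmd EK (EG Γ₀ Γ₁))
          (Function.update (st a r b r' f s) (EK.wk 0) rest)
          (st a r b (y :: r') f (Function.update s 0 rest)) 1 := by
        have e1 : Function.update (st a r b r' f s) (EK.wk 0) rest =
          st a r b r' f (Function.update s 0 rest) := upd_wk a r b r' f s 0 rest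
        rw [e1]
        exact ExecLe.push (upd_rw a r b r' f _ (y :: r'))
      refine (try_succ (Γ := EG Γ₀ Γ₁) (EK.wk 0) (code (c₁ y)) (unl c₁ l) (st a r b r' f s) rest
        hs h1).mono ?_
      change 3 * (code (c₁ y)).length + 1 ≤ _
      rw [List.length_cons]
      omega
    · have hl' : x ∈ l := by
        rcases List.mem_cons.mp hl with h1 | h1
        · exact absurd h1.symm hy
        · exact h1
      refine (try_fail (Γ := EG Γ₀ Γ₁) (EK.wk 0) (code (c₁ y)) (.push EK.rw y) (unl c₁ l)
        (st a r b r' f s) _ ?_ (exec_unl hc₁ hM a r b r' f s hs l hl')).mono ?_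
      · rintro ⟨u, hu⟩
        have h2 : code (c₁ y) ++ (show List Sy from u) = code (c₁ x) ++ rest := hu.trans hs
        exact hy (hc₁ (code_append_cancel _ _ _ _ h2).1)
      · change 5 * (code (c₁ y)).length + _ ≤ _
        rw [List.length_cons]
        omega

variable [Fintype Γ₁]

/-- parse the code on work stack `0` -/
noncomputable def prog4 (c₁ : Γ₁ → D) : Cmd EK (EG Γ₀ Γ₁) :=
  .loop (EK.wk 0) Sy.N (.seq (.pop (EK.wk 0)) (unl c₁ (symbs Γ₁)))

theorem exec_prog4 {c₁ : Γ₁ → D} (hc₁ : Function.Injective c₁) {M : ℕ}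
    (hM : ∀ g, (c₁ g).size ≤ M) (a r : List Γ₀) (b : List Γ₁) (f : List Unit) :
    ∀ (l r' : List Γ₁) (s : WStore), s 0 = code (encList c₁ l) →
    ExecLe (prog4 c₁ : Cmd EK (EG Γ₀ Γ₁)) (st a r b r' f s)
      (st a r b (l.reverse ++ r') f (Function.update s 0 [Sy.L]))
      ((5 * M * Fintype.card Γ₁ + 4) * l.length + 1)
  | [], r', s, hs => by
    have hs' : s 0 = [Sy.L] := hs
    have h1 : ExecLe (prog4 c₁ : Cmd EK (EG Γ₀ Γ₁)) (st a r b r' f s) (st a r b r' f s) 1 :=
      ExecLe.loop_done (by
        change (s 0).head? ≠ some Sy.N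
        rw [hs']
        simp)
    have e : Function.update s 0 [Sy.L] = s := by
      rw [← hs']
      exact Function.update_eq_self _ _
    rw [e]
    exact h1.mono (by omega)
  | x :: l, r', s, hs => by
    have hs' : s 0 = Sy.N :: (code (c₁ x) ++ code (encList c₁ l)) := hs
    have h1 : ExecLe (Cmd.pop (EK.wk 0) : Cmd EK (EG Γ₀ Γ₁)) (st a r b r' f s)
        (st a r b r' f (Function.update s 0 (code (c₁ x) ++ code (encList c₁ l)))) 1 := by
      apply ExecLe.pop
      change Function.update (st a r b r' f s) (EK.wk 0) (s 0).tail = _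
      rw [hs']
      exact upd_wk a r b r' f s 0 _
    have h2 := exec_unl (Γ₀ := Γ₀) hc₁ hM a r b r' f
      (Function.update s 0 (code (c₁ x) ++ code (encList c₁ l)))
      (x := x) (rest := code (encList c₁ l)) (Function.update_self _ _ _) (symbs Γ₁) (mem_symbs x)
    rw [Function.update_idem, length_symbs] at h2
    have h3 := exec_prog4 hc₁ hM a r b f l (x :: r') (Function.update s 0 (code (encList c₁ l)))
      (Function.update_self _ _ _)
    rw [Function.update_idem] at h3
    have h4 := ExecLe.loop_step (k := EK.wk 0) (a := Sy.N) (s := st a r b r' f s)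
      (by change (s 0).head? = _; rw [hs']; rfl) (h1.seq h2) h3
    have e : (x :: l).reverse ++ r' = l.reverse ++ (x :: r') := by simp
    rw [e]
    refine h4.mono ?_
    rw [List.length_cons]
    have h5 : (5 * M * Fintype.card Γ₁ + 4) * (l.length + 1) =
      (5 * M * Fintype.card Γ₁ + 4) * l.length + (5 * M * Fintype.card Γ₁ + 4) := by ring
    omega

/-- reverse the output -/
noncomputable def prog5 : Cmd EK (EG Γ₀ Γ₁) :=
  .loop EK.flag () (switch EK.rw (fun g => .seq (.pop EK.rw) (.push EK.out g)) (.pop EK.flag)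
    (symbs Γ₁))

theorem exec_prog5 (a r : List Γ₀) (s : WStore) : ∀ (r' b : List Γ₁),
    ExecLe (prog5 : Cmd EK (EG Γ₀ Γ₁)) (st a r b r' [()] s) (st a r (r'.reverse ++ b) [] [] s)
      ((Fintype.card Γ₁ + 4) * (r'.length + 1))
  | [], b => by
    have h1 : ExecLe (Cmd.pop EK.flag : Cmd EK (EG Γ₀ Γ₁)) (st a r b [] [()] s)
        (st a r b [] [] s) 1 := ExecLe.pop (upd_flag a r b [] [()] s [])
    have h2 := switch_none' (k := EK.rw) (P := fun g => Cmd.seq (.pop EK.rw) (.push EK.out g))
      (s := st a r b [] [()] s) rfl h1 (symbs Γ₁) (length_symbs Γ₁).le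
    have h3 := ExecLe.loop_step (k := EK.flag) (a := ()) (s := st a r b [] [()] s) rfl h2
      (ExecLe.loop_done (show ([] : List Unit).head? ≠ some () by simp))
    refine h3.mono ?_
    rw [List.length_nil]
    omega
  | g :: r', b => by
    have h0 : ExecLe (Cmd.pop EK.rw : Cmd EK (EG Γ₀ Γ₁)) (st a r b (g :: r') [()] s)
        (st a r b r' [()] s) 1 := ExecLe.pop (upd_rw a r b (g :: r') [()] s r')
    have h0' : ExecLe (Cmd.push EK.out g : Cmd EK (EG Γ₀ Γ₁)) (st a r b r' [()] s)
        (st a r (g :: b) r' [()] s) 1 := ExecLe.push (upd_out a r b r' [()] s (g :: b))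
    have h2 := switch_mem' (k := EK.rw) (P := fun g => Cmd.seq (.pop EK.rw) (.push EK.out g))
      (e := .pop EK.flag) (s := st a r b (g :: r') [()] s) (a := g) rfl (h0.seq h0') (symbs Γ₁)
      (mem_symbs g) (length_symbs Γ₁).le
    have h3 := ExecLe.loop_step (k := EK.flag) (a := ()) (s := st a r b (g :: r') [()] s) rfl h2
      (exec_prog5 a r s r' (g :: b))
    have e : (g :: r').reverse ++ b = r'.reverse ++ (g :: b) := by simp
    rw [e]
    refine h3.mono ?_
    rw [List.length_cons]
    have h5 : (Fintype.card Γ₁ + 4) * (r'.length + 1 + 1) =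
      (Fintype.card Γ₁ + 4) * (r'.length + 1) + (Fintype.card Γ₁ + 4) := by ring
    omega

end Unload

theorem eval_mono (p : Polynomial ℕ) {a b : ℕ} (h : a ≤ b) : p.eval a ≤ p.eval b := by
  rw [Polynomial.eval_eq_sum_range, Polynomial.eval_eq_sum_range]
  refine Finset.sum_le_sum fun i _ => ?_
  exact Nat.mul_le_mul_left _ (Nat.pow_le_pow_left h i)

theorem size_encList_le {Γ : Type} {c : Γ → D} {M : ℕ} (hM : ∀ g, (c g).size ≤ M) :
    ∀ l : List Γ, (encList c l).size ≤ (M + 1) * l.length + 1
  | [] => by simp [encList, D.size]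
  | g :: l => by
    have h1 := size_encList_le hM l
    have h2 := hM g
    simp only [encList, D.size, List.length_cons]
    have h3 : (M + 1) * (l.length + 1) = (M + 1) * l.length + (M + 1) := by ring
    omega

theorem length_le_size_encList {Γ : Type} (c : Γ → D) :
    ∀ l : List Γ, l.length ≤ (encList c l).size
  | [] => by simp
  | g :: l => by
    have h1 := length_le_size_encList c l
    simp only [encList, D.size, List.length_cons]
    omega

theorem st_nil {Γ₀ Γ₁ : Type} :
    (fun _ => [] : Store EK (EG Γ₀ Γ₁)) = st [] [] [] [] [] (fun _ => []) := by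
  funext k; cases k <;> rfl

theorem initS_inp {Γ₀ Γ₁ : Type} (l : List Γ₀) : Machine.initS (Γ := EG Γ₀ Γ₁) EK.inp l =
    st l [] [] [] [] (fun _ => []) := by
  unfold Machine.initS
  rw [st_nil]
  exact upd_inp _ _ _ _ _ _ _

theorem initS_out {Γ₀ Γ₁ : Type} (l : List Γ₁) : Machine.initS (Γ := EG Γ₀ Γ₁) EK.out l =
    st [] [] l [] [] (fun _ => []) := by
  unfold Machine.initS
  rw [st_nil]
  exact upd_out _ _ _ _ _ _ _

theorem wstore_clear (S : WStore) (hS : ∀ i, i ≠ 0 → S i = []) :
    Function.update (Function.update S 0 [Sy.L]) 0 (Function.update S 0 [Sy.L] 0).tail =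
      fun _ => [] := by
  funext i
  by_cases hi : i = 0
  · subst hi
    rw [Function.update_self, Function.update_self]
    rfl
  · rw [Function.update_of_ne hi, Function.update_of_ne hi, hS i hi]

theorem outputs_congr (tm : FinTM2) {l l₂ : List (tm.Γ tm.k₀)} {m m₂ : List (tm.Γ tm.k₁)} {T : ℕ}
    (h : l = l₂) (h' : m = m₂) (hT : Nonempty (TM2OutputsInTime tm l (some m) T)) :
    Nonempty (TM2OutputsInTime tm l₂ (some m₂) T) := by
  subst h; subst h'; exact hT

/-- the whole program -/
noncomputable def prog {Γ₀ Γ₁ : Type} [Fintype Γ₀] [Fintype Γ₁] (c₀ : Γ₀ → D) (c₁ : Γ₁ → D)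
    (c : WCmd) : Cmd EK (EG Γ₀ Γ₁) :=
  .seq (.push EK.flag ()) <| .seq prog1 <| .seq (.push (EK.wk 0) Sy.L) <|
    .seq (.push EK.flag ()) <| .seq (prog2 c₀) <| .seq (embed c) <| .seq (prog4 c₁) <|
    .seq (.pop (EK.wk 0)) <| .seq (.push EK.flag ()) prog5

theorem exec_prog {Γ₀ Γ₁ : Type} [Fintype Γ₀] [Fintype Γ₁] {c₀ : Γ₀ → D} {c₁ : Γ₁ → D}
    (hc₁ : Function.Injective c₁) {M : ℕ} (hM₀ : ∀ g, (c₀ g).size ≤ M)
    (hM₁ : ∀ g, (c₁ g).size ≤ M) {c : WCmd} {l : List Γ₀} {l' : List Γ₁} {T : ℕ}
    (h : ∃ t ≤ T, Exec c (WStore.put (fun _ => []) (encList c₀ l))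
      (WStore.put (fun _ => []) (encList c₁ l')) t) :
    ExecLe (prog c₀ c₁ c) (st l [] [] [] [] (fun _ => [])) (st [] [] l' [] [] (fun _ => []))
      ((Fintype.card Γ₀ + 4) * (l.length + 1) + (Fintype.card Γ₀ + 2 * M + 8) * (l.length + 1) +
        T + ((5 * M * Fintype.card Γ₁ + 4) * l'.length + 1) +
        (Fintype.card Γ₁ + 4) * (l'.length + 1) + 14) := by
  have e0 : ∀ x : D, WStore.put (fun _ => []) x = Function.update (fun _ => []) 0 (code x) := by
    intro x
    simp [WStore.put]
  have s1 : ExecLe (Cmd.push EK.flag () : Cmd EK (EG Γ₀ Γ₁)) (st l [] [] [] [] (fun _ => []))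
      (st l [] [] [] [()] (fun _ => [])) 1 := ExecLe.push (upd_flag _ _ _ _ _ _ _)
  have s2 := exec_prog1 (Γ₁ := Γ₁) [] [] (fun _ => []) l []
  rw [List.append_nil] at s2
  have s3 : ExecLe (Cmd.push (EK.wk 0) Sy.L : Cmd EK (EG Γ₀ Γ₁))
      (st [] l.reverse [] [] [] (fun _ => []))
      (st [] l.reverse [] [] [] (Function.update (fun _ => []) 0 [Sy.L])) 1 :=
    ExecLe.push (upd_wk _ _ _ _ _ _ 0 [Sy.L])
  have s4 : ExecLe (Cmd.push EK.flag () : Cmd EK (EG Γ₀ Γ₁))
      (st [] l.reverse [] [] [] (Function.update (fun _ => []) 0 [Sy.L]))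
      (st [] l.reverse [] [] [()] (Function.update (fun _ => []) 0 [Sy.L])) 1 :=
    ExecLe.push (upd_flag _ _ _ _ _ _ _)
  have s5 := exec_prog2 (Γ₁ := Γ₁) hM₀ [] [] [] l.reverse [] (Function.update (fun _ => []) 0 [Sy.L])
    (Function.update_self _ _ _)
  rw [Function.update_idem, List.reverse_reverse, List.append_nil, List.length_reverse,
    ← e0 (encList c₀ l)] at s5
  obtain ⟨t, ht, h⟩ := h
  have s6 : ExecLe (embed c : Cmd EK (EG Γ₀ Γ₁))
      (st [] [] [] [] [] (WStore.put (fun _ => []) (encList c₀ l)))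
      (st [] [] [] [] [] (WStore.put (fun _ => []) (encList c₁ l'))) T :=
    ⟨t, ht, exec_embed [] [] [] [] [] h⟩
  have s7 := exec_prog4 (Γ₀ := Γ₀) hc₁ hM₁ [] [] [] [] l' []
    (WStore.put (fun _ => []) (encList c₁ l')) (by rw [e0]; exact Function.update_self _ _ _)
  rw [List.append_nil] at s7
  have s8 : ExecLe (Cmd.pop (EK.wk 0) : Cmd EK (EG Γ₀ Γ₁))
      (st [] [] [] l'.reverse [] (Function.update (WStore.put (fun _ => []) (encList c₁ l')) 0
        [Sy.L]))
      (st [] [] [] l'.reverse [] (fun _ => [])) 1 := by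
    apply ExecLe.pop
    refine (upd_wk _ _ _ _ _ _ 0 _).trans ?_
    congr 1
    exact wstore_clear (WStore.put (fun _ => []) (encList c₁ l')) (fun i hi => by
      rw [e0, Function.update_of_ne hi])
  have s9 : ExecLe (Cmd.push EK.flag () : Cmd EK (EG Γ₀ Γ₁))
      (st [] [] [] l'.reverse [] (fun _ => []))
      (st [] [] [] l'.reverse [()] (fun _ => [])) 1 :=
    ExecLe.push (upd_flag _ _ _ _ _ _ _)
  have s10 := exec_prog5 (Γ₀ := Γ₀) [] [] (fun _ => []) l'.reverse ([] : List Γ₁)
  rw [List.reverse_reverse, List.append_nil, List.length_reverse] at s10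
  refine (s1.seq (s2.seq (s3.seq (s4.seq (s5.seq (s6.seq (s7.seq (s8.seq
    (s9.seq s10))))))))).mono ?_
  omega

/-- every polynomial time function on trees gives a polynomial time Turing machine between list
encodings -/
theorem PolyOn.toTM2 {Γ₀ Γ₁ : Type} [Fintype Γ₀] [DecidableEq Γ₀] [Fintype Γ₁] [DecidableEq Γ₁]
    (c₀ : Γ₀ → D) (c₁ : Γ₁ → D) (hc₁ : Function.Injective c₁) {F : D → D}
    {α β : Type} (ea : α → List Γ₀) (eb : β → List Γ₁) (f : α → β)
    (hF : PolyOn (Set.range (fun a => encList c₀ (ea a))) F)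
    (h : ∀ a, F (encList c₀ (ea a)) = encList c₁ (eb (f a))) :
    Nonempty (Turing.TM2ComputableInPolyTime ea eb f) := by
  obtain ⟨c, p, hc⟩ := hF
  obtain ⟨M, hM₀, hM₁⟩ : ∃ M : ℕ, (∀ g, (c₀ g).size ≤ M) ∧ ∀ g, (c₁ g).size ≤ M := by
    refine ⟨(∑ g, (c₀ g).size) + ∑ g, (c₁ g).size, fun g => ?_, fun g => ?_⟩
    · exact le_trans (Finset.single_le_sum (f := fun g => (c₀ g).size)
        (fun _ _ => Nat.zero_le _) (Finset.mem_univ g)) (Nat.le_add_right _ _)
    · exact le_trans (Finset.single_le_sum (f := fun g => (c₁ g).size)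
        (fun _ _ => Nat.zero_le _) (Finset.mem_univ g)) (Nat.le_add_left _ _)
  let q : Polynomial ℕ := p.comp (Polynomial.C (M + 1) * Polynomial.X + 1)
  let time : Polynomial ℕ :=
    Polynomial.C (Fintype.card Γ₀ + 4 + (Fintype.card Γ₀ + 2 * M + 8)) * (Polynomial.X + 1) + q +
      Polynomial.C (5 * M * Fintype.card Γ₁ + 4 + (Fintype.card Γ₁ + 4)) * (q + 1) +
        Polynomial.C 16
  let _ : Fintype (EG Γ₀ Γ₁ EK.inp) := inferInstanceAs (Fintype Γ₀)
  have key : ∀ a, Nonempty (Turing.TM2OutputsInTime (toTM EK.inp EK.out (prog c₀ c₁ c))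
      (List.map (Equiv.refl Γ₀).invFun (ea a))
      (some (List.map (Equiv.refl Γ₁).invFun (eb (f a)))) (time.eval (ea a).length)) := by
    intro a
    have em0 : List.map (Equiv.refl Γ₀).invFun (ea a) = ea a := List.map_id _
    have em1 : List.map (Equiv.refl Γ₁).invFun (eb (f a)) = eb (f a) := List.map_id _
    refine outputs_congr _ em0.symm em1.symm ?_
    obtain ⟨hsz, hex⟩ := hc (encList c₀ (ea a)) ⟨a, rfl⟩
    have hq : p.eval (encList c₀ (ea a)).size ≤ q.eval (ea a).length := by
      simp only [q, Polynomial.eval_comp]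
      apply eval_mono
      simpa using size_encList_le hM₀ (ea a)
    have hex' := hex (fun _ => [])
    rw [h] at hex'
    obtain ⟨t, ht, hrun⟩ := exec_prog hc₁ hM₀ hM₁ (l := ea a) (l' := eb (f a))
      (T := p.eval (encList c₀ (ea a)).size) hex'
    rw [← initS_inp, ← initS_out] at hrun
    refine toTM_outputs EK.inp EK.out (prog c₀ c₁ c) (ea a) (eb (f a)) hrun ?_
    have hlen : (eb (f a)).length ≤ q.eval (ea a).length := by
      refine (length_le_size_encList c₁ _).trans ?_
      rw [← h]
      exact hsz.trans hq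
    have hT : time.eval (ea a).length =
        (Fintype.card Γ₀ + 4 + (Fintype.card Γ₀ + 2 * M + 8)) * ((ea a).length + 1) +
          q.eval (ea a).length +
          (5 * M * Fintype.card Γ₁ + 4 + (Fintype.card Γ₁ + 4)) * (q.eval (ea a).length + 1) +
          16 := by
      simp only [time, Polynomial.eval_add, Polynomial.eval_mul, Polynomial.eval_C,
        Polynomial.eval_X, Polynomial.eval_one]
    rw [hT]
    generalize q.eval (ea a).length = Q at *
    generalize (ea a).length = n at *
    generalize (eb (f a)).length = m at *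
    generalize p.eval (encList c₀ (ea a)).size = P at *
    have i1 : (5 * M * Fintype.card Γ₁ + 4) * m ≤ (5 * M * Fintype.card Γ₁ + 4) * Q :=
      Nat.mul_le_mul_left _ hlen
    have i2 : (Fintype.card Γ₁ + 4) * (m + 1) ≤ (Fintype.card Γ₁ + 4) * (Q + 1) :=
      Nat.mul_le_mul_left _ (by omega)
    have i3 : (5 * M * Fintype.card Γ₁ + 4 + (Fintype.card Γ₁ + 4)) * (Q + 1) =
      (5 * M * Fintype.card Γ₁ + 4) * Q + (5 * M * Fintype.card Γ₁ + 4) +
        (Fintype.card Γ₁ + 4) * (Q + 1) := by ring
    have i4 : (Fintype.card Γ₀ + 4 + (Fintype.card Γ₀ + 2 * M + 8)) * (n + 1) =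
      (Fintype.card Γ₀ + 4) * (n + 1) + (Fintype.card Γ₀ + 2 * M + 8) * (n + 1) := by ring
    omega
  exact ⟨{ tm := toTM EK.inp EK.out (prog c₀ c₁ c)
           inputAlphabet := Equiv.refl Γ₀
           outputAlphabet := Equiv.refl Γ₁
           time := time
           outputsFun := fun a => Classical.choice (key a) }⟩

end Vale.Agent.Lib.Common.PolyTime
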