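import Mathlib
import Vale.Agent.Lib.Common.PolyTime.Defs

section

/-!
Reusable work programs on the tree stack `0` with their `Exec` specifications:
`scan`, `back`, `dup`, `swap`, `drop`, `pushTree`.
-/

namespace Vale.Agent.Lib.Common.PolyTime

open Function

theorem D.size_pos (x : D) : 1 ≤ x.size := by
  cases x <;> simp [D.size]

theorem length_code (x : D) : (code x).length = x.size := by
  induction x with
  | leaf => simp [code, D.size]
  | node l r ihl ihr => simp [code, D.size, ihl, ihr]

theorem H_notMem_code (x : D) : Sy.H ∉ code x := by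
  induction x with
  | leaf => simp [code]
  | node l r ihl ihr => simp [code, ihl, ihr]

/-! ### Scanning a tree code -/

/-- the body of the scanning loop -/
def scanBody (i c : WK) (out : Sy → WCmd) : WCmd :=
  Cmd.seq (Cmd.pop c) (Cmd.cond i Sy.N
    (Cmd.seq (Cmd.pop i) (Cmd.seq (out Sy.N) (Cmd.seq (Cmd.push c Sy.H) (Cmd.push c Sy.H))))
    (Cmd.seq (Cmd.pop i) (out Sy.L)))

/-- remove a tree code from stack `i`, performing `out a` for each of its symbols `a`; stack `c`
is used as a counter -/
def scan (i c : WK) (out : Sy → WCmd) : WCmd :=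
  Cmd.seq (Cmd.push c Sy.L) (Cmd.seq (Cmd.push c Sy.H)
    (Cmd.seq (Cmd.loop c Sy.H (scanBody i c out)) (Cmd.pop c)))

section Scan

variable {i c : WK} {out : Sy → WCmd} {eff : Sy → WStore → WStore} {T : ℕ}

/-- a store with two stacks replaced -/
private def S (i c : WK) (s : WStore) (a b : List Sy) : WStore := update (update s i a) c b

private theorem S_c (s : WStore) (a b : List Sy) : S i c s a b c = b := by simp [S]

private theorem S_i (h : i ≠ c) (s : WStore) (a b : List Sy) : S i c s a b i = a := by
  simp [S, h]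

private theorem S_upd_c (s : WStore) (a b b' : List Sy) :
    update (S i c s a b) c b' = S i c s a b' := by simp [S]

private theorem S_upd_i (h : i ≠ c) (s : WStore) (a b a' : List Sy) :
    update (S i c s a b) i a' = S i c s a' b := by
  unfold S
  rw [update_comm h.symm, update_idem]

private theorem S_eff (hi : ∀ a s l, eff a (update s i l) = update (eff a s) i l)
    (hc : ∀ a s l, eff a (update s c l) = update (eff a s) c l) (y : Sy) (s : WStore)
    (a b : List Sy) : eff y (S i c s a b) = S i c (eff y s) a b := by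
  unfold S
  rw [hc, hi]

theorem scan_loop (hic : i ≠ c) (hout : ∀ a s, ∃ t ≤ T, Exec (out a) s (eff a s) t)
    (hi : ∀ a s l, eff a (update s i l) = update (eff a s) i l)
    (hc : ∀ a s l, eff a (update s c l) = update (eff a s) c l) (x : D) :
    ∀ (s : WStore) (R C : List Sy) (s2 : WStore) (t2 : ℕ),
      Exec (Cmd.loop c Sy.H (scanBody i c out))
        (S i c ((code x).foldl (fun s a => eff a s) s) R C) s2 t2 →
      ∃ t ≤ t2 + (T + 20) * x.size, Exec (Cmd.loop c Sy.H (scanBody i c out))
        (S i c s (code x ++ R) (Sy.H :: C)) s2 t := by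
  induction x with
  | leaf =>
    intro s R C s2 t2 h
    obtain ⟨t0, ht0, h0⟩ := hout Sy.L (S i c s R C)
    rw [S_eff hi hc] at h0
    refine ⟨(1 + (1 + t0 + 1 + 1) + 1) + t2 + 1, by simp only [D.size]; omega, ?_⟩
    refine Exec.loop_step (by rw [S_c]; rfl) ?_ h
    refine Exec.seq (Exec.pop _ _) ?_
    rw [S_c, List.tail_cons, S_upd_c]
    refine Exec.cond_false (by rw [S_i hic]; simp [code]) ?_
    refine Exec.seq (Exec.pop _ _) ?_
    rw [S_i hic, S_upd_i hic]
    exact h0
  | node l r ihl ihr =>
    intro s R C s2 t2 h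
    simp only [code, List.foldl_cons, List.foldl_append] at h
    obtain ⟨t3, ht3, h3⟩ := ihr _ _ _ _ _ h
    obtain ⟨t4, ht4, h4⟩ := ihl _ _ _ _ _ h3
    obtain ⟨t0, ht0, h0⟩ := hout Sy.N (S i c s (code l ++ (code r ++ R)) C)
    rw [S_eff hi hc] at h0
    have hsz : (T + 20) * (D.node l r).size =
        (T + 20) * l.size + (T + 20) * r.size + (T + 20) := by
      simp only [D.size]
      ring
    refine ⟨(1 + ((1 + (t0 + (1 + 1 + 1) + 1) + 1) + 1) + 1) + t4 + 1, by omega, ?_⟩
    refine Exec.loop_step (s' := S i c (eff Sy.N s) (code l ++ (code r ++ R))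
      (Sy.H :: Sy.H :: C)) (by rw [S_c]; rfl) ?_ h4
    refine Exec.seq (Exec.pop _ _) ?_
    rw [S_c, List.tail_cons, S_upd_c]
    refine Exec.cond_true (by rw [S_i hic]; simp [code]) ?_
    refine Exec.seq (Exec.pop _ _) ?_
    rw [S_i hic, S_upd_i hic]
    have hcode : (code (D.node l r) ++ R).tail = code l ++ (code r ++ R) := by
      simp [code]
    rw [hcode]
    refine Exec.seq h0 ?_
    refine Exec.seq (t := 1) (t' := 1) (Exec.push _ _ _) ?_
    rw [S_c, S_upd_c]
    have h5 := Exec.push (Γ := fun _ => Sy) c Sy.H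
      (S i c (eff Sy.N s) (code l ++ (code r ++ R)) (Sy.H :: C))
    rw [S_c, S_upd_c] at h5
    exact h5

theorem exec_scan (hic : i ≠ c) (hout : ∀ a s, ∃ t ≤ T, Exec (out a) s (eff a s) t)
    (hi : ∀ a s l, eff a (update s i l) = update (eff a s) i l)
    (hc : ∀ a s l, eff a (update s c l) = update (eff a s) c l) (x : D) (s : WStore)
    (R : List Sy) :
    ∃ t ≤ (T + 30) * x.size, Exec (scan i c out) (update s i (code x ++ R))
      (update ((code x).foldl (fun s a => eff a s) s) i R) t := by
  have hfc : ∀ (w : List Sy) (s : WStore), (w.foldl (fun s a => eff a s) s) c = s c := by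
    intro w
    induction w with
    | nil => intro s; rfl
    | cons a w ih =>
      intro s
      rw [List.foldl_cons, ih]
      have := hc a s (s c)
      rw [update_eq_self] at this
      rw [this, update_self]
  have h0 : Exec (Cmd.loop c Sy.H (scanBody i c out))
      (S i c ((code x).foldl (fun s a => eff a s) s) R (Sy.L :: s c))
      (S i c ((code x).foldl (fun s a => eff a s) s) R (Sy.L :: s c)) 1 :=
    Exec.loop_done (by rw [S_c]; simp)
  obtain ⟨t, ht, h⟩ := scan_loop hic hout hi hc x s R (Sy.L :: s c) _ 1 h0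
  have hsz := D.size_pos x
  refine ⟨1 + (1 + (t + 1 + 1) + 1) + 1, by nlinarith, ?_⟩
  have h1 := Exec.push (Γ := fun _ => Sy) c Sy.L (update s i (code x ++ R))
  have h2 : update (update s i (code x ++ R)) c (Sy.L :: (update s i (code x ++ R)) c) =
      S i c s (code x ++ R) (Sy.L :: s c) := by
    rw [update_of_ne hic.symm]
    rfl
  rw [h2] at h1
  refine Exec.seq h1 (Exec.seq (Exec.push _ _ _) ?_)
  rw [S_c, S_upd_c]
  refine Exec.seq h ?_
  have h3 := Exec.pop (Γ := fun _ => Sy) c (S i c ((code x).foldl (fun s a => eff a s) s) R (Sy.L :: s c))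
  rw [S_c, List.tail_cons, S_upd_c] at h3
  convert h3 using 1
  unfold S
  rw [update_comm hic, ← hfc (code x) s, update_eq_self]

end Scan

/-! ### Moving back a word above a marker -/

/-- the body of the loop of `back` -/
def backBody (j i c : WK) : WCmd :=
  Cmd.cond j Sy.L (Cmd.seq (Cmd.pop j) (Cmd.push i Sy.L))
    (Cmd.cond j Sy.N (Cmd.seq (Cmd.pop j) (Cmd.push i Sy.N))
      (Cmd.seq (Cmd.pop j) (Cmd.pop c)))

/-- move the symbols of stack `j` above the first marker `H` to stack `i` (reversing them), and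
remove the marker; stack `c` carries a flag -/
def back (j i c : WK) : WCmd :=
  Cmd.seq (Cmd.push c Sy.L) (Cmd.seq (Cmd.push c Sy.H)
    (Cmd.seq (Cmd.loop c Sy.H (backBody j i c)) (Cmd.pop c)))

section Back

variable {j i c : WK}

/-- a store with three stacks replaced -/
private def S3 (j i c : WK) (s : WStore) (a b d : List Sy) : WStore :=
  update (update (update s j a) i b) c d

private theorem S3_c (s : WStore) (a b d : List Sy) : S3 j i c s a b d c = d := by simp [S3]

private theorem S3_i (hic : i ≠ c) (s : WStore) (a b d : List Sy) : S3 j i c s a b d i = b := by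
  simp [S3, hic]

private theorem S3_j (hjc : j ≠ c) (hji : j ≠ i) (s : WStore) (a b d : List Sy) :
    S3 j i c s a b d j = a := by
  simp [S3, hjc, hji]

private theorem S3_upd_c (s : WStore) (a b d d' : List Sy) :
    update (S3 j i c s a b d) c d' = S3 j i c s a b d' := by simp [S3]

private theorem S3_upd_i (hic : i ≠ c) (s : WStore) (a b d b' : List Sy) :
    update (S3 j i c s a b d) i b' = S3 j i c s a b' d := by
  unfold S3
  rw [update_comm hic.symm, update_idem]

private theorem S3_upd_j (hjc : j ≠ c) (hji : j ≠ i) (s : WStore) (a b d a' : List Sy) :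
    update (S3 j i c s a b d) j a' = S3 j i c s a' b d := by
  unfold S3
  rw [update_comm hjc.symm, update_comm hji.symm, update_idem]

theorem back_loop (hji : j ≠ i) (hjc : j ≠ c) (hic : i ≠ c) (w : List Sy) (hw : Sy.H ∉ w) :
    ∀ (s : WStore) (R B C : List Sy), ∃ t ≤ 10 * w.length + 10,
      Exec (Cmd.loop c Sy.H (backBody j i c))
        (S3 j i c s (w ++ Sy.H :: R) B (Sy.H :: Sy.L :: C))
        (S3 j i c s R (w.reverse ++ B) (Sy.L :: C)) t := by
  induction w with
  | nil =>
    intro s R B C
    refine ⟨(1 + 1 + 1 + 1 + 1) + 1 + 1, by simp, ?_⟩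
    have h0 : Exec (Cmd.loop c Sy.H (backBody j i c)) (S3 j i c s R B (Sy.L :: C))
        (S3 j i c s R B (Sy.L :: C)) 1 := Exec.loop_done (by rw [S3_c]; simp)
    refine Exec.loop_step (t := 5) (t' := 1) (by rw [S3_c]; rfl) ?_ h0
    refine Exec.cond_false (t := 4) (by rw [S3_j hjc hji]; simp) ?_
    refine Exec.cond_false (t := 3) (by rw [S3_j hjc hji]; simp) ?_
    refine Exec.seq (t := 1) (t' := 1) (Exec.pop _ _) ?_
    rw [S3_j hjc hji, S3_upd_j hjc hji]
    have h := Exec.pop (Γ := fun _ => Sy) c
      (S3 j i c s ([] ++ Sy.H :: R).tail B (Sy.H :: Sy.L :: C))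
    rw [S3_c, S3_upd_c] at h
    exact h
  | cons a w ih =>
    intro s R B C
    have hw' : Sy.H ∉ w := fun h => hw (List.mem_cons_of_mem _ h)
    obtain ⟨t, ht, h⟩ := ih hw' s R (a :: B) C
    have hrev : (a :: w).reverse ++ B = w.reverse ++ a :: B := by simp
    rw [hrev]
    cases a with
    | L =>
      refine ⟨4 + t + 1, by simp only [List.length_cons]; omega, ?_⟩
      refine Exec.loop_step (t := 4) (by rw [S3_c]; rfl) ?_ h
      refine Exec.cond_true (t := 3) (by rw [S3_j hjc hji]; simp) ?_
      refine Exec.seq (t := 1) (t' := 1) (Exec.pop _ _) ?_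
      rw [S3_j hjc hji, S3_upd_j hjc hji]
      have h := Exec.push (Γ := fun _ => Sy) i Sy.L
        (S3 j i c s (Sy.L :: w ++ Sy.H :: R).tail B (Sy.H :: Sy.L :: C))
      rw [S3_i hic, S3_upd_i hic] at h
      exact h
    | N =>
      refine ⟨5 + t + 1, by simp only [List.length_cons]; omega, ?_⟩
      refine Exec.loop_step (t := 5) (by rw [S3_c]; rfl) ?_ h
      refine Exec.cond_false (t := 4) (by rw [S3_j hjc hji]; simp) ?_
      refine Exec.cond_true (t := 3) (by rw [S3_j hjc hji]; simp) ?_
      refine Exec.seq (t := 1) (t' := 1) (Exec.pop _ _) ?_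
      rw [S3_j hjc hji, S3_upd_j hjc hji]
      have h := Exec.push (Γ := fun _ => Sy) i Sy.N
        (S3 j i c s (Sy.N :: w ++ Sy.H :: R).tail B (Sy.H :: Sy.L :: C))
      rw [S3_i hic, S3_upd_i hic] at h
      exact h
    | H => exact absurd (List.mem_cons_self) hw

theorem exec_back (hji : j ≠ i) (hjc : j ≠ c) (hic : i ≠ c) (w : List Sy) (hw : Sy.H ∉ w)
    (s : WStore) (R : List Sy) :
    ∃ t ≤ 10 * w.length + 20, Exec (back j i c) (update s j (w ++ Sy.H :: R))
      (update (update s j R) i (w.reverse ++ s i)) t := by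
  obtain ⟨t, ht, h⟩ := back_loop hji hjc hic w hw s R (s i) (s c)
  refine ⟨1 + (1 + (t + 1 + 1) + 1) + 1, by omega, ?_⟩
  have h1 := Exec.push (Γ := fun _ => Sy) c Sy.L (update s j (w ++ Sy.H :: R))
  have h2 : update (update s j (w ++ Sy.H :: R)) c
      (Sy.L :: (update s j (w ++ Sy.H :: R)) c) =
      S3 j i c s (w ++ Sy.H :: R) (s i) (Sy.L :: s c) := by
    unfold S3
    rw [update_of_ne hjc.symm]
    congr 1
    rw [update_comm hji, update_eq_self]
  rw [h2] at h1
  refine Exec.seq h1 (Exec.seq (Exec.push _ _ _) ?_)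
  rw [S3_c, S3_upd_c]
  refine Exec.seq h ?_
  have h3 := Exec.pop (Γ := fun _ => Sy) c (S3 j i c s R (w.reverse ++ s i) (Sy.L :: s c))
  rw [S3_c, List.tail_cons, S3_upd_c] at h3
  convert h3 using 1
  unfold S3
  rw [update_comm hic, update_comm hjc, update_eq_self]

end Back

/-! ### Moving a tree -/

theorem foldl_push (j : WK) (w : List Sy) : ∀ s : WStore,
    w.foldl (fun (s : WStore) a => update s j (a :: s j)) s = update s j (w.reverse ++ s j) := by
  induction w with
  | nil => intro s; simp
  | cons a w ih =>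
    intro s
    rw [List.foldl_cons, ih, update_self, update_idem]
    simp

theorem foldl_push2 {j j' : WK} (h : j ≠ j') (w : List Sy) : ∀ s : WStore,
    w.foldl (fun (s : WStore) a => update (update s j (a :: s j)) j' (a :: s j')) s =
      update (update s j (w.reverse ++ s j)) j' (w.reverse ++ s j') := by
  induction w with
  | nil => intro s; simp
  | cons a w ih =>
    intro s
    rw [List.foldl_cons, ih, update_self, update_of_ne h, update_self]
    rw [update_comm h.symm, update_idem, update_idem]
    simp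

/-- move a tree from stack `i` to stack `j`, reversed and above a marker `H` -/
def toRev (i j c : WK) : WCmd := Cmd.seq (Cmd.push j Sy.H) (scan i c (fun a => Cmd.push j a))

theorem exec_toRev {i j c : WK} (hij : i ≠ j) (hic : i ≠ c) (hjc : j ≠ c) (x : D) (s : WStore)
    (R : List Sy) :
    ∃ t ≤ 40 * x.size, Exec (toRev i j c) (update s i (code x ++ R))
      (update (update s i R) j ((code x).reverse ++ Sy.H :: s j)) t := by
  obtain ⟨t, ht, h⟩ := exec_scan (T := 1) hic (out := fun a => Cmd.push j a)
    (eff := fun a s => update s j (a :: s j))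
    (fun a s => ⟨1, le_rfl, Exec.push _ _ _⟩)
    (fun a s l => by rw [update_of_ne hij.symm, update_comm hij])
    (fun a s l => by rw [update_of_ne hjc, update_comm hjc.symm])
    x (update s j (Sy.H :: s j)) R
  have hsz := D.size_pos x
  refine ⟨1 + t + 1, by omega, ?_⟩
  refine Exec.seq (Exec.push _ _ _) ?_
  rw [update_of_ne hij.symm, update_comm hij]
  rw [foldl_push, update_self, update_idem] at h
  rw [update_comm hij]
  exact h

theorem exec_back_code {j i c : WK} (hji : j ≠ i) (hjc : j ≠ c) (hic : i ≠ c) (x : D)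
    (s : WStore) (R : List Sy) :
    ∃ t ≤ 30 * x.size, Exec (back j i c) (update s j ((code x).reverse ++ Sy.H :: R))
      (update (update s j R) i (code x ++ s i)) t := by
  obtain ⟨t, ht, h⟩ := exec_back hji hjc hic (code x).reverse
    (by rw [List.mem_reverse]; exact H_notMem_code x) s R
  rw [List.reverse_reverse] at h
  rw [List.length_reverse, length_code] at ht
  exact ⟨t, by have := D.size_pos x; omega, h⟩

/-! ### Tree programs on stack `0` -/

theorem WStore.put_zero (s : WStore) (x : D) : s.put x 0 = code x ++ s 0 := by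
  simp [WStore.put]

theorem head_put_leaf (s : WStore) : (s.put D.leaf 0).head? = some Sy.L := by
  simp [WStore.put, code]

theorem head_put_node (s : WStore) (l r : D) : (s.put (D.node l r) 0).head? = some Sy.N := by
  simp [WStore.put, code]

/-- duplicate the top tree -/
def dup : WCmd :=
  Cmd.seq (Cmd.push 1 Sy.H) (Cmd.seq (Cmd.push 2 Sy.H)
    (Cmd.seq (scan 0 3 (fun a => Cmd.seq (Cmd.push 1 a) (Cmd.push 2 a)))
      (Cmd.seq (back 1 0 3) (back 2 0 3))))

theorem exec_dup (s : WStore) (x : D) :
    ∃ t ≤ 120 * x.size, Exec dup (s.put x) ((s.put x).put x) t := by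
  have h01 : (0 : WK) ≠ 1 := by decide
  have h02 : (0 : WK) ≠ 2 := by decide
  have h03 : (0 : WK) ≠ 3 := by decide
  have h12 : (1 : WK) ≠ 2 := by decide
  have h13 : (1 : WK) ≠ 3 := by decide
  have h23 : (2 : WK) ≠ 3 := by decide
  obtain ⟨t, ht, h⟩ := exec_scan (T := 3) h03
    (out := fun a => Cmd.seq (Cmd.push 1 a) (Cmd.push 2 a))
    (eff := fun a s => update (update s 1 (a :: s 1)) 2 (a :: s 2))
    (fun a s => ⟨3, le_rfl, by
      refine Exec.seq (t := 1) (t' := 1) (Exec.push _ _ _) ?_
      have h := Exec.push (Γ := fun _ => Sy) 2 a (update s 1 (a :: s 1))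
      rw [update_of_ne h12.symm] at h
      exact h⟩)
    (fun a s l => by
      rw [update_of_ne h01.symm, update_of_ne h02.symm, update_comm h01, update_comm h02])
    (fun a s l => by
      rw [update_of_ne h13, update_of_ne h23, update_comm h13.symm, update_comm h23.symm])
    x (update (update s 1 (Sy.H :: s 1)) 2 (Sy.H :: s 2)) (s 0)
  rw [foldl_push2 h12] at h
  simp only [update_self, update_of_ne h12] at h
  obtain ⟨t1, ht1, h1⟩ := exec_back_code (j := 1) (i := 0) (c := 3) h01.symm h13 h03 x
    (update s 2 ((code x).reverse ++ Sy.H :: s 2)) (s 1)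
  obtain ⟨t2, ht2, h2⟩ := exec_back_code (j := 2) (i := 0) (c := 3) h02.symm h23 h03 x
    (s.put x) (s 2)
  have hsz := D.size_pos x
  refine ⟨1 + (1 + (t + (t1 + t2 + 1) + 1) + 1) + 1, by omega, ?_⟩
  refine Exec.seq (Exec.push _ _ _) (Exec.seq (Exec.push _ _ _)
    (Exec.seq (s' := update (update s 1 ((code x).reverse ++ Sy.H :: s 1)) 2
      ((code x).reverse ++ Sy.H :: s 2)) ?_
      (Exec.seq (s' := update (s.put x) 2 ((code x).reverse ++ Sy.H :: s 2)) ?_ ?_)))
  · convert h using 1
    · funext k
      fin_cases k <;> simp [WStore.put, update]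
    · funext k
      fin_cases k <;> simp [update]
  · convert h1 using 1
    · funext k
      fin_cases k <;> simp [update]
    · funext k
      fin_cases k <;> simp [WStore.put, update]
  · convert h2 using 1
    funext k
    fin_cases k <;> simp [WStore.put, update]

/-- swap the two top trees -/
def swap : WCmd :=
  Cmd.seq (toRev 0 1 3) (Cmd.seq (toRev 0 2 3) (Cmd.seq (back 1 0 3) (back 2 0 3)))

theorem exec_swap (s : WStore) (x y : D) :
    ∃ t ≤ 80 * (x.size + y.size), Exec swap ((s.put y).put x) ((s.put x).put y) t := by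
  have h01 : (0 : WK) ≠ 1 := by decide
  have h02 : (0 : WK) ≠ 2 := by decide
  have h03 : (0 : WK) ≠ 3 := by decide
  have h13 : (1 : WK) ≠ 3 := by decide
  have h23 : (2 : WK) ≠ 3 := by decide
  obtain ⟨t1, ht1, h1⟩ := exec_toRev (i := 0) (j := 1) (c := 3) h01 h03 h13 x s
    (code y ++ s 0)
  obtain ⟨t2, ht2, h2⟩ := exec_toRev (i := 0) (j := 2) (c := 3) h02 h03 h23 y
    (update s 1 ((code x).reverse ++ Sy.H :: s 1)) (s 0)
  obtain ⟨t3, ht3, h3⟩ := exec_back_code (j := 1) (i := 0) (c := 3) h01.symm h13 h03 x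
    (update s 2 ((code y).reverse ++ Sy.H :: s 2)) (s 1)
  obtain ⟨t4, ht4, h4⟩ := exec_back_code (j := 2) (i := 0) (c := 3) h02.symm h23 h03 y
    (s.put x) (s 2)
  have hszx := D.size_pos x
  have hszy := D.size_pos y
  refine ⟨t1 + (t2 + (t3 + t4 + 1) + 1) + 1, by omega, ?_⟩
  refine Exec.seq (s' := update (update s 0 (code y ++ s 0)) 1
      ((code x).reverse ++ Sy.H :: s 1)) ?_
    (Exec.seq (s' := update (update s 1 ((code x).reverse ++ Sy.H :: s 1)) 2
      ((code y).reverse ++ Sy.H :: s 2)) ?_
      (Exec.seq (s' := update (s.put x) 2 ((code y).reverse ++ Sy.H :: s 2)) ?_ ?_))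
  · convert h1 using 1
    funext k
    fin_cases k <;> simp [WStore.put, update]
  · convert h2 using 1
    · funext k
      fin_cases k <;> simp [update]
    · funext k
      fin_cases k <;> simp [update]
  · convert h3 using 1
    · funext k
      fin_cases k <;> simp [update]
    · funext k
      fin_cases k <;> simp [WStore.put, update]
  · convert h4 using 1
    funext k
    fin_cases k <;> simp [WStore.put, update]

/-- drop the top tree -/
def drop : WCmd := scan 0 3 (fun _ => Cmd.skip)

theorem exec_drop (s : WStore) (x : D) : ∃ t ≤ 40 * x.size, Exec drop (s.put x) s t := by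
  obtain ⟨t, ht, h⟩ := exec_scan (T := 1) (i := 0) (c := 3) (by decide)
    (out := fun _ => Cmd.skip) (eff := fun _ s => s)
    (fun a s => ⟨1, le_rfl, Exec.skip _⟩) (fun _ _ _ => rfl) (fun _ _ _ => rfl) x s (s 0)
  refine ⟨t, by omega, ?_⟩
  have hf : ∀ (w : List Sy) (s : WStore), w.foldl (fun (s : WStore) _ => s) s = s := by
    intro w
    induction w with
    | nil => intro s; rfl
    | cons a w ih => intro s; rw [List.foldl_cons, ih]
  rw [hf, update_eq_self] at h
  exact h

/-- split a node: the left subtree is on top -/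
theorem exec_popN (s : WStore) (l r : D) :
    Exec (Cmd.pop 0) (s.put (D.node l r)) ((s.put r).put l) 1 := by
  have h := Exec.pop (Γ := fun _ => Sy) 0 (s.put (D.node l r))
  convert h using 1
  funext k
  fin_cases k <;> simp [WStore.put, update, code]

/-- make a node: the left subtree is on top -/
theorem exec_pushN (s : WStore) (l r : D) :
    Exec (Cmd.push 0 Sy.N) ((s.put r).put l) (s.put (D.node l r)) 1 := by
  have h := Exec.push (Γ := fun _ => Sy) 0 Sy.N ((s.put r).put l)
  convert h using 1
  funext k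
  fin_cases k <;> simp [WStore.put, update, code]

theorem exec_popL (s : WStore) : Exec (Cmd.pop 0) (s.put D.leaf) s 1 := by
  have h := Exec.pop (Γ := fun _ => Sy) 0 (s.put D.leaf)
  convert h using 1
  funext k
  fin_cases k <;> simp [WStore.put, update, code]

theorem exec_pushL (s : WStore) : Exec (Cmd.push 0 Sy.L) s (s.put D.leaf) 1 :=
  Exec.push (Γ := fun _ => Sy) 0 Sy.L s

/-- push a constant tree -/
def pushTree : D → WCmd
  | D.leaf => Cmd.push 0 Sy.L
  | D.node l r => Cmd.seq (pushTree r) (Cmd.seq (pushTree l) (Cmd.push 0 Sy.N))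

theorem exec_pushTree (d : D) : ∀ s : WStore,
    ∃ t ≤ 3 * d.size, Exec (pushTree d) s (s.put d) t := by
  induction d with
  | leaf => exact fun s => ⟨1, by simp [D.size], exec_pushL s⟩
  | node l r ihl ihr =>
    intro s
    obtain ⟨t1, ht1, h1⟩ := ihr s
    obtain ⟨t2, ht2, h2⟩ := ihl (s.put r)
    refine ⟨t1 + (t2 + 1 + 1) + 1, by simp only [D.size]; omega, ?_⟩
    exact Exec.seq h1 (Exec.seq h2 (exec_pushN s l r))

end Vale.Agent.Lib.Common.PolyTime

end

section

/-!
Module PT-B1: closure properties of `PolyOn`.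
-/

namespace Vale.Agent.Lib.Common.PolyTime

theorem natPoly_eval_mono (p : Polynomial ℕ) {a b : ℕ} (h : a ≤ b) : p.eval a ≤ p.eval b := by
  rw [Polynomial.eval_eq_sum, Polynomial.eval_eq_sum, Polynomial.sum, Polynomial.sum]
  exact Finset.sum_le_sum fun i _ => Nat.mul_le_mul_left _ (Nat.pow_le_pow_left h i)

/-- introduction rule for `PolyOn` -/
theorem PolyOn.intro {S : Set D} {F : D → D} (c : WCmd) (p : Polynomial ℕ)
    (h1 : ∀ x ∈ S, (F x).size ≤ p.eval x.size)
    (h2 : ∀ x ∈ S, ∀ s : WStore, ∃ t ≤ p.eval x.size, Exec c (s.put x) (s.put (F x)) t) :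
    PolyOn S F := ⟨c, p, fun x hx => ⟨h1 x hx, h2 x hx⟩⟩

namespace PolyOn

theorem mono {S T : Set D} {F : D → D} (hF : PolyOn T F) (h : S ⊆ T) : PolyOn S F := by
  obtain ⟨c, p, hp⟩ := hF
  exact ⟨c, p, fun x hx => hp x (h hx)⟩

theorem congr {S : Set D} {F G : D → D} (hF : PolyOn S F) (h : ∀ x ∈ S, F x = G x) :
    PolyOn S G := by
  obtain ⟨c, p, hp⟩ := hF
  refine ⟨c, p, fun x hx => ?_⟩
  rw [← h x hx]
  exact hp x hx

open Polynomial

theorem id (S : Set D) : PolyOn S (fun x => x) :=
  PolyOn.intro Cmd.skip (X + 1) (fun x _ => by simp) (fun x _ s => ⟨1, by simp, Exec.skip _⟩)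

theorem comp {S T : Set D} {F G : D → D} (hF : PolyOn T F) (hG : PolyOn S G)
    (h : ∀ x ∈ S, G x ∈ T) : PolyOn S (fun x => F (G x)) := by
  obtain ⟨cF, pF, hF⟩ := hF
  obtain ⟨cG, pG, hG⟩ := hG
  have hb : ∀ x ∈ S, pF.eval (G x).size ≤ pF.eval (pG.eval x.size) := fun x hx =>
    natPoly_eval_mono pF (hG x hx).1
  refine PolyOn.intro (Cmd.seq cG cF) (pF.comp pG + pG + 1) (fun x hx => ?_) (fun x hx s => ?_)
  · have h1 := (hF (G x) (h x hx)).1
    have h2 := hb x hx
    simp only [eval_add, eval_comp, eval_one]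
    omega
  · obtain ⟨t1, ht1, h1⟩ := (hG x hx).2 s
    obtain ⟨t2, ht2, h2⟩ := (hF (G x) (h x hx)).2 s
    refine ⟨t1 + t2 + 1, ?_, Exec.seq h1 h2⟩
    have h3 := hb x hx
    simp only [eval_add, eval_comp, eval_one]
    omega

theorem const (S : Set D) (d : D) : PolyOn S (fun _ => d) := by
  refine PolyOn.intro (Cmd.seq drop (pushTree d)) (C 40 * X + C (3 * d.size + 1))
    (fun x hx => ?_) (fun x hx s => ?_)
  · simp only [eval_add, eval_mul, eval_C, eval_X]
    omega
  · obtain ⟨t1, ht1, h1⟩ := exec_drop s x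
    obtain ⟨t2, ht2, h2⟩ := exec_pushTree d s
    refine ⟨t1 + t2 + 1, ?_, Exec.seq h1 h2⟩
    simp only [eval_add, eval_mul, eval_C, eval_X]
    omega

theorem node {S : Set D} {F G : D → D} (hF : PolyOn S F) (hG : PolyOn S G) :
    PolyOn S (fun x => D.node (F x) (G x)) := by
  obtain ⟨cF, pF, hF⟩ := hF
  obtain ⟨cG, pG, hG⟩ := hG
  refine PolyOn.intro
    (Cmd.seq dup (Cmd.seq cG (Cmd.seq swap (Cmd.seq cF (Cmd.push 0 Sy.N)))))
    (C 200 * X + C 81 * pG + pF + C 5) (fun x hx => ?_) (fun x hx s => ?_)
  · have h1 := (hF x hx).1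
    have h2 := (hG x hx).1
    simp only [D.size, eval_add, eval_mul, eval_C, eval_X]
    omega
  · obtain ⟨t1, ht1, h1⟩ := exec_dup s x
    obtain ⟨t2, ht2, h2⟩ := (hG x hx).2 (s.put x)
    obtain ⟨t3, ht3, h3⟩ := exec_swap s (G x) x
    obtain ⟨t4, ht4, h4⟩ := (hF x hx).2 (s.put (G x))
    refine ⟨t1 + (t2 + (t3 + (t4 + 1 + 1) + 1) + 1) + 1, ?_,
      Exec.seq h1 (Exec.seq h2 (Exec.seq h3 (Exec.seq h4 (exec_pushN s _ _))))⟩
    have h5 := (hG x hx).1
    simp only [eval_add, eval_mul, eval_C, eval_X]
    omega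

theorem left (S : Set D) : PolyOn S D.left := by
  refine PolyOn.intro
    (Cmd.cond 0 Sy.N (Cmd.seq (Cmd.pop 0) (Cmd.seq swap drop)) Cmd.skip)
    (C 130 * X + C 10) (fun x hx => ?_) (fun x hx s => ?_)
  · simp only [eval_add, eval_mul, eval_C, eval_X]
    cases x <;> simp only [D.left, D.size] <;> omega
  · cases x with
    | leaf =>
      refine ⟨1 + 1, by simp, Exec.cond_false ?_ (Exec.skip _)⟩
      rw [head_put_leaf]
      simp
    | node l r =>
      obtain ⟨t1, ht1, h1⟩ := exec_swap s l r
      obtain ⟨t2, ht2, h2⟩ := exec_drop (s.put l) r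
      refine ⟨1 + (t1 + t2 + 1) + 1 + 1, ?_, Exec.cond_true (head_put_node s l r)
        (Exec.seq (exec_popN s l r) (Exec.seq h1 h2))⟩
      simp only [D.size, eval_add, eval_mul, eval_C, eval_X]
      omega

theorem right (S : Set D) : PolyOn S D.right := by
  refine PolyOn.intro
    (Cmd.cond 0 Sy.N (Cmd.seq (Cmd.pop 0) drop) Cmd.skip)
    (C 130 * X + C 10) (fun x hx => ?_) (fun x hx s => ?_)
  · simp only [eval_add, eval_mul, eval_C, eval_X]
    cases x <;> simp only [D.right, D.size] <;> omega
  · cases x with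
    | leaf =>
      refine ⟨1 + 1, by simp, Exec.cond_false ?_ (Exec.skip _)⟩
      rw [head_put_leaf]
      simp
    | node l r =>
      obtain ⟨t2, ht2, h2⟩ := exec_drop (s.put r) l
      refine ⟨1 + t2 + 1 + 1, ?_, Exec.cond_true (head_put_node s l r)
        (Exec.seq (exec_popN s l r) h2)⟩
      simp only [D.size, eval_add, eval_mul, eval_C, eval_X]
      omega

theorem ite {S : Set D} {C F G : D → D} (hC : PolyOn S C)
    (hF : PolyOn {x | x ∈ S ∧ C x = D.leaf} F) (hG : PolyOn {x | x ∈ S ∧ C x ≠ D.leaf} G) :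
    PolyOn S (fun x => if C x = D.leaf then F x else G x) := by
  obtain ⟨cC, pC, hC⟩ := hC
  obtain ⟨cF, pF, hF⟩ := hF
  obtain ⟨cG, pG, hG⟩ := hG
  refine PolyOn.intro
    (Cmd.seq dup (Cmd.seq cC (Cmd.cond 0 Sy.L (Cmd.seq (Cmd.pop 0) cF) (Cmd.seq drop cG))))
    (Polynomial.C 200 * X + Polynomial.C 50 * pC + pF + pG + Polynomial.C 10)
    (fun x hx => ?_) (fun x hx s => ?_)
  · simp only [eval_add, eval_mul, eval_C, eval_X]
    split_ifs with h
    · have h1 := (hF x ⟨hx, h⟩).1
      omega
    · have h2 := (hG x ⟨hx, h⟩).1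
      omega
  · obtain ⟨t1, ht1, h1⟩ := exec_dup s x
    obtain ⟨t2, ht2, h2⟩ := (hC x hx).2 (s.put x)
    have h5 := (hC x hx).1
    by_cases hxC : C x = D.leaf
    · obtain ⟨t3, ht3, h3⟩ := (hF x ⟨hx, hxC⟩).2 s
      rw [hxC] at h2
      simp only [hxC, if_true]
      refine ⟨t1 + (t2 + (1 + t3 + 1 + 1) + 1) + 1, ?_, Exec.seq h1 (Exec.seq h2
        (Exec.cond_true (head_put_leaf _) (Exec.seq (exec_popL _) h3)))⟩
      simp only [eval_add, eval_mul, eval_C, eval_X]
      omega
    · obtain ⟨t3, ht3, h3⟩ := (hG x ⟨hx, hxC⟩).2 s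
      obtain ⟨t4, ht4, h4⟩ := exec_drop (s.put x) (C x)
      simp only [hxC, if_false]
      refine ⟨t1 + (t2 + (t4 + t3 + 1 + 1) + 1) + 1, ?_, Exec.seq h1 (Exec.seq h2
        (Exec.cond_false ?_ (Exec.seq h4 h3)))⟩
      · simp only [eval_add, eval_mul, eval_C, eval_X]
        omega
      · cases hCx : C x with
        | leaf => exact absurd hCx hxC
        | node l r =>
          rw [head_put_node]
          simp

end PolyOn

end Vale.Agent.Lib.Common.PolyTime

end

section

/-!
Module PT-B2: bounded iteration and equality test for `PolyOn`.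
-/

namespace Vale.Agent.Lib.Common.PolyTime

namespace B2

/-- `c` runs from `s` to `s'` within `T` steps -/
def Run (c : WCmd) (s s' : WStore) (T : ℕ) : Prop := ∃ t ≤ T, Exec c s s' t

namespace Run

theorem mono {c : WCmd} {s s' : WStore} {T T' : ℕ} (h : Run c s s' T) (hT : T ≤ T') :
    Run c s s' T' := by
  obtain ⟨t, ht, h⟩ := h
  exact ⟨t, ht.trans hT, h⟩

theorem skip (s : WStore) : Run Cmd.skip s s 1 := ⟨1, le_rfl, Exec.skip s⟩

theorem push (k : WK) (a : Sy) (s : WStore) :
    Run (Cmd.push k a) s (Function.update s k (a :: s k)) 1 := ⟨1, le_rfl, Exec.push k a s⟩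

theorem pop (k : WK) (s : WStore) :
    Run (Cmd.pop k) s (Function.update s k (s k).tail) 1 := ⟨1, le_rfl, Exec.pop k s⟩

theorem seq {c d : WCmd} {s s' s'' : WStore} {T T' : ℕ} (h : Run c s s' T)
    (h' : Run d s' s'' T') : Run (Cmd.seq c d) s s'' (T + T' + 1) := by
  obtain ⟨t, ht, h⟩ := h
  obtain ⟨t', ht', h'⟩ := h'
  exact ⟨t + t' + 1, by omega, Exec.seq h h'⟩

theorem cond_true {k : WK} {a : Sy} {c d : WCmd} {s s' : WStore} {T : ℕ}
    (hk : (s k).head? = some a) (h : Run c s s' T) : Run (Cmd.cond k a c d) s s' (T + 1) := by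
  obtain ⟨t, ht, h⟩ := h
  exact ⟨t + 1, by omega, Exec.cond_true hk h⟩

theorem cond_false {k : WK} {a : Sy} {c d : WCmd} {s s' : WStore} {T : ℕ}
    (hk : (s k).head? ≠ some a) (h : Run d s s' T) : Run (Cmd.cond k a c d) s s' (T + 1) := by
  obtain ⟨t, ht, h⟩ := h
  exact ⟨t + 1, by omega, Exec.cond_false hk h⟩

theorem loop_done {k : WK} {a : Sy} {c : WCmd} {s : WStore}
    (hk : (s k).head? ≠ some a) : Run (Cmd.loop k a c) s s 1 :=
  ⟨1, le_rfl, Exec.loop_done hk⟩

theorem loop_step {k : WK} {a : Sy} {c : WCmd} {s s' s'' : WStore} {T T' : ℕ}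
    (hk : (s k).head? = some a) (h : Run c s s' T) (h' : Run (Cmd.loop k a c) s' s'' T') :
    Run (Cmd.loop k a c) s s'' (T + T' + 1) := by
  obtain ⟨t, ht, h⟩ := h
  obtain ⟨t', ht', h'⟩ := h'
  exact ⟨t + t' + 1, by omega, Exec.loop_step hk h h'⟩

end Run

/-- a store given by its six stacks -/
def mk6 (a b c d e f : List Sy) : WStore := ![a, b, c, d, e, f]

section Mk6

variable (a b c d e f x : List Sy)

theorem eq_mk6 (s : WStore) : s = mk6 (s 0) (s 1) (s 2) (s 3) (s 4) (s 5) := by
  funext k
  fin_cases k <;> rfl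

@[simp] theorem mk6_0 : mk6 a b c d e f 0 = a := rfl
@[simp] theorem mk6_1 : mk6 a b c d e f 1 = b := rfl
@[simp] theorem mk6_2 : mk6 a b c d e f 2 = c := rfl
@[simp] theorem mk6_3 : mk6 a b c d e f 3 = d := rfl
@[simp] theorem mk6_4 : mk6 a b c d e f 4 = e := rfl
@[simp] theorem mk6_5 : mk6 a b c d e f 5 = f := rfl

@[simp] theorem upd6_0 : Function.update (mk6 a b c d e f) 0 x = mk6 x b c d e f := by
  funext k; fin_cases k <;> rfl
@[simp] theorem upd6_1 : Function.update (mk6 a b c d e f) 1 x = mk6 a x c d e f := by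
  funext k; fin_cases k <;> rfl
@[simp] theorem upd6_2 : Function.update (mk6 a b c d e f) 2 x = mk6 a b x d e f := by
  funext k; fin_cases k <;> rfl
@[simp] theorem upd6_3 : Function.update (mk6 a b c d e f) 3 x = mk6 a b c x e f := by
  funext k; fin_cases k <;> rfl
@[simp] theorem upd6_4 : Function.update (mk6 a b c d e f) 4 x = mk6 a b c d x f := by
  funext k; fin_cases k <;> rfl
@[simp] theorem upd6_5 : Function.update (mk6 a b c d e f) 5 x = mk6 a b c d e x := by
  funext k; fin_cases k <;> rfl

theorem put_mk6 (t : D) : WStore.put (mk6 a b c d e f) t = mk6 (code t ++ a) b c d e f := by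
  unfold WStore.put
  simp

end Mk6

theorem code_length (x : D) : (code x).length = x.size := by
  induction x with
  | leaf => rfl
  | node l r hl hr => simp [code, D.size, hl, hr]; 

theorem size_pos (x : D) : 0 < x.size := by cases x <;> simp [D.size]

theorem code_injective_aux : ∀ (x y : D) (r r' : List Sy), code x ++ r = code y ++ r' →
    x = y ∧ r = r' := by
  intro x
  induction x with
  | leaf =>
    intro y r r' h
    cases y with
    | leaf => simpa [code] using h
    | node l' r' => simp [code] at h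
  | node l r hl hr =>
    intro y s s' h
    cases y with
    | leaf => simp [code] at h
    | node l' r' =>
      simp only [code, List.cons_append, List.cons.injEq, true_and, List.append_assoc] at h
      obtain ⟨h1, h2⟩ := hl _ _ _ h
      obtain ⟨h3, h4⟩ := hr _ _ _ h2
      exact ⟨by rw [h1, h3], h4⟩

theorem code_injective : Function.Injective code := fun x y h =>
  (code_injective_aux x y [] [] (by simpa using h)).1

theorem code_ne_H (x : D) : ∀ a ∈ code x, a ≠ Sy.H := by
  induction x with
  | leaf => simp [code]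
  | node l r hl hr =>
    intro a ha
    simp only [code, List.mem_cons, List.mem_append] at ha
    rcases ha with rfl | h | h
    · decide
    · exact hl a h
    · exact hr a h

/-! ### Moving a tree (reversed) from stack `0` to stack `j`, counter on stack `3` -/

/-- one step of the parser -/
def parseBody (j : WK) : WCmd :=
  Cmd.cond 0 Sy.N (Cmd.seq (Cmd.pop 0) (Cmd.seq (Cmd.push j Sy.N) (Cmd.push 3 Sy.H)))
    (Cmd.seq (Cmd.pop 0) (Cmd.seq (Cmd.push j Sy.L) (Cmd.pop 3)))

/-- parse one tree of stack `0` and move it to stack `j`, reversed -/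
def parse (j : WK) : WCmd :=
  Cmd.seq (Cmd.push 3 Sy.L) (Cmd.seq (Cmd.push 3 Sy.H)
    (Cmd.seq (Cmd.loop 3 Sy.H (parseBody j)) (Cmd.pop 3)))

theorem parse1_loop (x : D) : ∀ (a b c d e f : List Sy) (S : WStore) (T : ℕ),
    Run (Cmd.loop 3 Sy.H (parseBody 1)) (mk6 a ((code x).reverse ++ b) c d e f) S T →
    Run (Cmd.loop 3 Sy.H (parseBody 1)) (mk6 (code x ++ a) b c (Sy.H :: d) e f) S
      (T + 7 * x.size) := by
  induction x with
  | leaf =>
    intro a b c d e f S T h
    have h1 : Run (parseBody 1) (mk6 (code D.leaf ++ a) b c (Sy.H :: d) e f)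
        (mk6 a (Sy.L :: b) c d e f) 6 := by
      unfold parseBody
      refine Run.cond_false (by simp [code]) ?_
      have e1 := Run.pop 0 (mk6 (code D.leaf ++ a) b c (Sy.H :: d) e f)
      have e2 := Run.push 1 Sy.L (mk6 a b c (Sy.H :: d) e f)
      have e3 := Run.pop 3 (mk6 a (Sy.L :: b) c (Sy.H :: d) e f)
      simp [code] at e1 e2 e3
      simpa [code] using e1.seq (e2.seq e3)
    have h2 := Run.loop_step (k := 3) (a := Sy.H) (s := mk6 (code D.leaf ++ a) b c (Sy.H :: d) e f) (by simp) h1
      (by simpa [code] using h)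
    exact h2.mono (by simp [D.size]; omega)
  | node l r hl hr =>
    intro a b c d e f S T h
    have h1 : Run (parseBody 1) (mk6 (code (D.node l r) ++ a) b c (Sy.H :: d) e f)
        (mk6 (code l ++ (code r ++ a)) (Sy.N :: b) c (Sy.H :: Sy.H :: d) e f) 6 := by
      unfold parseBody
      refine Run.cond_true (by simp [code]) ?_
      have e1 := Run.pop 0 (mk6 (code (D.node l r) ++ a) b c (Sy.H :: d) e f)
      have e2 := Run.push 1 Sy.N (mk6 (code l ++ (code r ++ a)) b c (Sy.H :: d) e f)
      have e3 := Run.push 3 Sy.H (mk6 (code l ++ (code r ++ a)) (Sy.N :: b) c (Sy.H :: d) e f)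
      simp [code] at e1 e2 e3
      simpa [code] using e1.seq (e2.seq e3)
    have h3 := hr a ((code l).reverse ++ Sy.N :: b) c d e f S T (by simpa [code] using h)
    have h4 := hl (code r ++ a) (Sy.N :: b) c (Sy.H :: d) e f S _ h3
    have h2 := Run.loop_step (k := 3) (a := Sy.H) (s := mk6 (code (D.node l r) ++ a) b c (Sy.H :: d) e f) (by simp) h1
      h4
    exact h2.mono (by simp [D.size]; omega)

theorem parse2_loop (x : D) : ∀ (a b c d e f : List Sy) (S : WStore) (T : ℕ),
    Run (Cmd.loop 3 Sy.H (parseBody 2)) (mk6 a b ((code x).reverse ++ c) d e f) S T →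
    Run (Cmd.loop 3 Sy.H (parseBody 2)) (mk6 (code x ++ a) b c (Sy.H :: d) e f) S
      (T + 7 * x.size) := by
  induction x with
  | leaf =>
    intro a b c d e f S T h
    have h1 : Run (parseBody 2) (mk6 (code D.leaf ++ a) b c (Sy.H :: d) e f)
        (mk6 a b (Sy.L :: c) d e f) 6 := by
      unfold parseBody
      refine Run.cond_false (by simp [code]) ?_
      have e1 := Run.pop 0 (mk6 (code D.leaf ++ a) b c (Sy.H :: d) e f)
      have e2 := Run.push 2 Sy.L (mk6 a b c (Sy.H :: d) e f)
      have e3 := Run.pop 3 (mk6 a b (Sy.L :: c) (Sy.H :: d) e f)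
      simp [code] at e1 e2 e3
      simpa [code] using e1.seq (e2.seq e3)
    have h2 := Run.loop_step (k := 3) (a := Sy.H) (s := mk6 (code D.leaf ++ a) b c (Sy.H :: d) e f) (by simp) h1
      (by simpa [code] using h)
    exact h2.mono (by simp [D.size]; omega)
  | node l r hl hr =>
    intro a b c d e f S T h
    have h1 : Run (parseBody 2) (mk6 (code (D.node l r) ++ a) b c (Sy.H :: d) e f)
        (mk6 (code l ++ (code r ++ a)) b (Sy.N :: c) (Sy.H :: Sy.H :: d) e f) 6 := by
      unfold parseBody
      refine Run.cond_true (by simp [code]) ?_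
      have e1 := Run.pop 0 (mk6 (code (D.node l r) ++ a) b c (Sy.H :: d) e f)
      have e2 := Run.push 2 Sy.N (mk6 (code l ++ (code r ++ a)) b c (Sy.H :: d) e f)
      have e3 := Run.push 3 Sy.H (mk6 (code l ++ (code r ++ a)) b (Sy.N :: c) (Sy.H :: d) e f)
      simp [code] at e1 e2 e3
      simpa [code] using e1.seq (e2.seq e3)
    have h3 := hr a b ((code l).reverse ++ Sy.N :: c) d e f S T (by simpa [code] using h)
    have h4 := hl (code r ++ a) b (Sy.N :: c) (Sy.H :: d) e f S _ h3
    have h2 := Run.loop_step (k := 3) (a := Sy.H) (s := mk6 (code (D.node l r) ++ a) b c (Sy.H :: d) e f) (by simp) h1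
      h4
    exact h2.mono (by simp [D.size]; omega)

theorem parse1 (x : D) (a b c d e f : List Sy) :
    Run (parse 1) (mk6 (code x ++ a) b c d e f) (mk6 a ((code x).reverse ++ b) c d e f)
      (7 * x.size + 7) := by
  unfold parse
  have e1 := Run.push 3 Sy.L (mk6 (code x ++ a) b c d e f)
  have e2 := Run.push 3 Sy.H (mk6 (code x ++ a) b c (Sy.L :: d) e f)
  have e3 := parse1_loop x a b c (Sy.L :: d) e f (mk6 a ((code x).reverse ++ b) c (Sy.L :: d) e f) 1
    (Run.loop_done (by simp))
  have e4 := Run.pop 3 (mk6 a ((code x).reverse ++ b) c (Sy.L :: d) e f)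
  simp at e1 e2 e4
  exact (e1.seq (e2.seq (e3.seq e4))).mono (by omega)

theorem parse2 (x : D) (a b c d e f : List Sy) :
    Run (parse 2) (mk6 (code x ++ a) b c d e f) (mk6 a b ((code x).reverse ++ c) d e f)
      (7 * x.size + 7) := by
  unfold parse
  have e1 := Run.push 3 Sy.L (mk6 (code x ++ a) b c d e f)
  have e2 := Run.push 3 Sy.H (mk6 (code x ++ a) b c (Sy.L :: d) e f)
  have e3 := parse2_loop x a b c (Sy.L :: d) e f (mk6 a b ((code x).reverse ++ c) (Sy.L :: d) e f) 1
    (Run.loop_done (by simp))
  have e4 := Run.pop 3 (mk6 a b ((code x).reverse ++ c) (Sy.L :: d) e f)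
  simp at e1 e2 e4
  exact (e1.seq (e2.seq (e3.seq e4))).mono (by omega)

/-! ### Comparing two lists with markers -/

/-- both tops are popped, and the result flag is cleared -/
def cmpBad : WCmd :=
  Cmd.seq (Cmd.pop 1) (Cmd.seq (Cmd.pop 2) (Cmd.seq (Cmd.pop 5) (Cmd.push 5 Sy.L)))

/-- both tops are popped -/
def cmpGood : WCmd := Cmd.seq (Cmd.pop 1) (Cmd.pop 2)

/-- one step of the comparison -/
def cmpBody : WCmd :=
  Cmd.cond 1 Sy.H
    (Cmd.cond 2 Sy.H (Cmd.pop 4)
      (Cmd.seq (Cmd.pop 2) (Cmd.seq (Cmd.pop 5) (Cmd.push 5 Sy.L))))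
    (Cmd.cond 2 Sy.H (Cmd.seq (Cmd.pop 1) (Cmd.seq (Cmd.pop 5) (Cmd.push 5 Sy.L)))
      (Cmd.cond 1 Sy.N (Cmd.cond 2 Sy.N cmpGood cmpBad) (Cmd.cond 2 Sy.N cmpBad cmpGood)))

/-- the result flag of the comparison -/
def cmp : List Sy → List Sy → Sy → Sy
  | [], [], e => e
  | [], _ :: _, _ => Sy.L
  | _ :: _, [], _ => Sy.L
  | x :: u, y :: v, e => cmp u v (if x = y then e else Sy.L)

theorem cmp_L : ∀ u v : List Sy, cmp u v Sy.L = Sy.L
  | [], [] => rfl
  | [], _ :: _ => rfl
  | _ :: _, [] => rfl
  | x :: u, y :: v => by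
    unfold cmp
    rw [ite_self]
    exact cmp_L u v

theorem cmp_H : ∀ u v : List Sy, cmp u v Sy.H = if u = v then Sy.H else Sy.L
  | [], [] => rfl
  | [], _ :: _ => rfl
  | _ :: _, [] => rfl
  | x :: u, y :: v => by
    unfold cmp
    by_cases h : x = y
    · subst h
      rw [if_pos rfl, cmp_H u v]
      simp
    · rw [if_neg h, cmp_L, if_neg]
      simp [h]

theorem cmpGood_run (x y : Sy) (a b c d e f : List Sy) :
    Run cmpGood (mk6 a (x :: b) (y :: c) d e f) (mk6 a b c d e f) 3 := by
  unfold cmpGood
  have e1 := Run.pop 1 (mk6 a (x :: b) (y :: c) d e f)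
  have e2 := Run.pop 2 (mk6 a b (y :: c) d e f)
  simp at e1 e2
  exact e1.seq e2

theorem cmpBad_run (x y z : Sy) (a b c d e f : List Sy) :
    Run cmpBad (mk6 a (x :: b) (y :: c) d e (z :: f)) (mk6 a b c d e (Sy.L :: f)) 7 := by
  unfold cmpBad
  have e1 := Run.pop 1 (mk6 a (x :: b) (y :: c) d e (z :: f))
  have e2 := Run.pop 2 (mk6 a b (y :: c) d e (z :: f))
  have e3 := Run.pop 5 (mk6 a b c d e (z :: f))
  have e4 := Run.push 5 Sy.L (mk6 a b c d e f)
  simp at e1 e2 e3 e4
  exact e1.seq (e2.seq (e3.seq e4))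

theorem cmp_loop_nil_left (v : List Sy) (hv : ∀ y ∈ v, y ≠ Sy.H) :
    ∀ (z : Sy) (a b c d e f : List Sy) (_ : e.head? ≠ some Sy.H),
    Run (Cmd.loop 4 Sy.H cmpBody) (mk6 a (Sy.H :: b) (v ++ Sy.H :: c) d (Sy.H :: e) (z :: f))
      (mk6 a (Sy.H :: b) (Sy.H :: c) d e (cmp [] v z :: f)) (10 * v.length + 10) := by
  induction v with
  | nil =>
    intro z a b c d e f he
    have h1 : Run cmpBody (mk6 a (Sy.H :: b) (Sy.H :: c) d (Sy.H :: e) (z :: f))
        (mk6 a (Sy.H :: b) (Sy.H :: c) d e (z :: f)) 3 := by
      unfold cmpBody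
      refine Run.cond_true (by simp) (Run.cond_true (by simp) ?_)
      simpa using Run.pop 4 (mk6 a (Sy.H :: b) (Sy.H :: c) d (Sy.H :: e) (z :: f))
    exact (Run.loop_step (k := 4) (a := Sy.H) (by simp) h1 (Run.loop_done (by simpa using he))).mono
      (by simp)
  | cons y v ih =>
    intro z a b c d e f he
    have hy : y ≠ Sy.H := hv y (by simp)
    have h1 : Run cmpBody (mk6 a (Sy.H :: b) (y :: (v ++ Sy.H :: c)) d (Sy.H :: e) (z :: f))
        (mk6 a (Sy.H :: b) (v ++ Sy.H :: c) d (Sy.H :: e) (Sy.L :: f)) 8 := by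
      unfold cmpBody
      refine (Run.cond_true (T := 7) (by simp) ?_)
      refine (Run.cond_false (T := 6) (by simpa using hy) ?_)
      have e1 := Run.pop 2 (mk6 a (Sy.H :: b) (y :: (v ++ Sy.H :: c)) d (Sy.H :: e) (z :: f))
      have e2 := Run.pop 5 (mk6 a (Sy.H :: b) (v ++ Sy.H :: c) d (Sy.H :: e) (z :: f))
      have e3 := Run.push 5 Sy.L (mk6 a (Sy.H :: b) (v ++ Sy.H :: c) d (Sy.H :: e) f)
      simp at e1 e2 e3
      exact (e1.seq (e2.seq e3)).mono (by omega)
    have h2 := ih (fun w hw => hv w (by simp [hw])) Sy.L a b c d e f he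
    have h3 := Run.loop_step (k := 4) (a := Sy.H) (by simp) h1 h2
    have h4 : cmp [] v Sy.L = cmp [] (y :: v) z := by
      rw [cmp_L]; rfl
    rw [h4] at h3
    exact h3.mono (by simp; omega)

theorem cmp_loop_nil_right (v : List Sy) (hv : ∀ y ∈ v, y ≠ Sy.H) :
    ∀ (z : Sy) (a b c d e f : List Sy) (_ : e.head? ≠ some Sy.H),
    Run (Cmd.loop 4 Sy.H cmpBody) (mk6 a (v ++ Sy.H :: b) (Sy.H :: c) d (Sy.H :: e) (z :: f))
      (mk6 a (Sy.H :: b) (Sy.H :: c) d e (cmp v [] z :: f)) (10 * v.length + 10) := by
  induction v with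
  | nil =>
    intro z a b c d e f he
    exact cmp_loop_nil_left [] (by simp) z a b c d e f he
  | cons y v ih =>
    intro z a b c d e f he
    have hy : y ≠ Sy.H := hv y (by simp)
    have h1 : Run cmpBody (mk6 a (y :: (v ++ Sy.H :: b)) (Sy.H :: c) d (Sy.H :: e) (z :: f))
        (mk6 a (v ++ Sy.H :: b) (Sy.H :: c) d (Sy.H :: e) (Sy.L :: f)) 8 := by
      unfold cmpBody
      refine (Run.cond_false (T := 7) (by simpa using hy) ?_)
      refine (Run.cond_true (T := 6) (by simp) ?_)
      have e1 := Run.pop 1 (mk6 a (y :: (v ++ Sy.H :: b)) (Sy.H :: c) d (Sy.H :: e) (z :: f))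
      have e2 := Run.pop 5 (mk6 a (v ++ Sy.H :: b) (Sy.H :: c) d (Sy.H :: e) (z :: f))
      have e3 := Run.push 5 Sy.L (mk6 a (v ++ Sy.H :: b) (Sy.H :: c) d (Sy.H :: e) f)
      simp at e1 e2 e3
      exact (e1.seq (e2.seq e3)).mono (by omega)
    have h2 := ih (fun w hw => hv w (by simp [hw])) Sy.L a b c d e f he
    have h3 := Run.loop_step (k := 4) (a := Sy.H) (by simp) h1 h2
    have h4 : cmp v [] Sy.L = cmp (y :: v) [] z := by
      rw [cmp_L]; rfl
    rw [h4] at h3
    exact h3.mono (by simp; omega)

theorem cmp_loop (u : List Sy) : ∀ (v : List Sy) (_ : ∀ y ∈ u, y ≠ Sy.H)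
    (_ : ∀ y ∈ v, y ≠ Sy.H) (z : Sy) (a b c d e f : List Sy) (_ : e.head? ≠ some Sy.H),
    Run (Cmd.loop 4 Sy.H cmpBody)
      (mk6 a (u ++ Sy.H :: b) (v ++ Sy.H :: c) d (Sy.H :: e) (z :: f))
      (mk6 a (Sy.H :: b) (Sy.H :: c) d e (cmp u v z :: f))
      (12 * (u.length + v.length) + 10) := by
  induction u with
  | nil =>
    intro v hu hv z a b c d e f he
    exact (cmp_loop_nil_left v hv z a b c d e f he).mono (by simp; omega)
  | cons x u ih =>
    intro v hu hv z a b c d e f he
    cases v with
    | nil => exact (cmp_loop_nil_right (x :: u) hu z a b c d e f he).mono (by simp)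
    | cons y v =>
      have hx : x ≠ Sy.H := hu x (by simp)
      have hy : y ≠ Sy.H := hv y (by simp)
      have h1 : Run cmpBody
          (mk6 a (x :: (u ++ Sy.H :: b)) (y :: (v ++ Sy.H :: c)) d (Sy.H :: e) (z :: f))
          (mk6 a (u ++ Sy.H :: b) (v ++ Sy.H :: c) d (Sy.H :: e)
            ((if x = y then z else Sy.L) :: f)) 11 := by
        unfold cmpBody
        refine (Run.cond_false (T := 10) (by simpa using hx) ?_)
        refine (Run.cond_false (T := 9) (by simpa using hy) ?_)
        have g := cmpGood_run x y a (u ++ Sy.H :: b) (v ++ Sy.H :: c) d (Sy.H :: e) (z :: f)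
        have g' := cmpBad_run x y z a (u ++ Sy.H :: b) (v ++ Sy.H :: c) d (Sy.H :: e) f
        by_cases hxN : x = Sy.N
        · refine (Run.cond_true (T := 8) (by simpa using hxN) ?_)
          by_cases hyN : y = Sy.N
          · refine (Run.cond_true (T := 7) (by simpa using hyN) ?_)
            rw [if_pos (hxN.trans hyN.symm)]
            exact g.mono (by omega)
          · refine (Run.cond_false (T := 7) (by simpa using hyN) ?_)
            rw [if_neg (fun h => hyN (h.symm.trans hxN))]
            exact g'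
        · refine (Run.cond_false (T := 8) (by simpa using hxN) ?_)
          have hxL : x = Sy.L := by
            cases x with
            | L => rfl
            | N => exact absurd rfl hxN
            | H => exact absurd rfl hx
          by_cases hyN : y = Sy.N
          · refine (Run.cond_true (T := 7) (by simpa using hyN) ?_)
            rw [if_neg (fun h => hxN (h.trans hyN))]
            exact g'
          · refine (Run.cond_false (T := 7) (by simpa using hyN) ?_)
            have hyL : y = Sy.L := by
              cases y with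
              | L => rfl
              | N => exact absurd rfl hyN
              | H => exact absurd rfl hy
            rw [if_pos (hxL.trans hyL.symm)]
            exact g.mono (by omega)
      have h2 := ih v (fun w hw => hu w (by simp [hw])) (fun w hw => hv w (by simp [hw]))
        (if x = y then z else Sy.L) a b c d e f he
      have h3 := Run.loop_step (k := 4) (a := Sy.H) (by simp) h1 h2
      exact h3.mono (by simp; omega)

/-- the equality test program -/
def eqCmd : WCmd :=
  Cmd.cond 0 Sy.L
    (Cmd.seq (Cmd.pop 0) (Cmd.seq (Cmd.push 0 Sy.L) (Cmd.seq (Cmd.push 0 Sy.L) (Cmd.push 0 Sy.N))))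
    (Cmd.seq (Cmd.pop 0)
      (Cmd.seq (Cmd.push 1 Sy.H)
      (Cmd.seq (Cmd.push 2 Sy.H)
      (Cmd.seq (parse 1)
      (Cmd.seq (parse 2)
      (Cmd.seq (Cmd.push 4 Sy.L)
      (Cmd.seq (Cmd.push 4 Sy.H)
      (Cmd.seq (Cmd.push 5 Sy.H)
      (Cmd.seq (Cmd.loop 4 Sy.H cmpBody)
      (Cmd.seq (Cmd.pop 1)
      (Cmd.seq (Cmd.pop 2)
      (Cmd.seq (Cmd.pop 4)
      (Cmd.cond 5 Sy.H
        (Cmd.seq (Cmd.pop 5)
          (Cmd.seq (Cmd.push 0 Sy.L) (Cmd.seq (Cmd.push 0 Sy.L) (Cmd.push 0 Sy.N))))
        (Cmd.seq (Cmd.pop 5) (Cmd.push 0 Sy.L)))))))))))))))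

theorem eqCmd_node (l r : D) (a b c d e f : List Sy) :
    Run eqCmd (mk6 (code (D.node l r) ++ a) b c d e f)
      (mk6 (code (if l = r then D.node D.leaf D.leaf else D.leaf) ++ a) b c d e f)
      (100 * (D.node l r).size + 100) := by
  unfold eqCmd
  refine Run.mono (T := (100 * (l.size + r.size) + 90) + 1) (Run.cond_false (by simp [code]) ?_)
    (by simp [D.size]; omega)
  have e1 := Run.pop 0 (mk6 (code (D.node l r) ++ a) b c d e f)
  have e2 := Run.push 1 Sy.H (mk6 (code l ++ (code r ++ a)) b c d e f)
  have e3 := Run.push 2 Sy.H (mk6 (code l ++ (code r ++ a)) (Sy.H :: b) c d e f)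
  have e4 := parse1 l (code r ++ a) (Sy.H :: b) (Sy.H :: c) d e f
  have e5 := parse2 r a ((code l).reverse ++ Sy.H :: b) (Sy.H :: c) d e f
  have e6 := Run.push 4 Sy.L (mk6 a ((code l).reverse ++ Sy.H :: b)
    ((code r).reverse ++ Sy.H :: c) d e f)
  have e7 := Run.push 4 Sy.H (mk6 a ((code l).reverse ++ Sy.H :: b)
    ((code r).reverse ++ Sy.H :: c) d (Sy.L :: e) f)
  have e8 := Run.push 5 Sy.H (mk6 a ((code l).reverse ++ Sy.H :: b)
    ((code r).reverse ++ Sy.H :: c) d (Sy.H :: Sy.L :: e) f)
  have e9 := cmp_loop (code l).reverse (code r).reverse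
    (fun y hy => code_ne_H l y (by simpa using hy)) (fun y hy => code_ne_H r y (by simpa using hy))
    Sy.H a b c d (Sy.L :: e) f (by simp)
  set z : Sy := if l = r then Sy.H else Sy.L with hz
  have hz' : cmp (code l).reverse (code r).reverse Sy.H = z := by
    rw [cmp_H, hz]
    by_cases h : l = r
    · subst h; simp
    · rw [if_neg h, if_neg]
      intro h'
      exact h (code_injective (List.reverse_injective h'))
  rw [hz'] at e9
  have e10 := Run.pop 1 (mk6 a (Sy.H :: b) (Sy.H :: c) d (Sy.L :: e) (z :: f))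
  have e11 := Run.pop 2 (mk6 a b (Sy.H :: c) d (Sy.L :: e) (z :: f))
  have e12 := Run.pop 4 (mk6 a b c d (Sy.L :: e) (z :: f))
  have e13 : Run (Cmd.cond 5 Sy.H
        (Cmd.seq (Cmd.pop 5)
          (Cmd.seq (Cmd.push 0 Sy.L) (Cmd.seq (Cmd.push 0 Sy.L) (Cmd.push 0 Sy.N))))
        (Cmd.seq (Cmd.pop 5) (Cmd.push 0 Sy.L))) (mk6 a b c d e (z :: f))
      (mk6 (code (if l = r then D.node D.leaf D.leaf else D.leaf) ++ a) b c d e f) 8 := by
    by_cases hlr : l = r
    · rw [if_pos hlr] at hz
      rw [if_pos hlr, hz]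
      refine Run.cond_true (T := 7) (by simp) ?_
      have f1 := Run.pop 5 (mk6 a b c d e (Sy.H :: f))
      have f2 := Run.push 0 Sy.L (mk6 a b c d e f)
      have f3 := Run.push 0 Sy.L (mk6 (Sy.L :: a) b c d e f)
      have f4 := Run.push 0 Sy.N (mk6 (Sy.L :: Sy.L :: a) b c d e f)
      simp at f1 f2 f3 f4
      simpa [code] using f1.seq (f2.seq (f3.seq f4))
    · rw [if_neg hlr] at hz
      rw [if_neg hlr, hz]
      refine Run.cond_false (T := 7) (by simp) ?_
      have f1 := Run.pop 5 (mk6 a b c d e (Sy.L :: f))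
      have f2 := Run.push 0 Sy.L (mk6 a b c d e f)
      simp at f1 f2
      simpa [code] using (f1.seq f2).mono (T' := 7) (by omega)
  simp [code] at e1 e2 e3 e6 e7 e8 e10 e11 e12
  have hfin := e1.seq (e2.seq (e3.seq (e4.seq (e5.seq (e6.seq (e7.seq (e8.seq (e9.seq
    (e10.seq (e11.seq (e12.seq e13)))))))))))
  simp only [code, List.cons_append, List.append_assoc] at hfin ⊢
  refine hfin.mono ?_
  simp only [List.length_reverse, code_length]
  omega

theorem eqCmd_leaf (a b c d e f : List Sy) :
    Run eqCmd (mk6 (code D.leaf ++ a) b c d e f)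
      (mk6 (code (D.node D.leaf D.leaf) ++ a) b c d e f) 8 := by
  unfold eqCmd
  refine Run.cond_true (T := 7) (by simp [code]) ?_
  have f1 := Run.pop 0 (mk6 (Sy.L :: a) b c d e f)
  have f2 := Run.push 0 Sy.L (mk6 a b c d e f)
  have f3 := Run.push 0 Sy.L (mk6 (Sy.L :: a) b c d e f)
  have f4 := Run.push 0 Sy.N (mk6 (Sy.L :: Sy.L :: a) b c d e f)
  simp at f1 f2 f3 f4
  simpa [code] using f1.seq (f2.seq (f3.seq f4))

end B2

open B2

namespace PolyOn

/-- equality test -/
theorem eqTest (S : Set D) :
    PolyOn S (fun x => if x.left = x.right then D.node D.leaf D.leaf else D.leaf) := by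
  refine ⟨eqCmd, Polynomial.C 100 * Polynomial.X + Polynomial.C 100, fun x _ => ⟨?_, fun s => ?_⟩⟩
  · simp only [Polynomial.eval_add, Polynomial.eval_mul, Polynomial.eval_C, Polynomial.eval_X]
    split_ifs <;> simp [D.size]
  · simp only [Polynomial.eval_add, Polynomial.eval_mul, Polynomial.eval_C, Polynomial.eval_X]
    rw [eq_mk6 s, put_mk6, put_mk6]
    cases x with
    | leaf =>
      have h := eqCmd_leaf (s 0) (s 1) (s 2) (s 3) (s 4) (s 5)
      exact h.mono (by simp [D.size])
    | node l r => exact eqCmd_node l r (s 0) (s 1) (s 2) (s 3) (s 4) (s 5)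

end PolyOn

/-! ### Bounded iteration -/

namespace B2

theorem eval_mono (p : Polynomial ℕ) {a b : ℕ} (h : a ≤ b) : p.eval a ≤ p.eval b := by
  rw [Polynomial.eval_eq_sum_range, Polynomial.eval_eq_sum_range]
  exact Finset.sum_le_sum fun i _ => Nat.mul_le_mul_left _ (Nat.pow_le_pow_left h i)

/-- one pass of the iteration -/
def iterBody (dropC swapC c : WCmd) : WCmd :=
  Cmd.seq (Cmd.pop 0) (Cmd.seq dropC (Cmd.seq swapC (Cmd.seq c swapC)))

/-- bounded iteration -/
def iterCmd (dropC swapC c : WCmd) : WCmd :=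
  Cmd.cond 0 Sy.L Cmd.skip
    (Cmd.seq (Cmd.pop 0) (Cmd.seq (Cmd.loop 0 Sy.N (iterBody dropC swapC c)) (Cmd.pop 0)))

theorem put_node (s : WStore) (l r : D) :
    Function.update (s.put (D.node l r)) 0 ((s.put (D.node l r)) 0).tail = (s.put r).put l := by
  unfold WStore.put
  simp [code]

theorem iter_loop {dropC swapC c : WCmd} {K : ℕ}
    (hdrop : ∀ (x : D) (s : WStore), Run dropC (s.put x) s (K * (x.size + 1)))
    (hswap : ∀ (x y : D) (s : WStore),
      Run swapC ((s.put y).put x) ((s.put x).put y) (K * (x.size + y.size + 1)))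
    {T : Set D} {F : D → D} {pF : Polynomial ℕ}
    (hF : ∀ x ∈ T, ∀ s : WStore, Run c (s.put x) (s.put (F x)) (pF.eval x.size))
    (S M : ℕ) (n : D) : ∀ (v : D) (s : WStore) (_ : n.size ≤ S)
      (_ : ∀ i ≤ n.len, F^[i] v ∈ T ∧ (F^[i] v).size ≤ M),
    Run (Cmd.loop 0 Sy.N (iterBody dropC swapC c)) ((s.put v).put n)
      ((s.put (F^[n.len] v)).put D.leaf)
      (n.size * (K * (3 * S + 2 * M + 3) + pF.eval M + 10)) := by
  induction n with
  | leaf =>
    intro v s hn hM
    refine Run.mono (Run.loop_done (by simp [WStore.put, code])) ?_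
    simp only [D.size]
    omega
  | node a n' iha ihn =>
    intro v s hn hM
    simp only [D.size] at hn
    obtain ⟨hT0, hM0⟩ := hM 0 (Nat.zero_le _)
    have hM1 := (hM 1 (by simp [D.len])).2
    simp only [Function.iterate_zero, id_eq, Function.iterate_one] at hT0 hM0 hM1
    have h1 : Run (iterBody dropC swapC c) ((s.put v).put (D.node a n'))
        ((s.put (F v)).put n')
        (K * (3 * S + 2 * M + 3) + pF.eval M + 9) := by
      unfold iterBody
      have e1 := Run.pop 0 ((s.put v).put (D.node a n'))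
      rw [put_node] at e1
      have e2 := hdrop a ((s.put v).put n')
      have e3 := hswap n' v s
      have e4 := hF v hT0 (s.put n')
      have e5 := hswap (F v) n' s
      refine (e1.seq (e2.seq (e3.seq (e4.seq e5)))).mono ?_
      have h6 := eval_mono pF hM0
      have h7 : K * (a.size + 1) + K * (n'.size + v.size + 1) + K * ((F v).size + n'.size + 1) ≤
          K * (3 * S + 2 * M + 3) := by
        rw [← Nat.mul_add, ← Nat.mul_add]
        exact Nat.mul_le_mul_left _ (by omega)
      omega
    have h2 := ihn (F v) s (by omega) (fun i hi => by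
      have := hM (i + 1) (by simp only [D.len]; omega)
      rwa [Function.iterate_succ_apply] at this)
    have h3 := Run.loop_step (k := 0) (a := Sy.N) (by simp [WStore.put, code]) h1 h2
    have h4 : F^[(D.node a n').len] v = F^[n'.len] (F v) := by
      simp only [D.len]
      rw [Function.iterate_succ_apply]
    rw [h4]
    refine h3.mono ?_
    simp only [D.size]
    have h5 := size_pos a
    set B := K * (3 * S + 2 * M + 3) + pF.eval M with hB
    nlinarith [Nat.mul_le_mul_right (B + 10) h5]

end B2

open B2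

theorem PolyOn.iter_of {dropC swapC : WCmd} {K : ℕ}
    (hdrop : ∀ (x : D) (s : WStore), Run dropC (s.put x) s (K * (x.size + 1)))
    (hswap : ∀ (x y : D) (s : WStore),
      Run swapC ((s.put y).put x) ((s.put x).put y) (K * (x.size + y.size + 1)))
    {S T : Set D} {F : D → D} (hF : PolyOn T F) (p : Polynomial ℕ)
    (hp : ∀ x ∈ S, ∀ i ≤ x.left.len, F^[i] x.right ∈ T ∧
      (F^[i] x.right).size ≤ p.eval x.size) :
    PolyOn S (fun x => F^[x.left.len] x.right) := by
  obtain ⟨c, pF, hc⟩ := hF
  have hF' : ∀ x ∈ T, ∀ s : WStore, Run c (s.put x) (s.put (F x)) (pF.eval x.size) :=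
    fun x hx s => (hc x hx).2 s
  refine ⟨iterCmd dropC swapC c,
    p + (Polynomial.X * (Polynomial.C K * (Polynomial.C 3 * Polynomial.X + Polynomial.C 2 * p +
      Polynomial.C 3) + pF.comp p + Polynomial.C 10) + Polynomial.C 10), fun x hx => ?_⟩
  simp only [Polynomial.eval_add, Polynomial.eval_mul, Polynomial.eval_C, Polynomial.eval_X,
    Polynomial.eval_comp]
  refine ⟨(hp x hx _ le_rfl).2.trans (Nat.le_add_right _ _), fun s => ?_⟩
  change Run _ _ _ _
  cases x with
  | leaf =>
    refine Run.mono (T := 2) ?_ (by omega)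
    unfold iterCmd
    refine Run.cond_true (T := 1) (by simp [WStore.put, code]) ?_
    exact Run.skip _
  | node n v =>
    have hp' := hp (D.node n v) hx
    simp only [D.left, D.right] at hp' ⊢
    unfold iterCmd
    have e1 := Run.pop 0 (s.put (D.node n v))
    rw [put_node] at e1
    have e2 := iter_loop hdrop hswap hF' (D.node n v).size (p.eval (D.node n v).size) n v s
      (by simp [D.size]; omega) hp'
    have e3 := Run.pop 0 ((s.put (F^[n.len] v)).put D.leaf)
    have e3' : Function.update ((s.put (F^[n.len] v)).put D.leaf) 0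
        (((s.put (F^[n.len] v)).put D.leaf) 0).tail = s.put (F^[n.len] v) := by
      unfold WStore.put
      simp [code]
    rw [e3'] at e3
    refine (Run.cond_false (by simp [WStore.put, code]) (e1.seq (e2.seq e3))).mono ?_
    have h5 : n.size ≤ (D.node n v).size := by simp [D.size]; omega
    set B := K * (3 * (D.node n v).size + 2 * p.eval (D.node n v).size + 3) +
      pF.eval (p.eval (D.node n v).size) with hB
    have h6 := Nat.mul_le_mul_right (B + 10) h5
    omega

/-- bounded iteration: the number of iterations is the length of the right spine of the left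
component; all intermediate results must have polynomially bounded size -/
theorem PolyOn.iter {S T : Set D} {F : D → D} (hF : PolyOn T F) (p : Polynomial ℕ)
    (hp : ∀ x ∈ S, ∀ i ≤ x.left.len, F^[i] x.right ∈ T ∧
      (F^[i] x.right).size ≤ p.eval x.size) :
    PolyOn S (fun x => F^[x.left.len] x.right) := by
  refine PolyOn.iter_of (dropC := drop) (swapC := swap) (K := 80) ?_ ?_ hF p hp
  · intro x s
    have h : Run drop (s.put x) s (40 * x.size) := exec_drop s x
    exact h.mono (by omega)
  · intro x y s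
    have h : Run swap ((s.put y).put x) ((s.put x).put y) (80 * (x.size + y.size)) :=
      exec_swap s x y
    exact h.mono (by omega)

end Vale.Agent.Lib.Common.PolyTime

end

section

/-!
Modules PT-B1, PT-B2: closure properties of `PolyOn`
(`mono`, `congr`, `id`, `comp`, `const`, `node`, `left`, `right`, `ite`, `iter`, `eqTest`).
-/

end

section

/-!
Module PT-C1: typed library of polynomial time functions: basic combinators.
`sz a` is the size of the encoding of `a`.
-/

namespace Vale.Agent.Lib.Common.PolyTime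

variable {α β γ δ σ : Type} [TEnc α] [TEnc β] [TEnc γ] [TEnc δ] [TEnc σ]

/-! ### the encodings -/

theorem enc_pair (a : α) (b : β) : TEnc.enc (a, b) = D.node (TEnc.enc a) (TEnc.enc b) := rfl

theorem enc_true : TEnc.enc true = D.node D.leaf D.leaf := rfl

theorem enc_false : TEnc.enc false = D.leaf := rfl

theorem enc_bool (b : Bool) :
    TEnc.enc b = if b = true then D.node D.leaf D.leaf else D.leaf := rfl

theorem enc_zero : TEnc.enc (0 : ℕ) = D.leaf := rfl

theorem enc_succ (n : ℕ) : TEnc.enc (n + 1) = D.node D.leaf (TEnc.enc n) := rfl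

theorem enc_nil : TEnc.enc ([] : List α) = D.leaf := rfl

theorem enc_cons (a : α) (l : List α) : TEnc.enc (a :: l) = D.node (TEnc.enc a) (TEnc.enc l) :=
  rfl

theorem enc_none : TEnc.enc (none : Option α) = D.leaf := rfl

theorem enc_some (a : α) : TEnc.enc (some a) = D.node D.leaf (TEnc.enc a) := rfl

theorem sz_pair (a : α) (b : β) : sz (a, b) = sz a + sz b + 1 := rfl

theorem sz_nat (n : ℕ) : sz n = 2 * n + 1 := by
  induction n with
  | zero => rfl
  | succ n ih =>
    have h : sz (n + 1) = 1 + sz n + 1 := rfl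
    omega

theorem sz_nil : sz ([] : List α) = 1 := rfl

theorem sz_cons (a : α) (l : List α) : sz (a :: l) = sz a + sz l + 1 := rfl

theorem sz_none : sz (none : Option α) = 1 := rfl

theorem sz_some (a : α) : sz (some a) = sz a + 2 := by
  have h : sz (some a) = 1 + sz a + 1 := rfl
  omega

theorem sz_bool_le (b : Bool) : sz b ≤ 3 := by
  cases b
  · exact (by decide : (1:ℕ) ≤ 3)
  · exact (by decide : (1 + 1 + 1:ℕ) ≤ 3)

theorem D.one_le_size (x : D) : 1 ≤ x.size := by
  cases x with
  | leaf => exact le_refl 1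
  | node l r => exact Nat.le_add_left 1 _

theorem one_le_sz (a : α) : 1 ≤ sz a := D.one_le_size _

theorem len_enc_nat (n : ℕ) : (TEnc.enc n).len = n := by
  induction n with
  | zero => rfl
  | succ n ih =>
    have h : (TEnc.enc (n + 1)).len = (TEnc.enc n).len + 1 := rfl
    rw [h, ih]

theorem len_enc_list (l : List α) : (TEnc.enc l).len = l.length := by
  induction l with
  | nil => rfl
  | cons a l ih =>
    have h : (TEnc.enc (a :: l)).len = (TEnc.enc l).len + 1 := rfl
    rw [h, ih, List.length_cons]

/-! ### PT-C1: basic combinators -/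

@[fun_prop] theorem PT.id : PT (fun a : α => a) := ⟨fun x => x, PolyOn.id _, fun _ => rfl⟩

@[fun_prop] theorem PT.const (b : β) : PT (fun _ : α => b) :=
  ⟨fun _ => TEnc.enc b, PolyOn.const _ _, fun _ => rfl⟩

@[fun_prop] theorem PT.comp {f : β → γ} {g : α → β} (hf : PT f) (hg : PT g) :
    PT (fun a => f (g a)) := by
  obtain ⟨F, hF, hF'⟩ := hf
  obtain ⟨G, hG, hG'⟩ := hg
  refine ⟨_, PolyOn.comp hF hG ?_, fun a => by rw [hG', hF']⟩
  rintro _ ⟨a, rfl⟩
  exact ⟨g a, (hG' a).symm⟩

@[fun_prop] theorem PT.pair {f : α → β} {g : α → γ} (hf : PT f) (hg : PT g) :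
    PT (fun a => (f a, g a)) := by
  obtain ⟨F, hF, hF'⟩ := hf
  obtain ⟨G, hG, hG'⟩ := hg
  exact ⟨_, PolyOn.node hF hG, fun a => by rw [hG', hF', enc_pair]⟩

@[fun_prop] theorem PT.fst {f : α → β × γ} (hf : PT f) : PT (fun a => (f a).1) := by
  obtain ⟨F, hF, hF'⟩ := hf
  exact ⟨_, PolyOn.comp (PolyOn.left Set.univ) hF (fun _ _ => Set.mem_univ _),
    fun a => by rw [hF']; rfl⟩

@[fun_prop] theorem PT.snd {f : α → β × γ} (hf : PT f) : PT (fun a => (f a).2) := by
  obtain ⟨F, hF, hF'⟩ := hf
  exact ⟨_, PolyOn.comp (PolyOn.right Set.univ) hF (fun _ _ => Set.mem_univ _),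
    fun a => by rw [hF']; rfl⟩

/-- the output size is polynomially bounded -/
theorem PT.size_le {f : α → β} (hf : PT f) : ∃ p : Polynomial ℕ, ∀ a, sz (f a) ≤ p.eval (sz a) := by
  obtain ⟨F, ⟨c, p, hp⟩, hF'⟩ := hf
  refine ⟨p, fun a => ?_⟩
  have h := (hp (TEnc.enc a) ⟨a, rfl⟩).1
  rw [hF'] at h
  exact h

@[fun_prop] theorem PT.bif {c : α → Bool} {f g : α → β} (hc : PT c) (hf : PT f) (hg : PT g) :
    PT (fun a => bif c a then f a else g a) := by
  obtain ⟨C, hC, hC'⟩ := hc
  obtain ⟨F, hF, hF'⟩ := hf
  obtain ⟨G, hG, hG'⟩ := hg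
  refine ⟨_, PolyOn.ite hC (hG.mono fun _ h => h.1) (hF.mono fun _ h => h.1), fun a => ?_⟩
  show _ = TEnc.enc (bif c a then f a else g a)
  rw [hC', hF', hG']
  cases c a
  · rw [enc_false, if_pos rfl]; rfl
  · rw [enc_true, if_neg (by simp)]; rfl

@[fun_prop] theorem PT.ite {c : α → Prop} [DecidablePred c] {f g : α → β}
    (hc : PT (fun a => decide (c a))) (hf : PT f) (hg : PT g) :
    PT (fun a => if c a then f a else g a) := by
  have h : (fun a => if c a then f a else g a) =
      fun a => bif decide (c a) then f a else g a := by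
    funext a
    by_cases h : c a <;> simp [h]
  rw [h]
  exact PT.bif hc hf hg

@[fun_prop] theorem PT.not {c : α → Bool} (hc : PT c) : PT (fun a => !(c a)) := by
  have h : (fun a => !(c a)) = fun a => bif c a then false else true := by
    funext a
    cases c a <;> rfl
  rw [h]
  exact PT.bif hc (PT.const _) (PT.const _)

@[fun_prop] theorem PT.and {c d : α → Bool} (hc : PT c) (hd : PT d) :
    PT (fun a => c a && d a) := by
  have h : (fun a => c a && d a) = fun a => bif c a then d a else false := by
    funext a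
    cases c a <;> rfl
  rw [h]
  exact PT.bif hc hd (PT.const _)

@[fun_prop] theorem PT.or {c d : α → Bool} (hc : PT c) (hd : PT d) :
    PT (fun a => c a || d a) := by
  have h : (fun a => c a || d a) = fun a => bif c a then true else d a := by
    funext a
    cases c a <;> rfl
  rw [h]
  exact PT.bif hc (PT.const _) hd

/-- equality test for encoded types -/
@[fun_prop] theorem PT.decide_eq [DecidableEq β] {f g : α → β} (hf : PT f) (hg : PT g) :
    PT (fun a => decide (f a = g a)) := by
  obtain ⟨F, hF, hF'⟩ := hf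
  obtain ⟨G, hG, hG'⟩ := hg
  refine ⟨_, PolyOn.comp (PolyOn.eqTest Set.univ) (PolyOn.node hF hG)
    (fun _ _ => Set.mem_univ _), fun a => ?_⟩
  rw [hF', hG']
  show (if TEnc.enc (f a) = TEnc.enc (g a) then D.node D.leaf D.leaf else D.leaf) =
    TEnc.enc (decide (f a = g a))
  by_cases h : f a = g a
  · rw [if_pos (by rw [h]), decide_eq_true h, enc_true]
  · rw [if_neg (fun h' => h (TEnc.inj h')), decide_eq_false h, enc_false]

@[fun_prop] theorem PT.beq [BEq β] [LawfulBEq β] {f g : α → β} (hf : PT f) (hg : PT g) :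
    PT (fun a => f a == g a) := by
  classical
  have h : (fun a => f a == g a) = fun a => decide (f a = g a) := by
    funext a
    by_cases h : f a = g a
    · simp [h]
    · rw [decide_eq_false h]
      exact beq_false_of_ne h
  rw [h]
  exact PT.decide_eq hf hg

@[fun_prop] theorem PT.some {f : α → β} (hf : PT f) : PT (fun a => Option.some (f a)) := by
  obtain ⟨F, hF, hF'⟩ := hf
  exact ⟨_, PolyOn.node (PolyOn.const _ D.leaf) hF, fun a => by rw [hF', enc_some]⟩

@[fun_prop] theorem PT.optionCases {o : α → Option β} {f : α → γ} {g : α → β → γ} (ho : PT o)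
    (hf : PT f) (hg : PT (fun p : α × β => g p.1 p.2)) :
    PT (fun a => Option.casesOn (motive := fun _ => γ) (o a) (f a) (g a)) := by
  obtain ⟨O, hO, hO'⟩ := ho
  obtain ⟨F, hF, hF'⟩ := hf
  obtain ⟨G, hG, hG'⟩ := hg
  refine ⟨_, PolyOn.ite hO (hF.mono fun _ h => h.1) (PolyOn.comp hG
    (PolyOn.node (PolyOn.id _) (PolyOn.comp (PolyOn.right Set.univ) (hO.mono fun _ h => h.1)
      (fun _ _ => Set.mem_univ _))) ?_), fun a => ?_⟩
  · rintro _ ⟨⟨a, rfl⟩, h⟩
    rw [hO'] at h ⊢
    revert h
    cases o a with
    | none => exact fun h => absurd enc_none h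
    | some b => exact fun _ => ⟨(a, b), rfl⟩
  · show _ = TEnc.enc (Option.casesOn (motive := fun _ => γ) (o a) (f a) (g a))
    rw [hO', hF']
    cases o a with
    | none => rw [enc_none, if_pos rfl]
    | some b =>
      rw [enc_some, if_neg (by simp)]
      exact hG' (a, b)

@[fun_prop] theorem PT.cons {f : α → β} {l : α → List β} (hf : PT f) (hl : PT l) :
    PT (fun a => f a :: l a) := by
  obtain ⟨F, hF, hF'⟩ := hf
  obtain ⟨L, hL, hL'⟩ := hl
  exact ⟨_, PolyOn.node hF hL, fun a => by rw [hF', hL', enc_cons]⟩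

@[fun_prop] theorem PT.listCases {l : α → List β} {f : α → γ} {g : α → β → List β → γ}
    (hl : PT l) (hf : PT f) (hg : PT (fun p : α × β × List β => g p.1 p.2.1 p.2.2)) :
    PT (fun a => List.casesOn (motive := fun _ => γ) (l a) (f a) (g a)) := by
  obtain ⟨L, hL, hL'⟩ := hl
  obtain ⟨F, hF, hF'⟩ := hf
  obtain ⟨G, hG, hG'⟩ := hg
  refine ⟨_, PolyOn.ite hL (hF.mono fun _ h => h.1) (PolyOn.comp hG
    (PolyOn.node (PolyOn.id _) (hL.mono fun _ h => h.1)) ?_), fun a => ?_⟩
  · rintro _ ⟨⟨a, rfl⟩, h⟩
    rw [hL'] at h ⊢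
    revert h
    cases l a with
    | nil => exact fun h => absurd enc_nil h
    | cons b l' => exact fun _ => ⟨(a, b, l'), rfl⟩
  · show _ = TEnc.enc (List.casesOn (motive := fun _ => γ) (l a) (f a) (g a))
    rw [hL', hF']
    cases l a with
    | nil => rw [enc_nil, if_pos rfl]
    | cons b l' =>
      rw [enc_cons, if_neg (by simp)]
      exact hG' (a, b, l')

@[fun_prop] theorem PT.succ {f : α → ℕ} (hf : PT f) : PT (fun a => f a + 1) := by
  obtain ⟨F, hF, hF'⟩ := hf
  exact ⟨_, PolyOn.node (PolyOn.const _ D.leaf) hF, fun a => by rw [hF', enc_succ]⟩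

@[fun_prop] theorem PT.natCases {n : α → ℕ} {f : α → γ} {g : α → ℕ → γ} (hn : PT n)
    (hf : PT f) (hg : PT (fun p : α × ℕ => g p.1 p.2)) :
    PT (fun a => Nat.casesOn (motive := fun _ => γ) (n a) (f a) (g a)) := by
  obtain ⟨N, hN, hN'⟩ := hn
  obtain ⟨F, hF, hF'⟩ := hf
  obtain ⟨G, hG, hG'⟩ := hg
  refine ⟨_, PolyOn.ite hN (hF.mono fun _ h => h.1) (PolyOn.comp hG
    (PolyOn.node (PolyOn.id _) (PolyOn.comp (PolyOn.right Set.univ) (hN.mono fun _ h => h.1)
      (fun _ _ => Set.mem_univ _))) ?_), fun a => ?_⟩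
  · rintro _ ⟨⟨a, rfl⟩, h⟩
    rw [hN'] at h ⊢
    revert h
    cases n a with
    | zero => exact fun h => absurd enc_zero h
    | succ k => exact fun _ => ⟨(a, k), rfl⟩
  · show _ = TEnc.enc (Nat.casesOn (motive := fun _ => γ) (n a) (f a) (g a))
    rw [hN', hF']
    cases n a with
    | zero => rw [enc_zero, if_pos rfl]; rfl
    | succ k =>
      rw [enc_succ, if_neg (by simp)]
      exact hG' (a, k)

/-- predecessor -/
@[fun_prop] theorem PT.pred {f : α → ℕ} (hf : PT f) : PT (fun a => f a - 1) := by
  obtain ⟨F, hF, hF'⟩ := hf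
  refine ⟨_, PolyOn.comp (PolyOn.right Set.univ) hF (fun _ _ => Set.mem_univ _), fun a => ?_⟩
  show _ = TEnc.enc (f a - 1)
  rw [hF']
  cases f a with
  | zero => rfl
  | succ k => rfl

@[fun_prop] theorem PT.tail {l : α → List β} (hl : PT l) : PT (fun a => (l a).tail) := by
  obtain ⟨L, hL, hL'⟩ := hl
  refine ⟨_, PolyOn.comp (PolyOn.right Set.univ) hL (fun _ _ => Set.mem_univ _), fun a => ?_⟩
  show _ = TEnc.enc (l a).tail
  rw [hL']
  cases l a with
  | nil => rfl
  | cons b l' => rfl

@[fun_prop] theorem PT.head? {l : α → List β} (hl : PT l) : PT (fun a => (l a).head?) := by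
  have h : (fun a => (l a).head?) =
      fun a => List.casesOn (motive := fun _ => Option β) (l a) none (fun b _ => Option.some b) := by
    funext a
    cases l a <;> rfl
  rw [h]
  exact PT.listCases hl (PT.const _) (PT.some (PT.fst (PT.snd PT.id)))

end Vale.Agent.Lib.Common.PolyTime

end

section

/-!
Module PT-C2: iteration and folds.
-/

namespace Vale.Agent.Lib.Common.PolyTime

variable {α β γ δ σ τ : Type} [TEnc α] [TEnc β] [TEnc γ] [TEnc δ] [TEnc σ] [TEnc τ]

/-! ### polynomial bounds -/

theorem poly_mono (p : Polynomial ℕ) {m n : ℕ} (h : m ≤ n) : p.eval m ≤ p.eval n := by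
  rw [Polynomial.eval_eq_sum_range, Polynomial.eval_eq_sum_range]
  exact Finset.sum_le_sum fun i _ => Nat.mul_le_mul_left _ (Nat.pow_le_pow_left h i)

/-- `g` is polynomially bounded in the size of the argument -/
def PB (g : α → ℕ) : Prop := ∃ p : Polynomial ℕ, ∀ a, g a ≤ p.eval (sz a)

theorem PB.const (c : ℕ) : PB (fun _ : α => c) := ⟨Polynomial.C c, fun a => by simp⟩

theorem PB.sz : PB (fun a : α => sz a) := ⟨Polynomial.X, fun a => by simp⟩

theorem PB.add {f g : α → ℕ} (hf : PB f) (hg : PB g) : PB (fun a => f a + g a) := by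
  obtain ⟨p, hp⟩ := hf
  obtain ⟨q, hq⟩ := hg
  exact ⟨p + q, fun a => by
    rw [Polynomial.eval_add]
    exact Nat.add_le_add (hp a) (hq a)⟩

theorem PB.mul {f g : α → ℕ} (hf : PB f) (hg : PB g) : PB (fun a => f a * g a) := by
  obtain ⟨p, hp⟩ := hf
  obtain ⟨q, hq⟩ := hg
  exact ⟨p * q, fun a => by
    rw [Polynomial.eval_mul]
    exact Nat.mul_le_mul (hp a) (hq a)⟩

theorem PB.mono {f g : α → ℕ} (hg : PB g) (h : ∀ a, f a ≤ g a) : PB f := by
  obtain ⟨p, hp⟩ := hg
  exact ⟨p, fun a => (h a).trans (hp a)⟩

theorem PB.poly (q : Polynomial ℕ) {g : α → ℕ} (hg : PB g) : PB (fun a => q.eval (g a)) := by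
  obtain ⟨p, hp⟩ := hg
  refine ⟨q.comp p, fun a => ?_⟩
  rw [Polynomial.eval_comp]
  exact poly_mono q (hp a)

theorem PT.pb {f : α → β} (hf : PT f) : PB (fun a => PolyTime.sz (f a)) := hf.size_le

/-- The size of the value of a function of two arguments. -/
theorem PT.pb₂ {f : α → β → γ} (hf : PT (fun p : α × β => f p.1 p.2)) {g : α → ℕ} (hg : PB g) :
    ∃ h : α → ℕ, PB h ∧ ∀ a b, PolyTime.sz b ≤ g a → PolyTime.sz (f a b) ≤ h a := by
  obtain ⟨q, hq⟩ := hf.size_le
  refine ⟨fun a => q.eval (PolyTime.sz a + g a + 1), (PB.poly q ((PB.sz.add hg).add (PB.const 1))),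
    fun a b hb => (hq (a, b)).trans (poly_mono q ?_)⟩
  change PolyTime.sz a + PolyTime.sz b + 1 ≤ _
  omega

/-! ### sizes of encodings -/

theorem sz_pos (a : α) : 0 < sz a := by
  unfold sz
  cases TEnc.enc a <;> simp [D.size]

theorem sz_append (l m : List β) : sz (l ++ m) + 1 = sz l + sz m := by
  induction l with
  | nil =>
    rw [List.nil_append, sz_nil]
    omega
  | cons b l ih =>
    rw [List.cons_append, sz_cons, sz_cons]
    omega

theorem sz_append_le (l m : List β) : sz (l ++ m) ≤ sz l + sz m := by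
  have := sz_append l m
  omega

theorem sz_reverse (l : List β) : sz l.reverse = sz l := by
  induction l with
  | nil => rfl
  | cons b l ih =>
    rw [List.reverse_cons]
    have := sz_append l.reverse [b]
    rw [sz_cons, sz_nil, ih] at this
    rw [sz_cons]
    omega

theorem length_le_sz (l : List β) : l.length ≤ sz l := by
  induction l with
  | nil => simp
  | cons b l ih =>
    rw [List.length_cons, sz_cons]
    omega

theorem sz_le_of_mem {b : β} {l : List β} (h : b ∈ l) : sz b ≤ sz l := by
  induction l with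
  | nil => simp at h
  | cons c l ih =>
    rw [sz_cons]
    rcases List.mem_cons.1 h with rfl | h
    · omega
    · have := ih h
      omega

theorem sz_prefix_le (l m : List β) : sz l ≤ sz (l ++ m) := by
  have := sz_append l m
  have := sz_pos m
  omega

theorem sz_suffix_le (l m : List β) : sz m ≤ sz (l ++ m) := by
  have := sz_append l m
  have := sz_pos l
  omega

theorem sz_sublist_le {l m : List β} (h : l.Sublist m) : sz l ≤ sz m := by
  induction h with
  | slnil => exact le_rfl
  | cons a _ ih =>
    rw [sz_cons]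
    omega
  | cons_cons a _ ih =>
    rw [sz_cons, sz_cons]
    omega

/-- a list with `N` entries of size at most `B` -/
theorem sz_list_le {l : List β} {N B : ℕ} (hN : l.length ≤ N) (hB : ∀ b ∈ l, sz b ≤ B) :
    sz l ≤ N * (B + 1) + 1 := by
  induction l generalizing N with
  | nil =>
    rw [sz_nil]
    omega
  | cons b l ih =>
    rw [List.length_cons] at hN
    obtain ⟨M, rfl⟩ : ∃ M, N = M + 1 := ⟨N - 1, by omega⟩
    have h1 := ih (N := M) (by omega) (fun c hc => hB c (List.mem_cons_of_mem b hc))
    have h2 := hB b List.mem_cons_self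
    rw [sz_cons, Nat.succ_mul]
    omega

/-! ### iteration -/

/-- iteration; the number of iterations is the length of the right spine of a code -/
theorem PT.iterate_core (len : τ → ℕ) (hlen : ∀ t : τ, (TEnc.enc t : D).len = len t)
    {f : α → σ → σ} {n : α → τ} {init : α → σ}
    (hf : PT (fun x : α × σ => f x.1 x.2)) (hn : PT n) (hi : PT init)
    (hp : ∃ g : α → ℕ, PB g ∧ ∀ a, ∀ i ≤ len (n a), PolyTime.sz ((f a)^[i] (init a)) ≤ g a) :
    PT (fun a => (f a)^[len (n a)] (init a)) := by
  obtain ⟨g, ⟨p, hpg⟩, hg⟩ := hp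
  have hstep : PT (fun x : α × σ => (x.1, f x.1 x.2)) := PT.pair (PT.fst PT.id) hf
  have hstart : PT (fun a : α => (n a, (a, init a))) := PT.pair hn (PT.pair PT.id hi)
  obtain ⟨G, hG, hGe⟩ := hstep
  obtain ⟨H, hH, hHe⟩ := hstart
  have hiter : ∀ a i, G^[i] (TEnc.enc (a, init a)) = TEnc.enc (a, (f a)^[i] (init a)) := by
    intro a i
    induction i with
    | zero => rfl
    | succ i ih =>
      rw [Function.iterate_succ_apply', ih, hGe, Function.iterate_succ_apply']
  have hmain : PolyOn (Set.range (fun a : α => (TEnc.enc (n a, (a, init a)) : D)))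
      (fun x => G^[x.left.len] x.right) := by
    apply PolyOn.iter hG (Polynomial.X + p + 1)
    rintro _ ⟨a, rfl⟩ i hi'
    have h1 : (D.left (TEnc.enc (n a, (a, init a)) : D)).len = len (n a) := hlen (n a)
    have h2 : D.right (TEnc.enc (n a, (a, init a)) : D) = TEnc.enc (a, init a) := rfl
    simp only at hi'
    rw [h1] at hi'
    rw [h2, hiter]
    refine ⟨⟨_, rfl⟩, ?_⟩
    have h3 : (TEnc.enc (a, (f a)^[i] (init a)) : D).size =
        PolyTime.sz a + PolyTime.sz ((f a)^[i] (init a)) + 1 := rfl
    have h4 : PolyTime.sz a ≤ (TEnc.enc (n a, (a, init a)) : D).size := by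
      have : (TEnc.enc (n a, (a, init a)) : D).size = PolyTime.sz (n a) +
        (PolyTime.sz a + PolyTime.sz (init a) + 1) + 1 := rfl
      omega
    have h5 := (hg a i hi').trans (hpg a)
    have h6 := poly_mono p h4
    rw [h3]
    simp only [Polynomial.eval_add, Polynomial.eval_X, Polynomial.eval_one]
    omega
  refine ⟨fun x => D.right ((fun y : D => G^[y.left.len] y.right) (H x)), ?_, ?_⟩
  · have h1 := hmain.comp hH (by
      rintro _ ⟨a, rfl⟩
      rw [hHe a]
      exact ⟨a, rfl⟩)
    exact (PolyOn.right Set.univ).comp h1 (fun _ _ => trivial)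
  · intro a
    have h1 : (D.left (TEnc.enc (n a, (a, init a)) : D)).len = len (n a) := hlen (n a)
    have h2 : D.right (TEnc.enc (n a, (a, init a)) : D) = TEnc.enc (a, init a) := rfl
    simp only [hHe, h1, h2, hiter]
    rfl

/-- iteration -/
theorem PT.iterate' {f : α → σ → σ} {n : α → ℕ} {init : α → σ}
    (hf : PT (fun x : α × σ => f x.1 x.2)) (hn : PT n) (hi : PT init)
    (hp : ∃ g : α → ℕ, PB g ∧ ∀ a, ∀ i ≤ n a, PolyTime.sz ((f a)^[i] (init a)) ≤ g a) :
    PT (fun a => (f a)^[n a] (init a)) :=
  PT.iterate_core (fun n : ℕ => n) len_enc_nat hf hn hi hp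

/-- iteration; `p` bounds the sizes of all intermediate results -/
theorem PT.iterate {f : α → σ → σ} {n : α → ℕ} {init : α → σ}
    (hf : PT (fun x : α × σ => f x.1 x.2)) (hn : PT n) (hi : PT init) (p : Polynomial ℕ)
    (hp : ∀ a, ∀ i ≤ n a, PolyTime.sz ((f a)^[i] (init a)) ≤ p.eval (PolyTime.sz a)) :
    PT (fun a => (f a)^[n a] (init a)) :=
  PT.iterate' hf hn hi ⟨fun a => p.eval (PolyTime.sz a), ⟨p, fun _ => le_rfl⟩, hp⟩

/-! ### folds -/

/-- one step of a left fold -/
def foldStep (step : σ → β → σ) (x : List β × σ) : List β × σ :=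
  List.casesOn (motive := fun _ => List β × σ) x.1 ([], x.2) (fun b l => (l, step x.2 b))

omit [TEnc β] [TEnc σ] in
theorem foldStep_iterate (step : σ → β → σ) (l₁ l₂ : List β) (s : σ) :
    (foldStep step)^[l₁.length] (l₁ ++ l₂, s) = (l₂, l₁.foldl step s) := by
  induction l₁ generalizing s with
  | nil => rfl
  | cons b l₁ ih =>
    rw [List.length_cons, Function.iterate_succ_apply]
    exact ih (step s b)

theorem PT.foldStep {step : α → σ → β → σ}
    (hs : PT (fun x : α × σ × β => step x.1 x.2.1 x.2.2)) :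
    PT (fun x : α × (List β × σ) => PolyTime.foldStep (step x.1) x.2) := by
  have h1 : PT (fun p : (α × (List β × σ)) × β × List β => (p.2.2, step p.1.1 p.1.2.2 p.2.1)) := by
    apply PT.pair
    · exact PT.snd (PT.snd PT.id)
    · exact hs.comp (PT.pair (PT.fst (PT.fst PT.id))
        (PT.pair (PT.snd (PT.snd (PT.fst PT.id))) (PT.fst (PT.snd PT.id))))
  exact PT.listCases (l := fun x : α × (List β × σ) => x.2.1)
    (f := fun x : α × (List β × σ) => (([] : List β), x.2.2))
    (g := fun x b l => (l, step x.1 x.2.2 b)) (PT.fst (PT.snd PT.id))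
    (PT.pair (PT.const []) (PT.snd (PT.snd PT.id))) h1

/-- left fold -/
theorem PT.foldl' {step : α → σ → β → σ} {l : α → List β} {init : α → σ}
    (hs : PT (fun x : α × σ × β => step x.1 x.2.1 x.2.2)) (hl : PT l) (hi : PT init)
    (hp : ∃ g : α → ℕ, PB g ∧ ∀ a, ∀ l₁ l₂ : List β, l a = l₁ ++ l₂ →
      PolyTime.sz (l₁.foldl (step a) (init a)) ≤ g a) :
    PT (fun a => (l a).foldl (step a) (init a)) := by
  obtain ⟨g, hgb, hg⟩ := hp
  have h1 : PT (fun a => (PolyTime.foldStep (step a))^[(l a).length] (l a, init a)) := by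
    apply PT.iterate_core (List.length) len_enc_list (PT.foldStep hs) hl (PT.pair hl hi)
    refine ⟨fun a => PolyTime.sz (l a) + g a + 1, (hl.pb.add hgb).add (PB.const 1), ?_⟩
    intro a i hi'
    have h2 : l a = (l a).take i ++ (l a).drop i := (List.take_append_drop i (l a)).symm
    have h3 : ((l a).take i).length = i := by
      rw [List.length_take]
      exact min_eq_left hi'
    have h4 := foldStep_iterate (step a) ((l a).take i) ((l a).drop i) (init a)
    rw [h3, ← h2] at h4
    rw [h4, sz_pair]
    have h5 := hg a _ _ h2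
    have h6 := sz_suffix_le ((l a).take i) ((l a).drop i)
    rw [← h2] at h6
    change _ ≤ PolyTime.sz (l a) + g a + 1
    omega
  have h2 : (fun a => (l a).foldl (step a) (init a)) =
      fun a => ((PolyTime.foldStep (step a))^[(l a).length] (l a, init a)).2 := by
    funext a
    have h4 := foldStep_iterate (step a) (l a) [] (init a)
    rw [List.append_nil] at h4
    rw [h4]
  rw [h2]
  exact PT.snd h1

/-- left fold; `p` bounds the sizes of all intermediate accumulators -/
theorem PT.foldl {step : α → σ → β → σ} {l : α → List β} {init : α → σ}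
    (hs : PT (fun x : α × σ × β => step x.1 x.2.1 x.2.2)) (hl : PT l) (hi : PT init)
    (p : Polynomial ℕ)
    (hp : ∀ a, ∀ l₁ l₂ : List β, l a = l₁ ++ l₂ →
      PolyTime.sz (l₁.foldl (step a) (init a)) ≤ p.eval (PolyTime.sz a)) :
    PT (fun a => (l a).foldl (step a) (init a)) :=
  PT.foldl' hs hl hi ⟨fun a => p.eval (PolyTime.sz a), ⟨p, fun _ => le_rfl⟩, hp⟩

end Vale.Agent.Lib.Common.PolyTime

end

section

/-!
Module PT-C4: typed library of polynomial time functions: arithmetic (unary).
-/

namespace Vale.Agent.Lib.Common.PolyTime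

variable {α β γ δ σ : Type} [TEnc α] [TEnc β] [TEnc γ] [TEnc δ] [TEnc σ]

theorem iterate_succ_nat (k n : ℕ) : (fun x : ℕ => x + 1)^[k] n = n + k := by
  induction k with
  | zero => rfl
  | succ k ih => rw [Function.iterate_succ_apply', ih]; rfl

theorem iterate_pred_nat (k n : ℕ) : (fun x : ℕ => x - 1)^[k] n = n - k := by
  induction k with
  | zero => rfl
  | succ k ih => rw [Function.iterate_succ_apply', ih]; omega

theorem iterate_add_nat (m k n : ℕ) : (fun x : ℕ => x + m)^[k] n = n + k * m := by
  induction k with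
  | zero => simp
  | succ k ih => rw [Function.iterate_succ_apply', ih]; ring

@[fun_prop] theorem PT.add {f g : α → ℕ} (hf : PT f) (hg : PT g) : PT (fun a => f a + g a) := by
  obtain ⟨p, hp⟩ := hf.size_le
  obtain ⟨q, hq⟩ := hg.size_le
  have h : (fun a => f a + g a) = fun a => (fun x : ℕ => x + 1)^[g a] (f a) := by
    funext a; rw [iterate_succ_nat]
  rw [h]
  refine PT.iterate (f := fun (_ : α) (x : ℕ) => x + 1) (PT.succ (PT.snd PT.id)) hg hf (p + q)
    fun a i hi => ?_
  have h1 := hp a
  have h2 := hq a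
  rw [iterate_succ_nat, sz_nat, Polynomial.eval_add]
  rw [sz_nat] at h1 h2
  omega

@[fun_prop] theorem PT.sub {f g : α → ℕ} (hf : PT f) (hg : PT g) : PT (fun a => f a - g a) := by
  obtain ⟨p, hp⟩ := hf.size_le
  have h : (fun a => f a - g a) = fun a => (fun x : ℕ => x - 1)^[g a] (f a) := by
    funext a; rw [iterate_pred_nat]
  rw [h]
  refine PT.iterate (f := fun (_ : α) (x : ℕ) => x - 1) (PT.pred (PT.snd PT.id)) hg hf p
    fun a i hi => ?_
  have h1 := hp a
  rw [iterate_pred_nat, sz_nat]
  rw [sz_nat] at h1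
  omega

@[fun_prop] theorem PT.mul {f g : α → ℕ} (hf : PT f) (hg : PT g) : PT (fun a => f a * g a) := by
  obtain ⟨p, hp⟩ := hf.size_le
  obtain ⟨q, hq⟩ := hg.size_le
  have h : (fun a => f a * g a) = fun a => (fun x : ℕ => x + g a)^[f a] 0 := by
    funext a; rw [iterate_add_nat, zero_add]
  rw [h]
  refine PT.iterate (f := fun (a : α) (x : ℕ) => x + g a)
    (PT.add (PT.snd PT.id) (PT.comp hg (PT.fst PT.id))) hf (PT.const 0) (p * q)
    fun a i hi => ?_
  have h1 := hp a
  have h2 := hq a
  rw [iterate_add_nat, sz_nat, Polynomial.eval_mul, zero_add]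
  rw [sz_nat] at h1 h2
  calc 2 * (i * g a) + 1 ≤ 2 * (f a * g a) + 1 := by
        have := Nat.mul_le_mul_right (g a) hi
        omega
    _ ≤ (2 * f a + 1) * (2 * g a + 1) := by nlinarith
    _ ≤ p.eval (sz a) * q.eval (sz a) := Nat.mul_le_mul h1 h2

@[fun_prop] theorem PT.decide_le {f g : α → ℕ} (hf : PT f) (hg : PT g) :
    PT (fun a => decide (f a ≤ g a)) := by
  have h : (fun a => decide (f a ≤ g a)) = fun a => decide (f a - g a = 0) := by
    funext a
    rw [decide_eq_decide]
    omega
  rw [h]
  exact PT.decide_eq (PT.sub hf hg) (PT.const 0)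

@[fun_prop] theorem PT.decide_lt {f g : α → ℕ} (hf : PT f) (hg : PT g) :
    PT (fun a => decide (f a < g a)) := by
  have h : (fun a => decide (f a < g a)) = fun a => decide (f a + 1 ≤ g a) := by
    funext a
    rw [decide_eq_decide]
    omega
  rw [h]
  exact PT.decide_le (PT.succ hf) hg

@[fun_prop] theorem PT.max {f g : α → ℕ} (hf : PT f) (hg : PT g) :
    PT (fun a => Nat.max (f a) (g a)) := by
  have h : (fun a => Nat.max (f a) (g a)) = fun a => if f a ≤ g a then g a else f a := by
    funext a
    exact Nat.max_def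
  rw [h]
  exact PT.ite (PT.decide_le hf hg) hg hf

@[fun_prop] theorem PT.min {f g : α → ℕ} (hf : PT f) (hg : PT g) :
    PT (fun a => Nat.min (f a) (g a)) := by
  have h : (fun a => Nat.min (f a) (g a)) = fun a => if f a ≤ g a then f a else g a := by
    funext a
    exact Nat.min_def
  rw [h]
  exact PT.ite (PT.decide_le hf hg) hf hg

theorem iterate_mod_nat (m n k : ℕ) :
    ((fun x : ℕ => if m ≤ x then x - m else x)^[k] n) % m = n % m ∧
      ((fun x : ℕ => if m ≤ x then x - m else x)^[k] n ≤ n) ∧
      (0 < m → ((fun x : ℕ => if m ≤ x then x - m else x)^[k] n < m ∨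
        (fun x : ℕ => if m ≤ x then x - m else x)^[k] n + k ≤ n)) := by
  induction k with
  | zero => exact ⟨rfl, le_refl _, fun _ => Or.inr (le_refl _)⟩
  | succ k ih =>
    rw [Function.iterate_succ_apply']
    set x := (fun x : ℕ => if m ≤ x then x - m else x)^[k] n with hx
    obtain ⟨h1, h2, h3⟩ := ih
    by_cases h : m ≤ x
    · simp only [if_pos h]
      refine ⟨?_, by omega, fun hm => ?_⟩
      · rw [← h1]
        exact (Nat.mod_eq_sub_mod h).symm
      · rcases h3 hm with h4 | h4 <;> right <;> omega
    · simp only [if_neg h]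
      exact ⟨h1, h2, fun _ => Or.inl (by omega)⟩

@[fun_prop] theorem PT.mod {f g : α → ℕ} (hf : PT f) (hg : PT g) : PT (fun a => f a % g a) := by
  obtain ⟨p, hp⟩ := hf.size_le
  have h : (fun a => f a % g a) =
      fun a => (fun x : ℕ => if g a ≤ x then x - g a else x)^[f a] (f a) := by
    funext a
    obtain ⟨h1, h2, h3⟩ := iterate_mod_nat (g a) (f a) (f a)
    rcases Nat.eq_zero_or_pos (g a) with h0 | h0
    · rw [h0] at h1 ⊢
      rw [Nat.mod_zero] at h1
      rw [h1]
    · rw [← h1]
      refine Nat.mod_eq_of_lt ?_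
      rcases h3 h0 with h4 | h4
      · exact h4
      · omega
  rw [h]
  refine PT.iterate (f := fun (a : α) (x : ℕ) => if g a ≤ x then x - g a else x)
    (PT.ite (PT.decide_le (PT.comp hg (PT.fst PT.id)) (PT.snd PT.id))
      (PT.sub (PT.snd PT.id) (PT.comp hg (PT.fst PT.id))) (PT.snd PT.id)) hf hf p
    fun a i hi => ?_
  obtain ⟨-, h2, -⟩ := iterate_mod_nat (g a) (f a) i
  have h1 := hp a
  rw [sz_nat] at h1 ⊢
  omega

/-
Worked examples: `fun_prop` works with the attributes. The following two are accepted.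

example : PT (fun a : ℕ × ℕ => if a.1 ≤ a.2 then [a.1 + 1] else a.2 :: [a.1 * a.2]) := by
  fun_prop

example : PT (fun a : ℕ × List ℕ => Option.casesOn (motive := fun _ => ℕ) (a.2.head?) 0
    (fun b => b + a.1)) := by
  fun_prop
-/

end Vale.Agent.Lib.Common.PolyTime

end

section

/-!
Module PT-C3: list functions.
-/

namespace Vale.Agent.Lib.Common.PolyTime

variable {α β γ δ σ : Type} [TEnc α] [TEnc β] [TEnc γ] [TEnc δ] [TEnc σ]

/-! ### PT-C3: list functions (no size hypotheses needed) -/

omit [TEnc β] in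
theorem foldl_cons_rev (l acc : List β) :
    l.foldl (fun (acc : List β) b => b :: acc) acc = l.reverse ++ acc := by
  induction l generalizing acc with
  | nil => rfl
  | cons b l ih =>
    rw [List.foldl_cons, ih, List.reverse_cons, List.append_assoc]
    rfl

@[fun_prop] theorem PT.reverse {l : α → List β} (hl : PT l) : PT (fun a => (l a).reverse) := by
  have h1 : PT (fun a => (l a).foldl (fun (acc : List β) b => b :: acc) []) := by
    refine PT.foldl' (step := fun _ (acc : List β) b => b :: acc) (init := fun _ => [])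
      (by fun_prop) hl (by fun_prop) ⟨fun a => PolyTime.sz (l a), hl.pb, ?_⟩
    intro a l₁ l₂ h
    simp only [foldl_cons_rev, List.append_nil]
    rw [sz_reverse, h]
    exact sz_prefix_le l₁ l₂
  have h2 : (fun a => (l a).reverse) =
      fun a => (l a).foldl (fun (acc : List β) b => b :: acc) [] := by
    funext a
    simp
  rw [h2]
  exact h1

@[fun_prop] theorem PT.append {l m : α → List β} (hl : PT l) (hm : PT m) :
    PT (fun a => l a ++ m a) := by
  have h1 : PT (fun a => (l a).reverse.foldl (fun (acc : List β) b => b :: acc) (m a)) := by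
    refine PT.foldl' (step := fun _ (acc : List β) b => b :: acc) (init := fun a => m a)
      (by fun_prop) (PT.reverse hl) hm
      ⟨fun a => PolyTime.sz (l a) + PolyTime.sz (m a), hl.pb.add hm.pb, ?_⟩
    intro a l₁ l₂ h
    simp only [foldl_cons_rev]
    refine (sz_append_le _ _).trans ?_
    have h3 := sz_prefix_le l₁ l₂
    rw [← h, sz_reverse] at h3
    rw [sz_reverse]
    exact Nat.add_le_add_right h3 _
  have h2 : (fun a => l a ++ m a) =
      fun a => (l a).reverse.foldl (fun (acc : List β) b => b :: acc) (m a) := by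
    funext a
    simp
  rw [h2]
  exact h1

omit [TEnc β] [TEnc γ] in
/-- map, up to the order of the entries -/
theorem foldl_map_rev (f : β → γ) (l : List β) (acc : List γ) :
    l.foldl (fun acc b => f b :: acc) acc = (l.map f).reverse ++ acc := by
  induction l generalizing acc with
  | nil => rfl
  | cons b l ih =>
    rw [List.foldl_cons, ih, List.map_cons, List.reverse_cons, List.append_assoc]
    rfl

@[fun_prop] theorem PT.map {f : α → β → γ} {l : α → List β}
    (hf : PT (fun p : α × β => f p.1 p.2)) (hl : PT l) : PT (fun a => (l a).map (f a)) := by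
  have h1 : PT (fun a => (l a).foldl (fun (acc : List γ) b => f a b :: acc) []) := by
    obtain ⟨h, hh, hb⟩ := hf.pb₂ hl.pb
    refine PT.foldl' (step := fun a (acc : List γ) b => f a b :: acc) (init := fun _ => [])
      ?_ hl (by fun_prop)
      ⟨fun a => PolyTime.sz (l a) * (h a + 1) + 1,
        (hl.pb.mul (hh.add (PB.const 1))).add (PB.const 1), ?_⟩
    · exact PT.cons (hf.comp (PT.pair (PT.fst PT.id) (PT.snd (PT.snd PT.id))))
        (PT.fst (PT.snd PT.id))
    · intro a l₁ l₂ hl₁
      rw [foldl_map_rev, List.append_nil, sz_reverse]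
      apply sz_list_le
      · rw [List.length_map]
        refine le_trans ?_ (length_le_sz (l a))
        rw [hl₁, List.length_append]
        omega
      · intro c hc
        rw [List.mem_map] at hc
        obtain ⟨b, hb', rfl⟩ := hc
        apply hb
        apply sz_le_of_mem
        rw [hl₁]
        exact List.mem_append_left _ hb'
  have h2 : (fun a => (l a).map (f a)) =
      fun a => ((l a).foldl (fun (acc : List γ) b => f a b :: acc) []).reverse := by
    funext a
    rw [foldl_map_rev]
    simp
  rw [h2]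
  exact PT.reverse h1

omit [TEnc β] in
theorem foldl_filter_rev (f : β → Bool) (l : List β) (acc : List β) :
    l.foldl (fun acc b => bif f b then b :: acc else acc) acc = (l.filter f).reverse ++ acc := by
  induction l generalizing acc with
  | nil => rfl
  | cons b l ih =>
    rw [List.foldl_cons, ih]
    cases h : f b
    · simp [h]
    · simp [h]

@[fun_prop] theorem PT.filter {f : α → β → Bool} {l : α → List β}
    (hf : PT (fun p : α × β => f p.1 p.2)) (hl : PT l) :
    PT (fun a => (l a).filter (f a)) := by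
  have h1 : PT (fun a => (l a).foldl (fun (acc : List β) b =>
      bif f a b then b :: acc else acc) []) := by
    refine PT.foldl' (step := fun a (acc : List β) b => bif f a b then b :: acc else acc)
      (init := fun _ => []) ?_ hl (by fun_prop) ⟨fun a => PolyTime.sz (l a), hl.pb, ?_⟩
    · exact PT.bif (hf.comp (PT.pair (PT.fst PT.id) (PT.snd (PT.snd PT.id))))
        (PT.cons (PT.snd (PT.snd PT.id)) (PT.fst (PT.snd PT.id))) (PT.fst (PT.snd PT.id))
    · intro a l₁ l₂ hl₁
      change _ ≤ PolyTime.sz (l a)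
      rw [foldl_filter_rev, List.append_nil, sz_reverse, hl₁]
      exact (sz_sublist_le List.filter_sublist).trans (sz_prefix_le l₁ l₂)
  have h2 : (fun a => (l a).filter (f a)) =
      fun a => ((l a).foldl (fun (acc : List β) b =>
        bif f a b then b :: acc else acc) []).reverse := by
    funext a
    rw [foldl_filter_rev]
    simp
  rw [h2]
  exact PT.reverse h1

@[fun_prop] theorem PT.flatMap {f : α → β → List γ} {l : α → List β}
    (hf : PT (fun p : α × β => f p.1 p.2)) (hl : PT l) :
    PT (fun a => (l a).flatMap (f a)) := by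
  have key : ∀ (g : β → List γ) (l : List β) (acc : List γ),
      l.foldl (fun acc b => acc ++ g b) acc = acc ++ l.flatMap g := by
    intro g l
    induction l with
    | nil => intro acc; simp
    | cons b l ih =>
      intro acc
      rw [List.foldl_cons, ih, List.flatMap_cons, List.append_assoc]
  have hsz : ∀ (g : β → List γ) (l : List β) (B : ℕ), (∀ b ∈ l, PolyTime.sz (g b) ≤ B) →
      PolyTime.sz (l.flatMap g) ≤ l.length * B + 1 := by
    intro g l B
    induction l with
    | nil =>
      intro _
      rw [List.flatMap_nil, sz_nil]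
      omega
    | cons b l ih =>
      intro h
      have h1 := ih (fun c hc => h c (List.mem_cons_of_mem _ hc))
      have h2 := h b List.mem_cons_self
      have h3 := sz_append (g b) (l.flatMap g)
      rw [List.flatMap_cons, List.length_cons, Nat.succ_mul]
      omega
  have h1 : PT (fun a => (l a).foldl (fun (acc : List γ) b => acc ++ f a b) []) := by
    obtain ⟨h, hh, hb⟩ := hf.pb₂ hl.pb
    refine PT.foldl' (step := fun a (acc : List γ) b => acc ++ f a b) (init := fun _ => [])
      ?_ hl (by fun_prop)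
      ⟨fun a => PolyTime.sz (l a) * h a + 1, (hl.pb.mul hh).add (PB.const 1), ?_⟩
    · exact PT.append (PT.fst (PT.snd PT.id))
        (hf.comp (PT.pair (PT.fst PT.id) (PT.snd (PT.snd PT.id))))
    · intro a l₁ l₂ hl₁
      rw [key, List.nil_append]
      refine (hsz _ _ (h a) ?_).trans ?_
      · intro b hb'
        apply hb
        apply sz_le_of_mem
        rw [hl₁]
        exact List.mem_append_left _ hb'
      · have h3 : l₁.length ≤ PolyTime.sz (l a) := by
          refine le_trans ?_ (length_le_sz (l a))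
          rw [hl₁, List.length_append]
          omega
        have := Nat.mul_le_mul_right (h a) h3
        simp only
        omega
  have h2 : (fun a => (l a).flatMap (f a)) =
      fun a => (l a).foldl (fun (acc : List γ) b => acc ++ f a b) [] := by
    funext a
    rw [key, List.nil_append]
  rw [h2]
  exact h1

@[fun_prop] theorem PT.any {f : α → β → Bool} {l : α → List β}
    (hf : PT (fun p : α × β => f p.1 p.2)) (hl : PT l) : PT (fun a => (l a).any (f a)) := by
  have key : ∀ (g : β → Bool) (l : List β) (acc : Bool),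
      l.foldl (fun acc b => acc || g b) acc = (acc || l.any g) := by
    intro g l
    induction l with
    | nil => intro acc; simp
    | cons b l ih =>
      intro acc
      rw [List.foldl_cons, ih, List.any_cons, Bool.or_assoc]
  have h1 : PT (fun a => (l a).foldl (fun (acc : Bool) b => acc || f a b) false) := by
    refine PT.foldl' (step := fun a (acc : Bool) b => acc || f a b) (init := fun _ => false)
      ?_ hl (by fun_prop) ⟨fun _ => 3, PB.const 3, fun _ _ _ _ => sz_bool_le _⟩
    exact PT.or (PT.fst (PT.snd PT.id))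
        (hf.comp (PT.pair (PT.fst PT.id) (PT.snd (PT.snd PT.id))))
  have h2 : (fun a => (l a).any (f a)) =
      fun a => (l a).foldl (fun (acc : Bool) b => acc || f a b) false := by
    funext a
    rw [key, Bool.false_or]
  rw [h2]
  exact h1

@[fun_prop] theorem PT.all {f : α → β → Bool} {l : α → List β}
    (hf : PT (fun p : α × β => f p.1 p.2)) (hl : PT l) : PT (fun a => (l a).all (f a)) := by
  have h2 : (fun a => (l a).all (f a)) = fun a => !((l a).any (fun b => !(f a b))) := by
    funext a
    rw [List.not_any_eq_all_not]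
    simp
  rw [h2]
  exact PT.not (PT.any (f := fun a b => !(f a b)) (PT.not hf) hl)

@[fun_prop] theorem PT.find? {f : α → β → Bool} {l : α → List β}
    (hf : PT (fun p : α × β => f p.1 p.2)) (hl : PT l) : PT (fun a => (l a).find? (f a)) := by
  have h2 : (fun a => (l a).find? (f a)) = fun a => ((l a).filter (f a)).head? := by
    funext a
    rw [List.head?_filter]
  rw [h2]
  exact PT.head? (PT.filter hf hl)

@[fun_prop] theorem PT.length {l : α → List β} (hl : PT l) : PT (fun a => (l a).length) := by
  have key : ∀ i n : ℕ, (fun m => m + 1)^[i] n = n + i := by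
    intro i
    induction i with
    | zero => intro n; rfl
    | succ i ih =>
      intro n
      rw [Function.iterate_succ_apply', ih]
      rfl
  have h1 : PT (fun a => ((fun (_ : α) (m : ℕ) => m + 1) a)^[(l a).length] ((fun _ => 0) a)) := by
    refine PT.iterate_core List.length len_enc_list (by fun_prop) hl (PT.const 0)
      ⟨fun a => 2 * PolyTime.sz (l a) + 1, ((PB.const 2).mul hl.pb).add (PB.const 1), ?_⟩
    intro a i hi
    simp only [key, sz_nat]
    have := length_le_sz (l a)
    omega
  simpa only [key, Nat.zero_add] using h1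

theorem iterate_append_length (i : ℕ) :
    (fun l : List ℕ => l ++ [l.length])^[i] [] = List.range i := by
  induction i with
  | zero => rfl
  | succ i ih =>
    rw [Function.iterate_succ_apply', ih, List.length_range, List.range_succ]

@[fun_prop] theorem PT.range {n : α → ℕ} (hn : PT n) : PT (fun a => List.range (n a)) := by
  have h1 : PT (fun a => ((fun (_ : α) (l : List ℕ) => l ++ [l.length]) a)^[n a]
      ((fun _ => []) a)) := by
    refine PT.iterate' (by fun_prop) hn (PT.const [])
      ⟨fun a => PolyTime.sz (n a) * (2 * PolyTime.sz (n a) + 1 + 1) + 1,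
        (hn.pb.mul ((((PB.const 2).mul hn.pb).add (PB.const 1)).add (PB.const 1))).add
          (PB.const 1), ?_⟩
    intro a i hi
    simp only [iterate_append_length]
    have h3 : n a ≤ PolyTime.sz (n a) := by
      rw [sz_nat]
      omega
    apply sz_list_le
    · rw [List.length_range]
      omega
    · intro b hb
      rw [List.mem_range] at hb
      rw [sz_nat]
      omega
  simpa only [iterate_append_length] using h1

@[fun_prop] theorem PT.replicate {n : α → ℕ} {f : α → β} (hn : PT n) (hf : PT f) :
    PT (fun a => List.replicate (n a) (f a)) := by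
  have h2 : (fun a => List.replicate (n a) (f a)) =
      fun a => (List.range (n a)).map ((fun (a : α) (_ : ℕ) => f a) a) := by
    funext a
    simp
  rw [h2]
  exact PT.map (hf.comp (PT.fst PT.id)) (PT.range hn)

@[fun_prop] theorem PT.drop {l : α → List β} {n : α → ℕ} (hl : PT l) (hn : PT n) :
    PT (fun a => (l a).drop (n a)) := by
  have key : ∀ (i : ℕ) (l : List β), (fun l : List β => l.tail)^[i] l = l.drop i := by
    intro i
    induction i with
    | zero => intro l; rfl
    | succ i ih =>
      intro l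
      rw [Function.iterate_succ_apply', ih, List.tail_drop]
  have h1 : PT (fun a => ((fun (_ : α) (l : List β) => l.tail) a)^[n a] (l a)) := by
    refine PT.iterate' (PT.tail (PT.snd PT.id)) hn hl ⟨fun a => PolyTime.sz (l a), hl.pb, ?_⟩
    intro a i hi
    simp only [key]
    exact sz_sublist_le (List.drop_sublist _ _)
  simpa only [key] using h1

@[fun_prop] theorem PT.optionGetD {o : α → Option β} {d : α → β} (ho : PT o) (hd : PT d) :
    PT (fun a => (o a).getD (d a)) := by
  have h2 : (fun a => (o a).getD (d a)) = fun a => Option.casesOn (motive := fun _ => β) (o a)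
      (d a) (fun b => b) := by
    funext a
    cases o a <;> rfl
  rw [h2]
  exact PT.optionCases (g := fun _ b => b) ho hd (PT.snd PT.id)

@[fun_prop] theorem PT.optionMap {o : α → Option β} {f : α → β → γ} (ho : PT o)
    (hf : PT (fun p : α × β => f p.1 p.2)) : PT (fun a => (o a).map (f a)) := by
  have h2 : (fun a => (o a).map (f a)) = fun a => Option.casesOn (motive := fun _ => Option γ)
      (o a) none (fun b => Option.some (f a b)) := by
    funext a
    cases o a <;> rfl
  rw [h2]
  exact PT.optionCases (g := fun a b => Option.some (f a b)) ho (PT.const none) (PT.some hf)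

@[fun_prop] theorem PT.optionBind {o : α → Option β} {f : α → β → Option γ} (ho : PT o)
    (hf : PT (fun p : α × β => f p.1 p.2)) : PT (fun a => (o a).bind (f a)) := by
  have h2 : (fun a => (o a).bind (f a)) = fun a => Option.casesOn (motive := fun _ => Option γ)
      (o a) none (fun b => f a b) := by
    funext a
    cases o a <;> rfl
  rw [h2]
  exact PT.optionCases (g := fun a b => f a b) ho (PT.const none) hf

@[fun_prop] theorem PT.isNone {o : α → Option β} (ho : PT o) : PT (fun a => (o a).isNone) := by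
  have h2 : (fun a => (o a).isNone) = fun a => Option.casesOn (motive := fun _ => Bool)
      (o a) true (fun _ => false) := by
    funext a
    cases o a <;> rfl
  rw [h2]
  exact PT.optionCases (g := fun _ _ => false) ho (PT.const true) (PT.const false)

@[fun_prop] theorem PT.getD {l : α → List β} {n : α → ℕ} {d : α → β} (hl : PT l) (hn : PT n)
    (hd : PT d) : PT (fun a => (l a).getD (n a) (d a)) := by
  have h2 : (fun a => (l a).getD (n a) (d a)) =
      fun a => (((l a).drop (n a)).head?).getD (d a) := by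
    funext a
    rw [List.getD_eq_getElem?_getD, List.head?_drop]
  rw [h2]
  exact PT.optionGetD (PT.head? (PT.drop hl hn)) hd

/-- one step of `take`: state `(rest, reversed prefix)` -/
def takeStep (x : List β × List β) : List β × List β :=
  List.casesOn (motive := fun _ => List β × List β) x.1 ([], x.2) (fun b l => (l, b :: x.2))

omit [TEnc β] in
theorem takeStep_iterate (i : ℕ) (l acc : List β) :
    takeStep^[i] (l, acc) = (l.drop i, (l.take i).reverse ++ acc) := by
  induction i generalizing l acc with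
  | zero => simp
  | succ i ih =>
    rw [Function.iterate_succ_apply]
    cases l with
    | nil =>
      have h1 : takeStep (([] : List β), acc) = ([], acc) := rfl
      rw [h1, ih]
      simp
    | cons b l =>
      have h1 : takeStep (b :: l, acc) = (l, b :: acc) := rfl
      rw [h1, ih]
      simp

theorem PT.takeStep : PT (fun x : α × (List β × List β) => PolyTime.takeStep x.2) := by
  have h1 : PT (fun p : (α × (List β × List β)) × β × List β => (p.2.2, p.2.1 :: p.1.2.2)) := by
    fun_prop
  exact PT.listCases (l := fun x : α × (List β × List β) => x.2.1)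
    (f := fun x : α × (List β × List β) => (([] : List β), x.2.2))
    (g := fun x b l => (l, b :: x.2.2)) (PT.fst (PT.snd PT.id))
    (PT.pair (PT.const []) (PT.snd (PT.snd PT.id))) h1

@[fun_prop] theorem PT.take {l : α → List β} {n : α → ℕ} (hl : PT l) (hn : PT n) :
    PT (fun a => (l a).take (n a)) := by
  have h1 : PT (fun a => ((fun (_ : α) (x : List β × List β) => PolyTime.takeStep x) a)^[n a]
      ((fun a => (l a, [])) a)) := by
    refine PT.iterate' PT.takeStep hn (PT.pair hl (PT.const []))
      ⟨fun a => PolyTime.sz (l a) + PolyTime.sz (l a) + 1,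
        (hl.pb.add hl.pb).add (PB.const 1), ?_⟩
    intro a i hi
    have h3 := takeStep_iterate i (l a) []
    simp only
    rw [h3, sz_pair, List.append_nil, sz_reverse]
    have h4 : PolyTime.sz ((l a).drop i) ≤ PolyTime.sz (l a) :=
      sz_sublist_le (List.drop_sublist _ _)
    have h5 : PolyTime.sz ((l a).take i) ≤ PolyTime.sz (l a) :=
      sz_sublist_le (List.take_sublist _ _)
    omega
  have h2 : (fun a => (l a).take (n a)) = fun a =>
      (((fun (_ : α) (x : List β × List β) => PolyTime.takeStep x) a)^[n a]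
      ((fun a => (l a, [])) a)).2.reverse := by
    funext a
    have h3 := takeStep_iterate (n a) (l a) []
    simp only
    rw [h3]
    simp
  rw [h2]
  exact PT.reverse (PT.snd h1)

@[fun_prop] theorem PT.set {l : α → List β} {n : α → ℕ} {d : α → β} (hl : PT l) (hn : PT n)
    (hd : PT d) : PT (fun a => (l a).set (n a) (d a)) := by
  have key : ∀ (l : List β) (n : ℕ) (d : β), l.set n d = l.take n ++
      List.casesOn (motive := fun _ => List β) (l.drop n) [] (fun _ m => d :: m) := by
    intro l
    induction l with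
    | nil => intro n d; simp
    | cons b l ih =>
      intro n d
      cases n with
      | zero => rfl
      | succ n =>
        rw [List.set_cons_succ, ih, List.take_succ_cons, List.drop_succ_cons]
        rfl
  have h2 : (fun a => (l a).set (n a) (d a)) = fun a => (l a).take (n a) ++
      List.casesOn (motive := fun _ => List β) ((l a).drop (n a)) [] (fun _ m => d a :: m) := by
    funext a
    exact key _ _ _
  rw [h2]
  refine PT.append (PT.take hl hn) ?_
  exact PT.listCases (g := fun a _ m => d a :: m) (PT.drop hl hn) (PT.const [])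
    (PT.cons (hd.comp (PT.fst PT.id)) (PT.snd (PT.snd PT.id)))

/-- one step of `zip`: state `(rest of the second list, reversed result)` -/
def zipStep (x : List γ × List (β × γ)) (b : β) : List γ × List (β × γ) :=
  List.casesOn (motive := fun _ => List γ × List (β × γ)) x.1 ([], x.2)
    (fun c m => (m, (b, c) :: x.2))

omit [TEnc β] [TEnc γ] in
theorem foldl_zipStep (l : List β) (m : List γ) (acc : List (β × γ)) :
    l.foldl zipStep (m, acc) = (m.drop l.length, (l.zip m).reverse ++ acc) := by
  induction l generalizing m acc with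
  | nil => simp
  | cons b l ih =>
    rw [List.foldl_cons]
    cases m with
    | nil =>
      have h1 : zipStep (([] : List γ), acc) b = ([], acc) := rfl
      rw [h1, ih]
      simp
    | cons c m =>
      have h1 : zipStep (c :: m, acc) b = (m, (b, c) :: acc) := rfl
      rw [h1, ih]
      simp

theorem PT.zipStep : PT (fun x : α × (List γ × List (β × γ)) × β =>
    PolyTime.zipStep x.2.1 x.2.2) := by
  have h1 : PT (fun p : (α × (List γ × List (β × γ)) × β) × γ × List γ =>
      (p.2.2, (p.1.2.2, p.2.1) :: p.1.2.1.2)) := by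
    fun_prop
  exact PT.listCases (l := fun x : α × (List γ × List (β × γ)) × β => x.2.1.1)
    (f := fun x : α × (List γ × List (β × γ)) × β => (([] : List γ), x.2.1.2))
    (g := fun x c m => (m, (x.2.2, c) :: x.2.1.2)) (by fun_prop) (by fun_prop) h1

@[fun_prop] theorem PT.zip {l : α → List β} {m : α → List γ} (hl : PT l) (hm : PT m) :
    PT (fun a => (l a).zip (m a)) := by
  have hsz : ∀ (l : List β) (m : List γ), PolyTime.sz (l.zip m) ≤
      PolyTime.sz l + PolyTime.sz m := by
    intro l
    induction l with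
    | nil =>
      intro m
      have := sz_pos m
      rw [List.zip_nil_left, sz_nil]
      omega
    | cons b l ih =>
      intro m
      cases m with
      | nil =>
        have := sz_pos (b :: l)
        rw [List.zip_nil_right, sz_nil]
        omega
      | cons c m =>
        have := ih m
        rw [List.zip_cons_cons, sz_cons, sz_cons, sz_cons, sz_pair]
        omega
  have h1 : PT (fun a => (l a).foldl (fun x b => PolyTime.zipStep x b)
      ((m a, []) : List γ × List (β × γ))) := by
    refine PT.foldl' (step := fun _ x b => PolyTime.zipStep x b)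
      (init := fun a => ((m a, []) : List γ × List (β × γ))) PT.zipStep hl (by fun_prop)
      ⟨fun a => PolyTime.sz (m a) + (PolyTime.sz (l a) + PolyTime.sz (m a)) + 1,
        (hm.pb.add (hl.pb.add hm.pb)).add (PB.const 1), ?_⟩
    intro a l₁ l₂ h
    have h3 := foldl_zipStep l₁ (m a) []
    simp only
    rw [h3, sz_pair, List.append_nil, sz_reverse]
    have h4 : PolyTime.sz ((m a).drop l₁.length) ≤ PolyTime.sz (m a) :=
      sz_sublist_le (List.drop_sublist _ _)
    have h5 := hsz l₁ (m a)
    have h6 := sz_prefix_le l₁ l₂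
    rw [← h] at h6
    omega
  have h2 : (fun a => (l a).zip (m a)) = fun a =>
      ((l a).foldl (fun x b => PolyTime.zipStep x b)
        ((m a, []) : List γ × List (β × γ))).2.reverse := by
    funext a
    have h3 := foldl_zipStep (l a) (m a) []
    rw [h3]
    simp
  rw [h2]
  exact PT.reverse (PT.snd h1)

@[fun_prop] theorem PT.contains [BEq β] [LawfulBEq β] {l : α → List β} {b : α → β} (hl : PT l)
    (hb : PT b) : PT (fun a => (l a).contains (b a)) := by
  have h2 : (fun a => (l a).contains (b a)) = fun a => (l a).any (fun c => b a == c) := by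
    funext a
    exact List.contains_eq_any_beq
  rw [h2]
  exact PT.any (f := fun a c => b a == c) (PT.beq (hb.comp (PT.fst PT.id)) (PT.snd PT.id)) hl

omit [TEnc β] in
theorem foldl_idx (f : β → Bool) (l : List β) (n : ℕ) :
    l.foldl (fun (x : Bool × ℕ) c => bif x.1 then x else bif f c then (true, x.2)
      else (false, x.2 + 1)) (true, n) = (true, n) := by
  induction l with
  | nil => rfl
  | cons c l ih =>
    rw [List.foldl_cons]
    exact ih

omit [TEnc β] in
theorem foldl_idx' (f : β → Bool) (l : List β) (n : ℕ) :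
    (l.foldl (fun (x : Bool × ℕ) c => bif x.1 then x else bif f c then (true, x.2)
      else (false, x.2 + 1)) (false, n)).2 = n + l.findIdx f := by
  induction l generalizing n with
  | nil => rfl
  | cons c l ih =>
    rw [List.foldl_cons, List.findIdx_cons]
    cases h : f c
    · simp only [cond_false]
      rw [ih]
      ring
    · simp only [cond_false, cond_true]
      rw [foldl_idx]
      rfl

@[fun_prop] theorem PT.idxOf [BEq β] [LawfulBEq β] {l : α → List β} {b : α → β} (hl : PT l)
    (hb : PT b) : PT (fun a => (l a).idxOf (b a)) := by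
  have h1 : PT (fun a => (l a).foldl (fun (x : Bool × ℕ) c => bif x.1 then x else
      bif c == b a then (true, x.2) else (false, x.2 + 1)) (false, 0)) := by
    have hb' : PT (fun x : α × (Bool × ℕ) × β => b x.1) := hb.comp (PT.fst PT.id)
    refine PT.foldl' (step := fun a (x : Bool × ℕ) c => bif x.1 then x else
      bif c == b a then (true, x.2) else (false, x.2 + 1)) (init := fun _ => (false, 0))
      (by fun_prop) hl (by fun_prop)
      ⟨fun a => 3 + (2 * PolyTime.sz (l a) + 1) + 1,
        ((PB.const 3).add (((PB.const 2).mul hl.pb).add (PB.const 1))).add (PB.const 1), ?_⟩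
    intro a l₁ l₂ h
    have h3 := foldl_idx' (fun c => c == b a) l₁ 0
    have h4 : l₁.findIdx (fun c => c == b a) ≤ l₁.length := List.findIdx_le_length
    have h5 : l₁.length ≤ PolyTime.sz (l a) := by
      refine le_trans ?_ (length_le_sz (l a))
      rw [h, List.length_append]
      omega
    have h6 := sz_pair (l₁.foldl (fun (x : Bool × ℕ) c => bif x.1 then x else
      bif c == b a then (true, x.2) else (false, x.2 + 1)) (false, 0)).1
      (l₁.foldl (fun (x : Bool × ℕ) c => bif x.1 then x else
      bif c == b a then (true, x.2) else (false, x.2 + 1)) (false, 0)).2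
    rw [h3, sz_nat] at h6
    have h7 := sz_bool_le (l₁.foldl (fun (x : Bool × ℕ) c => bif x.1 then x else
      bif c == b a then (true, x.2) else (false, x.2 + 1)) (false, 0)).1
    have h8 : PolyTime.sz (l₁.foldl (fun (x : Bool × ℕ) c => bif x.1 then x else
      bif c == b a then (true, x.2) else (false, x.2 + 1)) (false, 0)) =
      PolyTime.sz (l₁.foldl (fun (x : Bool × ℕ) c => bif x.1 then x else
      bif c == b a then (true, x.2) else (false, x.2 + 1)) (false, 0)).1 +
      (2 * (0 + l₁.findIdx (fun c => c == b a)) + 1) + 1 := by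
      rw [← h6, ← h3]
    simp only
    rw [h8]
    omega
  have h2 : (fun a => (l a).idxOf (b a)) = fun a =>
      ((l a).foldl (fun (x : Bool × ℕ) c => bif x.1 then x else
      bif c == b a then (true, x.2) else (false, x.2 + 1)) (false, 0)).2 := by
    funext a
    rw [foldl_idx' (fun c => c == b a) (l a) 0, Nat.zero_add]
    rfl
  rw [h2]
  exact PT.snd h1

omit [TEnc β] in
theorem foldl_eraseP (f : β → Bool) (l acc : List β) :
    l.foldl (fun (x : Bool × List β) c => bif x.1 then (true, c :: x.2) else
      bif f c then (true, x.2) else (false, c :: x.2)) (true, acc) =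
      (true, l.reverse ++ acc) := by
  induction l generalizing acc with
  | nil => rfl
  | cons c l ih =>
    rw [List.foldl_cons, List.reverse_cons, List.append_assoc]
    exact ih _

omit [TEnc β] in
theorem foldl_eraseP' (f : β → Bool) (l acc : List β) :
    (l.foldl (fun (x : Bool × List β) c => bif x.1 then (true, c :: x.2) else
      bif f c then (true, x.2) else (false, c :: x.2)) (false, acc)).2 =
      (l.eraseP f).reverse ++ acc := by
  induction l generalizing acc with
  | nil => rfl
  | cons c l ih =>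
    rw [List.foldl_cons, List.eraseP_cons]
    cases h : f c
    · simp only [cond_false]
      rw [ih, List.reverse_cons, List.append_assoc]
      rfl
    · simp only [cond_false, cond_true]
      rw [foldl_eraseP]

@[fun_prop] theorem PT.eraseP {f : α → β → Bool} {l : α → List β}
    (hf : PT (fun p : α × β => f p.1 p.2)) (hl : PT l) :
    PT (fun a => (l a).eraseP (f a)) := by
  have h1 : PT (fun a => (l a).foldl (fun (x : Bool × List β) c =>
      bif x.1 then (true, c :: x.2) else bif f a c then (true, x.2) else (false, c :: x.2))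
        (false, [])) := by
    have hf' : PT (fun x : α × (Bool × List β) × β => f x.1 x.2.2) :=
      hf.comp (PT.pair (PT.fst PT.id) (PT.snd (PT.snd PT.id)))
    refine PT.foldl' (step := fun a (x : Bool × List β) c =>
      bif x.1 then (true, c :: x.2) else bif f a c then (true, x.2) else (false, c :: x.2))
      (init := fun _ => (false, [])) (by fun_prop) hl (by fun_prop)
      ⟨fun a => 3 + PolyTime.sz (l a) + 1, ((PB.const 3).add hl.pb).add (PB.const 1), ?_⟩
    intro a l₁ l₂ h
    have h3 := foldl_eraseP' (f a) l₁ []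
    set z := l₁.foldl (fun (x : Bool × List β) c =>
      bif x.1 then (true, c :: x.2) else bif f a c then (true, x.2) else (false, c :: x.2))
        (false, []) with hz
    have h4 : PolyTime.sz z = PolyTime.sz z.1 + PolyTime.sz z.2 + 1 := sz_pair z.1 z.2
    have h5 := sz_bool_le z.1
    have h6 := sz_prefix_le l₁ l₂
    have h7 : PolyTime.sz (l₁.eraseP (f a)) ≤ PolyTime.sz l₁ := sz_sublist_le List.eraseP_sublist
    rw [h3, List.append_nil, sz_reverse] at h4
    rw [← h] at h6
    change PolyTime.sz z ≤ 3 + PolyTime.sz (l a) + 1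
    omega
  have h2 : (fun a => (l a).eraseP (f a)) = fun a =>
      ((l a).foldl (fun (x : Bool × List β) c =>
      bif x.1 then (true, c :: x.2) else bif f a c then (true, x.2) else (false, c :: x.2))
        (false, [])).2.reverse := by
    funext a
    rw [foldl_eraseP', List.append_nil, List.reverse_reverse]
  rw [h2]
  exact PT.reverse (PT.snd h1)

@[fun_prop] theorem PT.nodup [DecidableEq β] {l : α → List β} (hl : PT l) :
    PT (fun a => decide (l a).Nodup) := by
  have h2 : (fun a => decide (l a).Nodup) = fun a =>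
      (l a).all ((fun (a : α) (b : β) => decide ((l a).filter (fun c => c == b) = [b])) a) := by
    funext a
    rw [Bool.eq_iff_iff, decide_eq_true_iff, List.all_eq_true, List.nodup_iff_count_eq_one]
    refine forall₂_congr fun b _ => ?_
    rw [decide_eq_true_iff, List.filter_beq]
    constructor
    · intro h
      rw [h]
      rfl
    · intro h
      have := congrArg List.length h
      rwa [List.length_replicate] at this
  rw [h2]
  have hl' : PT (fun p : α × β => l p.1) := hl.comp (PT.fst PT.id)
  refine PT.all ?_ hl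
  refine PT.decide_eq (PT.filter (f := fun (p : α × β) c => c == p.2) (by fun_prop) hl')
    (by fun_prop)

@[fun_prop] theorem PT.sum {l : α → List ℕ} (hl : PT l) : PT (fun a => (l a).sum) := by
  have h2 : (fun a => (l a).sum) = fun a =>
      ((l a).flatMap ((fun (_ : α) (n : ℕ) => List.replicate n ()) a)).length := by
    funext a
    rw [List.length_flatMap]
    simp
  rw [h2]
  exact PT.length (PT.flatMap (by fun_prop) hl)

end Vale.Agent.Lib.Common.PolyTime

end

section

/-!
Module PT-C: typed library of polynomial time functions.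
-/

end

section

/-!
Sizes of encodings, and folds whose accumulator grows additively.
-/

namespace Vale.Agent.Lib.Common.PolyTime

variable {α β γ δ σ : Type} [TEnc α] [TEnc β] [TEnc γ] [TEnc δ] [TEnc σ]

theorem sz_filter_add (p : α → Bool) (l : List α) :
    sz (l.filter p) + sz (l.filter fun a => !(p a)) = sz l + 1 := by
  induction l with
  | nil => rfl
  | cons a l ih =>
    cases h : p a
    · simp only [List.filter_cons, h, Bool.not_false, if_true, sz_cons, Bool.false_eq_true,
        if_false]
      omega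
    · simp only [List.filter_cons, h, Bool.not_true, if_true, sz_cons, Bool.false_eq_true,
        if_false]
      omega

theorem sz_filter_le (p : α → Bool) (l : List α) : sz (l.filter p) ≤ sz l := by
  have h1 := sz_filter_add p l
  have h2 := sz_pos (l.filter fun a => !(p a))
  omega

theorem sz_lt_of_mem {a : α} {l : List α} (h : a ∈ l) : sz a < sz l := by
  induction l with
  | nil => simp at h
  | cons b l ih =>
    rw [sz_cons]
    rcases List.mem_cons.1 h with rfl | h
    · omega
    · have := ih h
      omega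

theorem sz_getD_le (l : List α) (n : ℕ) (d : α) : sz (l.getD n d) ≤ sz l + sz d := by
  rw [List.getD_eq_getElem?_getD]
  cases h : l[n]? with
  | none => simp
  | some a =>
    have h1 := sz_lt_of_mem (List.mem_of_getElem? h)
    simp only [Option.getD_some]
    omega

/-- left fold whose accumulators are bounded by the size of a computable object -/
theorem PT.foldl_le {step : α → σ → β → σ} {l : α → List β} {init : α → σ}
    (hs : PT (fun x : α × σ × β => step x.1 x.2.1 x.2.2)) (hl : PT l) (hi : PT init)
    {h : α → γ} (hh : PT h)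
    (hp : ∀ a, ∀ l₁ l₂ : List β, l a = l₁ ++ l₂ →
      sz (l₁.foldl (step a) (init a)) ≤ sz (h a)) :
    PT (fun a => (l a).foldl (step a) (init a)) := by
  obtain ⟨q, hq⟩ := hh.size_le
  exact PT.foldl hs hl hi q fun a l₁ l₂ h' => (hp a l₁ l₂ h').trans (hq a)

omit [TEnc β] in
theorem foldl_sz_add {step : σ → β → σ} {Q : ℕ} : ∀ (l : List β) (s : σ),
    (∀ s, ∀ b ∈ l, sz (step s b) ≤ sz s + Q) → sz (l.foldl step s) ≤ sz s + l.length * Q := by
  intro l
  induction l with
  | nil => intro s _; simp
  | cons b l ih =>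
    intro s hQ
    rw [List.foldl_cons, List.length_cons, add_mul, one_mul]
    have h1 := ih (step s b) fun s b hb => hQ s b (List.mem_cons_of_mem _ hb)
    have h2 := hQ s b List.mem_cons_self
    omega

/-- left fold whose accumulator grows by at most the size of a computable object in each step -/
theorem PT.foldl_add {step : α → σ → β → σ} {l : α → List β} {init : α → σ}
    (hs : PT (fun x : α × σ × β => step x.1 x.2.1 x.2.2)) (hl : PT l) (hi : PT init)
    {h : α → β → γ} (hh : PT (fun x : α × β => h x.1 x.2))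
    (hp : ∀ a, ∀ s, ∀ b ∈ l a, sz (step a s b) ≤ sz s + sz (h a b)) :
    PT (fun a => (l a).foldl (step a) (init a)) := by
  obtain ⟨q, hq⟩ := hh.size_le
  obtain ⟨pl, hpl⟩ := hl.size_le
  obtain ⟨pi, hpi⟩ := hi.size_le
  refine PT.foldl hs hl hi
    (pi + pl * q.comp (Polynomial.X + pl + Polynomial.C 1)) fun a l₁ l₂ h' => ?_
  simp only [Polynomial.eval_add, Polynomial.eval_mul, Polynomial.eval_comp, Polynomial.eval_X,
    Polynomial.eval_C]
  have h1 := foldl_sz_add (step := step a) (Q := q.eval (sz a + pl.eval (sz a) + 1)) l₁ (init a)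
    (fun s b hb => by
      have hb' : b ∈ l a := by rw [h']; exact List.mem_append_left _ hb
      refine (hp a s b hb').trans (Nat.add_le_add_left ?_ _)
      refine (hq (a, b)).trans (poly_mono q ?_)
      rw [sz_pair]
      have h2 := sz_lt_of_mem hb'
      have h3 := hpl a
      omega)
  refine h1.trans (Nat.add_le_add (hpi a) (Nat.mul_le_mul_right _ ?_))
  have h2 : l₁.length ≤ (l a).length := by rw [h']; simp
  exact h2.trans ((length_le_sz _).trans (hpl a))

end Vale.Agent.Lib.Common.PolyTime

end
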