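import Mathlib
import Vale.Agent.Lib.Common.PolyTime.MA

section

/-!
Natural numbers in binary: the type `Bn` and its operations.
(`TEnc ℕ` is the unary code; `Bn` is a copy of `ℕ` with the binary code.)
-/

namespace Vale.Agent.Lib.Common.PolyTime

/-- value of a list of binary digits, least significant digit first -/
def bval (l : List Bool) : ℕ := l.foldr (fun b v => Nat.bit b v) 0

theorem bval_nil : bval [] = 0 := rfl

theorem bval_cons (b : Bool) (l : List Bool) : bval (b :: l) = Nat.bit b (bval l) := rfl

theorem natBits_injective : Function.Injective Nat.bits := by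
  intro a b h
  induction a using Nat.binaryRec' generalizing b with
  | zero =>
    induction b using Nat.binaryRec' with
    | zero => rfl
    | bit c m hm _ =>
      rw [Nat.bits_append_bit _ _ hm, Nat.zero_bits] at h
      cases h
  | bit c m hm ih =>
    induction b using Nat.binaryRec' with
    | zero =>
      rw [Nat.bits_append_bit _ _ hm, Nat.zero_bits] at h
      cases h
    | bit c' m' hm' _ =>
      rw [Nat.bits_append_bit _ _ hm, Nat.bits_append_bit _ _ hm'] at h
      simp only [List.cons.injEq] at h
      rw [h.1, ih h.2]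

/-- natural numbers, encoded in binary -/
@[ext] structure Bn : Type where
  /-- the number -/
  val : ℕ
  deriving DecidableEq

instance : Inhabited Bn := ⟨⟨0⟩⟩

instance : TEnc Bn := ⟨fun x => TEnc.enc (Nat.bits x.val), fun _ _ h =>
  Bn.ext (natBits_injective (TEnc.inj h))⟩

namespace Bn

/-- the binary digits -/
def bits (x : Bn) : List Bool := Nat.bits x.val
/-- the number with given binary digits -/
def ofBits (l : List Bool) : Bn := ⟨bval l⟩
/-- from unary to binary -/
def ofNat (n : ℕ) : Bn := ⟨n⟩
/-- sum -/
def add (x y : Bn) : Bn := ⟨x.val + y.val⟩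
/-- truncated difference -/
def sub (x y : Bn) : Bn := ⟨x.val - y.val⟩
/-- product -/
def mul (x y : Bn) : Bn := ⟨x.val * y.val⟩
/-- quotient -/
def div (x y : Bn) : Bn := ⟨x.val / y.val⟩
/-- remainder -/
def mod (x y : Bn) : Bn := ⟨x.val % y.val⟩
/-- comparison -/
def le (x y : Bn) : Bool := decide (x.val ≤ y.val)
/-- strict comparison -/
def lt (x y : Bn) : Bool := decide (x.val < y.val)
/-- minimum -/
def min (x y : Bn) : Bn := ⟨Nat.min x.val y.val⟩
/-- maximum -/
def max (x y : Bn) : Bn := ⟨Nat.max x.val y.val⟩
/-- power of two, exponent in unary -/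
def pow2 (n : ℕ) : Bn := ⟨2 ^ n⟩
/-- power, exponent in unary -/
def pow (x : Bn) (n : ℕ) : Bn := ⟨x.val ^ n⟩
/-- number of binary digits, in unary -/
def size (x : Bn) : ℕ := Nat.size x.val
/-- sum of a list -/
def sum (l : List Bn) : Bn := ⟨(l.map Bn.val).sum⟩
/-- product of a list -/
def prod (l : List Bn) : Bn := ⟨(l.map Bn.val).prod⟩

@[simp] theorem ofBits_val (l : List Bool) : (ofBits l).val = bval l := rfl
@[simp] theorem ofNat_val (n : ℕ) : (ofNat n).val = n := rfl
@[simp] theorem add_val (x y : Bn) : (add x y).val = x.val + y.val := rfl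
@[simp] theorem sub_val (x y : Bn) : (sub x y).val = x.val - y.val := rfl
@[simp] theorem mul_val (x y : Bn) : (mul x y).val = x.val * y.val := rfl
@[simp] theorem div_val (x y : Bn) : (div x y).val = x.val / y.val := rfl
@[simp] theorem mod_val (x y : Bn) : (mod x y).val = x.val % y.val := rfl
@[simp] theorem min_val (x y : Bn) : (min x y).val = Nat.min x.val y.val := rfl
@[simp] theorem max_val (x y : Bn) : (max x y).val = Nat.max x.val y.val := rfl
@[simp] theorem pow2_val (n : ℕ) : (pow2 n).val = 2 ^ n := rfl
@[simp] theorem pow_val (x : Bn) (n : ℕ) : (pow x n).val = x.val ^ n := rfl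
@[simp] theorem sum_val (l : List Bn) : (sum l).val = (l.map Bn.val).sum := rfl
@[simp] theorem prod_val (l : List Bn) : (prod l).val = (l.map Bn.val).prod := rfl

end Bn

/-- value of a list of binary digits modulo `m` (and `0` for `m = 0`), in unary -/
def modU (m : ℕ) (l : List Bool) : ℕ := if m = 0 then 0 else bval l % m

theorem sz_bits_le (l : List Bool) : sz l ≤ 4 * l.length + 1 := by
  induction l with
  | nil => exact (by decide : (1:ℕ) ≤ 1)
  | cons b l ih =>
    rw [sz_cons, List.length_cons]
    have := sz_bool_le b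
    omega

theorem two_length_le_sz (l : List Bool) : 2 * l.length + 1 ≤ sz l := by
  induction l with
  | nil => exact (by decide : (1:ℕ) ≤ 1)
  | cons b l ih =>
    rw [sz_cons, List.length_cons]
    have := one_le_sz b
    omega

theorem length_natBits (n : ℕ) : (Nat.bits n).length = Nat.size n := by
  exact Nat.size_eq_bits_len n

/-- the size of the code is linear in the number of digits -/
theorem sz_bn_le (x : Bn) : sz x ≤ 4 * Nat.size x.val + 1 := by
  have h : sz x = sz (Nat.bits x.val) := rfl
  rw [h, ← length_natBits]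
  exact sz_bits_le _

theorem size_le_sz_bn (x : Bn) : 2 * Nat.size x.val + 1 ≤ sz x := by
  have h : sz x = sz (Nat.bits x.val) := rfl
  rw [h, ← length_natBits]
  exact two_length_le_sz _

end Vale.Agent.Lib.Common.PolyTime

end

section

/-!
Binary naturals, module A: digits, normalisation, comparison, size, residues in unary.

Hints.  `sz (x : Bn) = sz (Nat.bits x.val)` by definition.
* `bnBits`: the code of `x : Bn` IS the code of `Nat.bits x.val`: use the identity `PolyOn`
  program (unfold `PT`, `F := F of hf`).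
* `bnOfBits`: normalisation `norm l = Nat.bits (bval l)`: as a left fold over `l.reverse`,
  `acc ↦ match acc with | [] => if b then [true] else [] | acc => b :: acc`
  (`Nat.bits (Nat.bit b n) = b :: Nat.bits n` unless `b = false` and `n = 0`), then view the list
  of digits as a `Bn` (again the same code).  Sizes: the accumulator is at most as long as the
  list, use `PT.foldl_add` or `PT.foldl_le`.
* `bnLe`: let `n` be the maximum of the two lengths; fold over `List.range n` (from the least
  significant digit) with `s ↦ if xᵢ = yᵢ then s else yᵢ`, start `true`, `xᵢ = x.bits.getD i false`.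
  Correctness by induction on `n`: the fold over `range n` decides
  `x % 2 ^ n ≤ y % 2 ^ n`; (or induction on lists).
* `bnSize`: `Nat.size n = (Nat.bits n).length` (`length_natBits`).
* `modU`: fold over `l.reverse`: `acc ↦ (2 * acc + b) % m`, if `m ≠ 0`; the accumulator is `< m`.
-/

namespace Vale.Agent.Lib.Common.PolyTime

variable {α : Type} [TEnc α]

@[fun_prop] theorem PT.bnBits {f : α → Bn} (hf : PT f) : PT (fun a => Bn.bits (f a)) := by
  obtain ⟨F, hF, hF'⟩ := hf
  exact ⟨F, hF, fun a => hF' a⟩

/-- a map to `Bn` is computable if its digits are -/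
theorem PT.ofBnBits {f : α → Bn} (hf : PT (fun a => Bn.bits (f a))) : PT f := by
  obtain ⟨F, hF, hF'⟩ := hf
  exact ⟨F, hF, fun a => hF' a⟩

/-- one step of the normalisation -/
def normStep (acc : List Bool) (b : Bool) : List Bool :=
  bif (b || !(decide (acc = []))) then b :: acc else acc

theorem natBits_eq_nil {n : ℕ} : Nat.bits n = [] ↔ n = 0 := by
  constructor
  · intro h
    exact natBits_injective (by rw [h, Nat.zero_bits])
  · rintro rfl
    exact Nat.zero_bits

theorem natBits_bval (l : List Bool) :
    Nat.bits (bval l) = l.reverse.foldl normStep [] := by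
  rw [List.foldl_reverse]
  induction l with
  | nil => simp [bval_nil]
  | cons b l ih =>
    rw [List.foldr_cons, ← ih, bval_cons]
    unfold normStep
    by_cases h0 : bval l = 0
    · rw [h0, Nat.zero_bits]
      cases b
      · simp [Nat.bit]
      · rw [Nat.bits_append_bit _ _ (fun _ => rfl)]
        simp
    · rw [Nat.bits_append_bit _ _ (fun h => absurd h h0)]
      have h1 : Nat.bits (bval l) ≠ [] := fun h => h0 (natBits_eq_nil.1 h)
      simp [h1]

@[fun_prop] theorem PT.bnOfBits {f : α → List Bool} (hf : PT f) :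
    PT (fun a => Bn.ofBits (f a)) := by
  apply PT.ofBnBits
  have h : (fun a => Bn.bits (Bn.ofBits (f a))) = fun a => (f a).reverse.foldl normStep [] := by
    funext a
    exact natBits_bval (f a)
  rw [h]
  refine PT.foldl_add (step := fun _ => normStep) (l := fun a => (f a).reverse)
    (init := fun _ => []) ?_ (by fun_prop) (by fun_prop)
    (h := fun _ b => (b, ())) (by fun_prop) ?_
  · unfold normStep
    fun_prop
  · intro a s b _
    have h1 : sz (b, ()) = sz b + 1 + 1 := rfl
    show sz (normStep s b) ≤ sz s + sz (b, ())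
    unfold normStep
    cases hb : (b || !(decide (s = [])))
    · simp only [cond_false]
      omega
    · simp only [cond_true]
      rw [sz_cons]
      omega

theorem bval_natBits (n : ℕ) : bval (Nat.bits n) = n := by
  induction n using Nat.binaryRec' with
  | zero => simp [bval_nil]
  | bit b n hn ih => rw [Nat.bits_append_bit _ _ hn, bval_cons, ih]

theorem bval_lt (l : List Bool) : bval l < 2 ^ l.length := by
  induction l with
  | nil => simp [bval_nil]
  | cons b l ih =>
    rw [bval_cons, List.length_cons, pow_succ, Nat.bit_val]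
    cases b <;> simp only [Bool.toNat_false, Bool.toNat_true] <;> omega

theorem natBits_getD (n i : ℕ) : (Nat.bits n).getD i false = n.testBit i := by
  induction n using Nat.binaryRec' generalizing i with
  | zero => simp
  | bit b n hn ih =>
    rw [Nat.bits_append_bit _ _ hn]
    cases i with
    | zero => simp
    | succ i =>
      rw [Nat.testBit_bit_succ, ← ih i]
      simp

theorem mod_two_pow_succ' (x k : ℕ) :
    x % 2 ^ (k + 1) = x % 2 ^ k + 2 ^ k * (x.testBit k).toNat := by
  rw [Nat.mod_pow_succ, Nat.toNat_testBit]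

/-- comparison of binary digits, from the least significant digit -/
def leFold (x y : Bn) (n : ℕ) : Bool :=
  (List.range n).foldl (fun s i => bif (decide (x.bits.getD i false = y.bits.getD i false)) then s
    else y.bits.getD i false) true

theorem leFold_eq (x y : Bn) (n : ℕ) :
    leFold x y n = decide (x.val % 2 ^ n ≤ y.val % 2 ^ n) := by
  induction n with
  | zero => simp [leFold, Nat.mod_one]
  | succ n ih =>
    unfold leFold at ih ⊢
    rw [List.range_succ, List.foldl_append, ih, List.foldl_cons, List.foldl_nil]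
    have hx : x.bits.getD n false = x.val.testBit n := natBits_getD _ _
    have hy : y.bits.getD n false = y.val.testBit n := natBits_getD _ _
    rw [hx, hy, mod_two_pow_succ', mod_two_pow_succ']
    have h1 : x.val % 2 ^ n < 2 ^ n := Nat.mod_lt _ (by positivity)
    have h2 : y.val % 2 ^ n < 2 ^ n := Nat.mod_lt _ (by positivity)
    cases x.val.testBit n <;> cases y.val.testBit n
    · simp
    · simp only [Bool.toNat_false, Bool.toNat_true, mul_zero, add_zero, mul_one, Bool.false_eq_true,
        decide_false, cond_false]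
      symm
      rw [decide_eq_true_iff]
      omega
    · simp only [Bool.toNat_false, Bool.toNat_true, mul_zero, add_zero, mul_one, Bool.true_eq_false,
        decide_false, cond_false]
      symm
      rw [decide_eq_false_iff_not]
      omega
    · simp

theorem le_eq_leFold (x y : Bn) :
    Bn.le x y = leFold x y (Nat.max x.bits.length y.bits.length) := by
  rw [leFold_eq]
  unfold Bn.le
  have hx : x.bits.length = Nat.size x.val := length_natBits _
  have hy : y.bits.length = Nat.size y.val := length_natBits _
  have h1 : x.val < 2 ^ (Nat.max x.bits.length y.bits.length) :=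
    lt_of_lt_of_le (Nat.lt_size_self _) (by
      rw [← hx]; exact Nat.pow_le_pow_right (by norm_num) (Nat.le_max_left _ _))
  have h2 : y.val < 2 ^ (Nat.max x.bits.length y.bits.length) :=
    lt_of_lt_of_le (Nat.lt_size_self _) (by
      rw [← hy]; exact Nat.pow_le_pow_right (by norm_num) (Nat.le_max_right _ _))
  rw [Nat.mod_eq_of_lt h1, Nat.mod_eq_of_lt h2]

theorem PT.bnLe' : PT (fun p : Bn × Bn => Bn.le p.1 p.2) := by
  have h : (fun p : Bn × Bn => Bn.le p.1 p.2) = fun p : Bn × Bn =>
      (List.range (Nat.max p.1.bits.length p.2.bits.length)).foldl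
        (fun s i => bif (decide (p.1.bits.getD i false = p.2.bits.getD i false)) then s
          else p.2.bits.getD i false) true := by
    funext p
    exact le_eq_leFold p.1 p.2
  rw [h]
  refine PT.foldl_le (step := fun (p : Bn × Bn) s i =>
      bif (decide (p.1.bits.getD i false = p.2.bits.getD i false)) then s
          else p.2.bits.getD i false)
    (l := fun p => List.range (Nat.max p.1.bits.length p.2.bits.length))
    (init := fun _ => true) ?_ ?_ (by fun_prop) (h := fun _ => ((), ())) (by fun_prop) ?_
  · fun_prop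
  · exact PT.range (PT.max (by fun_prop) (by fun_prop))
  · intro a l₁ l₂ _
    exact sz_bool_le _

@[fun_prop] theorem PT.bnLe {f g : α → Bn} (hf : PT f) (hg : PT g) :
    PT (fun a => Bn.le (f a) (g a)) :=
  PT.comp (f := fun p : Bn × Bn => Bn.le p.1 p.2) (g := fun a => (f a, g a)) PT.bnLe'
    (PT.pair hf hg)

@[fun_prop] theorem PT.bnLt {f g : α → Bn} (hf : PT f) (hg : PT g) :
    PT (fun a => Bn.lt (f a) (g a)) := by
  have h : (fun a => Bn.lt (f a) (g a)) = fun a => !(Bn.le (g a) (f a)) := by
    funext a
    unfold Bn.lt Bn.le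
    by_cases h : (f a).val < (g a).val
    · rw [decide_eq_true h, decide_eq_false (by omega)]; rfl
    · rw [decide_eq_false h, decide_eq_true (by omega)]; rfl
  rw [h]
  exact PT.not (PT.bnLe hg hf)

@[fun_prop] theorem PT.bnMin {f g : α → Bn} (hf : PT f) (hg : PT g) :
    PT (fun a => Bn.min (f a) (g a)) := by
  have h : (fun a => Bn.min (f a) (g a)) = fun a => bif Bn.le (f a) (g a) then f a else g a := by
    funext a
    apply Bn.ext
    rw [Bn.min_val]
    unfold Bn.le
    by_cases h : (f a).val ≤ (g a).val
    · rw [decide_eq_true h, cond_true]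
      exact Nat.min_eq_left h
    · rw [decide_eq_false h, cond_false]
      exact Nat.min_eq_right (by omega)
  rw [h]
  exact PT.bif (PT.bnLe hf hg) hf hg

@[fun_prop] theorem PT.bnMax {f g : α → Bn} (hf : PT f) (hg : PT g) :
    PT (fun a => Bn.max (f a) (g a)) := by
  have h : (fun a => Bn.max (f a) (g a)) = fun a => bif Bn.le (f a) (g a) then g a else f a := by
    funext a
    apply Bn.ext
    rw [Bn.max_val]
    unfold Bn.le
    by_cases h : (f a).val ≤ (g a).val
    · rw [decide_eq_true h, cond_true]
      exact Nat.max_eq_right h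
    · rw [decide_eq_false h, cond_false]
      exact Nat.max_eq_left (by omega)
  rw [h]
  exact PT.bif (PT.bnLe hf hg) hg hf

@[fun_prop] theorem PT.bnSize {f : α → Bn} (hf : PT f) : PT (fun a => Bn.size (f a)) := by
  have h : (fun a => Bn.size (f a)) = fun a => (Bn.bits (f a)).length := by
    funext a
    exact (length_natBits _).symm
  rw [h]
  fun_prop

/-- one step of the reduction modulo `m` -/
def modStep (m acc : ℕ) (b : Bool) : ℕ :=
  if m = 0 then 0 else (2 * acc + bif b then 1 else 0) % m

theorem modStep_le (m acc : ℕ) (b : Bool) : modStep m acc b ≤ m := by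
  unfold modStep
  split_ifs with h
  · exact Nat.zero_le _
  · exact (Nat.mod_lt _ (Nat.pos_of_ne_zero h)).le

theorem foldl_modStep_le (m : ℕ) (l : List Bool) (acc : ℕ) (h : acc ≤ m) :
    l.foldl (modStep m) acc ≤ m := by
  induction l generalizing acc with
  | nil => exact h
  | cons b l ih => exact ih _ (modStep_le m acc b)

theorem modU_eq_fold (m : ℕ) (l : List Bool) : modU m l = l.reverse.foldl (modStep m) 0 := by
  rw [List.foldl_reverse]
  by_cases hm : m = 0
  · subst hm
    cases l with
    | nil => simp [modU]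
    | cons b l => simp [modU, modStep]
  · induction l with
    | nil => simp [modU, bval_nil, hm]
    | cons b l ih =>
      rw [List.foldr_cons, ← ih]
      simp only [modU, modStep, if_neg hm]
      rw [bval_cons, Nat.bit_val]
      have hb : (bif b then 1 else 0) = b.toNat := by cases b <;> rfl
      rw [hb, Nat.add_mod (2 * bval l), Nat.mul_mod, Nat.add_mod (2 * (bval l % m)),
        Nat.mul_mod 2 (bval l % m), Nat.mod_mod]

@[fun_prop] theorem PT.modU {m : α → ℕ} {f : α → List Bool} (hm : PT m) (hf : PT f) :
    PT (fun a => modU (m a) (f a)) := by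
  have h : (fun a => PolyTime.modU (m a) (f a)) =
      fun a => (f a).reverse.foldl (modStep (m a)) 0 := by
    funext a
    exact modU_eq_fold _ _
  rw [h]
  refine PT.foldl_le (step := fun a => modStep (m a)) (l := fun a => (f a).reverse)
    (init := fun _ => 0) ?_ (by fun_prop) (by fun_prop) (h := m) hm ?_
  · unfold modStep
    have hm' : PT (fun x : α × ℕ × Bool => m x.1) := PT.comp hm (by fun_prop)
    refine PT.ite ?_ (by fun_prop) ?_
    · exact PT.decide_eq hm' (by fun_prop)
    · refine PT.mod ?_ hm'
      refine PT.add ?_ ?_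
      · exact PT.mul (by fun_prop) (by fun_prop)
      · exact PT.bif (by fun_prop) (by fun_prop) (by fun_prop)
  · intro a l₁ l₂ _
    rw [sz_nat, sz_nat]
    have := foldl_modStep_le (m a) l₁ 0 (Nat.zero_le _)
    omega

theorem natBits_two_pow (n : ℕ) : Nat.bits (2 ^ n) = List.replicate n false ++ [true] := by
  induction n with
  | zero => simp
  | succ n ih =>
    have h : 2 ^ (n + 1) = Nat.bit false (2 ^ n) := by
      rw [Nat.bit_val, pow_succ]
      simp [mul_comm]
    rw [h, Nat.bits_append_bit _ _ (fun h0 => absurd h0 (by positivity)), ih]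
    rfl

@[fun_prop] theorem PT.bnPow2 {n : α → ℕ} (hn : PT n) : PT (fun a => Bn.pow2 (n a)) := by
  apply PT.ofBnBits
  have h : (fun a => Bn.bits (Bn.pow2 (n a))) =
      fun a => List.replicate (n a) false ++ [true] := by
    funext a
    exact natBits_two_pow _
  rw [h]
  exact PT.append (PT.replicate hn (by fun_prop)) (by fun_prop)

end Vale.Agent.Lib.Common.PolyTime

end

section

/-!
Binary naturals, module B: sum and truncated difference.

Hints.  Addition with carry: fold over `List.range n`, `n = 1 + max` of the numbers of digits;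
state `(carry, digits so far, reversed)`, digit `i` is `xᵢ xor yᵢ xor carry`.  Invariant after
`i` steps: `bval acc.reverse + 2 ^ i * carry = x % 2 ^ i + y % 2 ^ i` and `acc.length = i`.
Finally `Bn.ofBits acc.reverse`.  Subtraction: if `x ≤ y` then `0`, otherwise with borrow:
`bval acc.reverse + y % 2 ^ i = x % 2 ^ i + 2 ^ i * borrow`; or write the difference as
`x + (2 ^ n - 1 - y) + 1` modulo `2 ^ n` (complement the digits of `y`, add, add `1`, drop the
digit `n`).
-/

namespace Vale.Agent.Lib.Common.PolyTime

variable {α : Type} [TEnc α]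

namespace BinB

/-- the digit of the sum or of the difference -/
def dig (a b c : Bool) : Bool :=
  bif a then (bif b then c else !c) else (bif b then !c else c)

/-- one step of the digitwise fold -/
def bstep (cy : Bool → Bool → Bool → Bool) (xs ys : List Bool) (s : Bool × List Bool) (i : ℕ) :
    Bool × List Bool :=
  (cy (xs.getD i false) (ys.getD i false) s.1,
    dig (xs.getD i false) (ys.getD i false) s.1 :: s.2)

/-- carry of the sum -/
def cyAdd (a b c : Bool) : Bool := bif a then (b || c) else (b && c)

/-- borrow of the difference -/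
def cySub (a b c : Bool) : Bool := bif a then (b && c) else (b || c)

theorem pt_dig {a b c : α → Bool} (ha : PT a) (hb : PT b) (hc : PT c) :
    PT (fun x => dig (a x) (b x) (c x)) := by
  unfold dig
  exact PT.bif ha (PT.bif hb hc (PT.not hc)) (PT.bif hb (PT.not hc) hc)

theorem pt_cyAdd {a b c : α → Bool} (ha : PT a) (hb : PT b) (hc : PT c) :
    PT (fun x => cyAdd (a x) (b x) (c x)) := by
  unfold cyAdd
  exact PT.bif ha (PT.or hb hc) (PT.and hb hc)

theorem pt_cySub {a b c : α → Bool} (ha : PT a) (hb : PT b) (hc : PT c) :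
    PT (fun x => cySub (a x) (b x) (c x)) := by
  unfold cySub
  exact PT.bif ha (PT.and hb hc) (PT.or hb hc)

theorem pt_fold (cy : Bool → Bool → Bool → Bool)
    (hcy : ∀ {β : Type} [TEnc β] {a b c : β → Bool}, PT a → PT b → PT c →
      PT (fun x => cy (a x) (b x) (c x)))
    {f g : α → List Bool} {n : α → ℕ} (hf : PT f) (hg : PT g) (hn : PT n) :
    PT (fun a => (List.range (n a)).foldl (bstep cy (f a) (g a)) (false, [])) := by
  have hs : PT (fun x : α × (Bool × List Bool) × ℕ => bstep cy (f x.1) (g x.1) x.2.1 x.2.2) := by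
    unfold bstep
    have h1 : PT (fun x : α × (Bool × List Bool) × ℕ => (f x.1).getD x.2.2 false) :=
      PT.getD (hf.comp (PT.fst PT.id)) (PT.snd (PT.snd PT.id)) (PT.const false)
    have h2 : PT (fun x : α × (Bool × List Bool) × ℕ => (g x.1).getD x.2.2 false) :=
      PT.getD (hg.comp (PT.fst PT.id)) (PT.snd (PT.snd PT.id)) (PT.const false)
    have h3 : PT (fun x : α × (Bool × List Bool) × ℕ => x.2.1.1) :=
      PT.fst (PT.fst (PT.snd PT.id))
    have h4 : PT (fun x : α × (Bool × List Bool) × ℕ => x.2.1.2) :=
      PT.snd (PT.fst (PT.snd PT.id))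
    exact PT.pair (hcy h1 h2 h3) (PT.cons (pt_dig h1 h2 h3) h4)
  refine PT.foldl_add (h := fun (_ : α) (_ : ℕ) => (10 : ℕ)) hs (PT.range hn) (PT.const _)
    (PT.const _) ?_
  intro a s b _
  obtain ⟨c, acc⟩ := s
  unfold bstep
  rw [sz_pair, sz_pair, sz_cons, sz_nat]
  have h1 := sz_bool_le (cy ((f a).getD b false) ((g a).getD b false) c)
  have h2 := sz_bool_le (dig ((f a).getD b false) ((g a).getD b false) c)
  have h3 := one_le_sz c
  simp only at *
  omega

theorem bval_append (l m : List Bool) : bval (l ++ m) = bval l + 2 ^ l.length * bval m := by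
  induction l with
  | nil => simp [bval_nil]
  | cons b l ih =>
    rw [List.cons_append, bval_cons, bval_cons, ih, List.length_cons, Nat.bit_val, Nat.bit_val,
      pow_succ]
    ring

theorem bval_single (b : Bool) : bval [b] = b.toNat := by
  rw [bval_cons, bval_nil, Nat.bit_val]
  simp

theorem getD_bits (n i : ℕ) : (Nat.bits n).getD i false = n.testBit i := by
  induction n using Nat.binaryRec' generalizing i with
  | zero => simp
  | bit c m hm ih =>
    rw [Nat.bits_append_bit _ _ hm]
    cases i with
    | zero => simp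
    | succ i =>
      rw [List.getD_cons_succ, ih, Nat.testBit_bit_succ]

theorem mod_two_pow_succ (x i : ℕ) :
    x % 2 ^ (i + 1) = x % 2 ^ i + 2 ^ i * (x.testBit i).toNat := by
  rw [Nat.mod_pow_succ, Nat.toNat_testBit]

theorem fold_length (cy : Bool → Bool → Bool → Bool) (xs ys : List Bool) (n : ℕ) :
    ((List.range n).foldl (bstep cy xs ys) (false, [])).2.length = n := by
  induction n with
  | zero => rfl
  | succ n ih =>
    rw [List.range_succ, List.foldl_append, List.foldl_cons, List.foldl_nil]
    simp only [bstep, List.length_cons, ih]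

theorem fold_add (x y n : ℕ) :
    bval ((List.range n).foldl (bstep cyAdd (Nat.bits x) (Nat.bits y)) (false, [])).2.reverse +
      2 ^ n * ((List.range n).foldl (bstep cyAdd (Nat.bits x) (Nat.bits y)) (false, [])).1.toNat =
      x % 2 ^ n + y % 2 ^ n := by
  induction n with
  | zero => simp [bval_nil, Nat.mod_one]
  | succ n ih =>
    have hlen := fold_length cyAdd (Nat.bits x) (Nat.bits y) n
    rw [List.range_succ, List.foldl_append, List.foldl_cons, List.foldl_nil]
    set s := (List.range n).foldl (bstep cyAdd (Nat.bits x) (Nat.bits y)) (false, []) with hs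
    simp only [bstep, List.reverse_cons]
    rw [bval_append, List.length_reverse, hlen, bval_single, getD_bits, getD_bits,
      mod_two_pow_succ, mod_two_pow_succ]
    have key : (dig (x.testBit n) (y.testBit n) s.1).toNat +
        2 * (cyAdd (x.testBit n) (y.testBit n) s.1).toNat =
        (x.testBit n).toNat + (y.testBit n).toNat + s.1.toNat := by
      cases x.testBit n <;> cases y.testBit n <;> cases s.1 <;> rfl
    have key2 := congrArg (fun t => 2 ^ n * t) key
    rw [pow_succ]
    nlinarith [key2, ih]

theorem fold_sub (x y n : ℕ) :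
    bval ((List.range n).foldl (bstep cySub (Nat.bits x) (Nat.bits y)) (false, [])).2.reverse +
      y % 2 ^ n = x % 2 ^ n +
      2 ^ n * ((List.range n).foldl (bstep cySub (Nat.bits x) (Nat.bits y))
        (false, [])).1.toNat := by
  induction n with
  | zero => simp [bval_nil, Nat.mod_one]
  | succ n ih =>
    have hlen := fold_length cySub (Nat.bits x) (Nat.bits y) n
    rw [List.range_succ, List.foldl_append, List.foldl_cons, List.foldl_nil]
    set s := (List.range n).foldl (bstep cySub (Nat.bits x) (Nat.bits y)) (false, []) with hs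
    simp only [bstep, List.reverse_cons]
    rw [bval_append, List.length_reverse, hlen, bval_single, getD_bits, getD_bits,
      mod_two_pow_succ, mod_two_pow_succ]
    have key : (dig (x.testBit n) (y.testBit n) s.1).toNat +
        ((y.testBit n).toNat + s.1.toNat) =
        (x.testBit n).toNat + 2 * (cySub (x.testBit n) (y.testBit n) s.1).toNat := by
      cases x.testBit n <;> cases y.testBit n <;> cases s.1 <;> rfl
    have key2 := congrArg (fun t => 2 ^ n * t) key
    rw [pow_succ]
    nlinarith [key2, ih]

theorem add_eq (x y : Bn) : Bn.add x y =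
    Bn.ofBits ((List.range (Bn.size x + Bn.size y + 1)).foldl
      (bstep cyAdd (Bn.bits x) (Bn.bits y)) (false, [])).2.reverse := by
  apply Bn.ext
  rw [Bn.add_val, Bn.ofBits_val]
  unfold Bn.size Bn.bits
  set n := Nat.size x.val + Nat.size y.val + 1 with hn
  have h := fold_add x.val y.val n
  have hx : x.val < 2 ^ (Nat.size x.val) := Nat.lt_size_self _
  have hy : y.val < 2 ^ (Nat.size y.val) := Nat.lt_size_self _
  have hx2 : x.val < 2 ^ (Nat.size x.val + Nat.size y.val) :=
    lt_of_lt_of_le hx (Nat.pow_le_pow_right (by norm_num) (by omega))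
  have hy2 : y.val < 2 ^ (Nat.size x.val + Nat.size y.val) :=
    lt_of_lt_of_le hy (Nat.pow_le_pow_right (by norm_num) (by omega))
  have h2n : 2 ^ n = 2 * 2 ^ (Nat.size x.val + Nat.size y.val) := by
    rw [hn, pow_succ, mul_comm]
  rw [Nat.mod_eq_of_lt (by omega), Nat.mod_eq_of_lt (by omega)] at h
  rw [← h]
  have hc : ((List.range n).foldl (bstep cyAdd (Nat.bits x.val) (Nat.bits y.val))
      (false, [])).1.toNat = 0 := by
    by_contra hne
    have h1 : 1 ≤ ((List.range n).foldl (bstep cyAdd (Nat.bits x.val) (Nat.bits y.val))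
      (false, [])).1.toNat := Nat.one_le_iff_ne_zero.mpr hne
    have h3 := Nat.mul_le_mul_left (2 ^ n) h1
    omega
  rw [hc]
  omega

theorem sub_eq (x y : Bn) (hxy : y.val ≤ x.val) : Bn.sub x y =
    Bn.ofBits ((List.range (Bn.size x)).foldl
      (bstep cySub (Bn.bits x) (Bn.bits y)) (false, [])).2.reverse := by
  apply Bn.ext
  rw [Bn.sub_val, Bn.ofBits_val]
  unfold Bn.size Bn.bits
  set n := Nat.size x.val with hn
  have h := fold_sub x.val y.val n
  have hx : x.val < 2 ^ n := Nat.lt_size_self _
  have hlt := bval_lt ((List.range n).foldl (bstep cySub (Nat.bits x.val) (Nat.bits y.val))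
      (false, [])).2.reverse
  rw [List.length_reverse, fold_length] at hlt
  rw [Nat.mod_eq_of_lt hx, Nat.mod_eq_of_lt (by omega)] at h
  have hc : ((List.range n).foldl (bstep cySub (Nat.bits x.val) (Nat.bits y.val))
      (false, [])).1.toNat = 0 := by
    by_contra hne
    have h1 : 1 ≤ ((List.range n).foldl (bstep cySub (Nat.bits x.val) (Nat.bits y.val))
      (false, [])).1.toNat := Nat.one_le_iff_ne_zero.mpr hne
    have h3 := Nat.mul_le_mul_left (2 ^ n) h1
    omega
  rw [hc] at h
  omega

theorem size_add_le (x y : ℕ) : Nat.size (x + y) ≤ Nat.size x + Nat.size y := by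
  rcases Nat.eq_zero_or_pos x with hx | hx
  · subst hx; simp
  rcases Nat.eq_zero_or_pos y with hy | hy
  · subst hy; simp
  rw [Nat.size_le]
  have h1 : x < 2 ^ (Nat.size x) := Nat.lt_size_self _
  have h2 : y < 2 ^ (Nat.size y) := Nat.lt_size_self _
  rw [pow_add]
  have h3 : 1 ≤ x := hx
  have h4 : 1 ≤ y := hy
  nlinarith [Nat.mul_le_mul h1 h2]

theorem size_sum_le (l : List Bn) : 2 * Nat.size (l.map Bn.val).sum ≤ sz l := by
  induction l with
  | nil => simp
  | cons b l ih =>
    rw [List.map_cons, List.sum_cons, sz_cons]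
    have h1 := size_add_le b.val (l.map Bn.val).sum
    have h2 := size_le_sz_bn b
    omega

theorem foldl_add_val (l : List Bn) (s : Bn) :
    (l.foldl Bn.add s).val = s.val + (l.map Bn.val).sum := by
  induction l generalizing s with
  | nil => simp
  | cons b l ih =>
    rw [List.foldl_cons, ih, Bn.add_val, List.map_cons, List.sum_cons]
    ring

end BinB

@[fun_prop] theorem PT.bnAdd {f g : α → Bn} (hf : PT f) (hg : PT g) :
    PT (fun a => Bn.add (f a) (g a)) := by
  have h : (fun a => Bn.add (f a) (g a)) = fun a =>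
      Bn.ofBits ((List.range (Bn.size (f a) + Bn.size (g a) + 1)).foldl
        (BinB.bstep BinB.cyAdd (Bn.bits (f a)) (Bn.bits (g a))) (false, [])).2.reverse := by
    funext a
    exact BinB.add_eq _ _
  rw [h]
  exact PT.bnOfBits (PT.reverse (PT.snd (BinB.pt_fold BinB.cyAdd BinB.pt_cyAdd
    (PT.bnBits hf) (PT.bnBits hg) (PT.succ (PT.add (PT.bnSize hf) (PT.bnSize hg))))))

@[fun_prop] theorem PT.bnSub {f g : α → Bn} (hf : PT f) (hg : PT g) :
    PT (fun a => Bn.sub (f a) (g a)) := by
  have h : (fun a => Bn.sub (f a) (g a)) = fun a =>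
      bif Bn.le (g a) (f a) then
        Bn.ofBits ((List.range (Bn.size (f a))).foldl
          (BinB.bstep BinB.cySub (Bn.bits (f a)) (Bn.bits (g a))) (false, [])).2.reverse
      else (⟨0⟩ : Bn) := by
    funext a
    by_cases hle : (g a).val ≤ (f a).val
    · have h1 : Bn.le (g a) (f a) = true := by simp [Bn.le, hle]
      rw [h1, cond_true]
      exact BinB.sub_eq _ _ hle
    · have h1 : Bn.le (g a) (f a) = false := by simp [Bn.le, hle]
      rw [h1, cond_false]
      apply Bn.ext
      rw [Bn.sub_val]
      simp only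
      omega
  rw [h]
  exact PT.bif (PT.bnLe hg hf) (PT.bnOfBits (PT.reverse (PT.snd (BinB.pt_fold BinB.cySub
    BinB.pt_cySub (PT.bnBits hf) (PT.bnBits hg) (PT.bnSize hf))))) (PT.const _)

@[fun_prop] theorem PT.bnOfNat {n : α → ℕ} (hn : PT n) : PT (fun a => Bn.ofNat (n a)) := by
  have key : ∀ k : ℕ, (fun x : Bn => Bn.add x ⟨1⟩)^[k] ⟨0⟩ = Bn.ofNat k := by
    intro k
    induction k with
    | zero => rfl
    | succ k ih =>
      rw [Function.iterate_succ_apply', ih]
      rfl
  have h : (fun a => Bn.ofNat (n a)) = fun a => (fun x : Bn => Bn.add x ⟨1⟩)^[n a] ⟨0⟩ := by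
    funext a
    rw [key]
  rw [h]
  obtain ⟨p, hp⟩ := hn.size_le
  refine PT.iterate (f := fun (_ : α) (x : Bn) => Bn.add x ⟨1⟩) (init := fun _ => ⟨0⟩)
    (PT.bnAdd (PT.snd PT.id) (PT.const _)) hn (PT.const _) (4 * p + 1) ?_
  intro a i hi
  rw [key]
  have h1 := sz_bn_le (Bn.ofNat i)
  have h2 : Nat.size i ≤ i := by
    rw [Nat.size_le]
    exact Nat.lt_two_pow_self
  have h3 := hp a
  rw [sz_nat] at h3
  rw [Bn.ofNat_val] at h1
  have h4 : Polynomial.eval (sz a) (4 * p + 1) = 4 * p.eval (sz a) + 1 := by
    simp
  rw [h4]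
  omega

/-- sum of a list -/
@[fun_prop] theorem PT.bnSum {l : α → List Bn} (hl : PT l) : PT (fun a => Bn.sum (l a)) := by
  have h : (fun a => Bn.sum (l a)) = fun a => (l a).foldl Bn.add ⟨0⟩ := by
    funext a
    apply Bn.ext
    rw [BinB.foldl_add_val, Bn.sum_val]
    simp
  rw [h]
  obtain ⟨p, hp⟩ := hl.size_le
  refine PT.foldl (step := fun (_ : α) (x y : Bn) => Bn.add x y) (init := fun _ => ⟨0⟩)
    (PT.bnAdd (PT.fst (PT.snd PT.id)) (PT.snd (PT.snd PT.id))) hl (PT.const _) (2 * p + 1) ?_
  intro a l₁ l₂ hl₁
  have h1 := sz_bn_le (l₁.foldl Bn.add ⟨0⟩)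
  rw [BinB.foldl_add_val] at h1
  simp only [zero_add] at h1
  have h2 := BinB.size_sum_le l₁
  have h3 := sz_prefix_le l₁ l₂
  rw [← hl₁] at h3
  have h4 := hp a
  have h5 : Polynomial.eval (sz a) (2 * p + 1) = 2 * p.eval (sz a) + 1 := by
    simp
  rw [h5]
  change sz (l₁.foldl Bn.add ⟨0⟩) ≤ _
  omega

end Vale.Agent.Lib.Common.PolyTime

end

section

/-!
Binary naturals, module C: products and powers.

Hints.  `x * y`: left fold over the digits of `x`, most significant first:
`acc ↦ 2 * acc + (if b then y else 0)`; the accumulator after `i` digits is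
`(x / 2 ^ (n - i)) * y ≤ x * y`, so its size is at most `size x + size y`.
`pow`: iterate `acc ↦ acc * x`; `Nat.size (x ^ i) ≤ i * Nat.size x + 1`.
`prod`: left fold, `Nat.size (a * b) ≤ Nat.size a + Nat.size b` (use `PT.foldl_add` or
`PT.foldl_le`; mind the constant `4` in `sz_bn_le`: bound the accumulator by
`4 * (sum of the sizes) + 5`).
-/

namespace Vale.Agent.Lib.Common.PolyTime

variable {α : Type} [TEnc α]

theorem size_mul_le (a b : ℕ) : Nat.size (a * b) ≤ Nat.size a + Nat.size b := by
  rw [Nat.size_le, pow_add]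
  exact Nat.mul_lt_mul'' (Nat.lt_size_self a) (Nat.lt_size_self b)

theorem size_pow_le (a n : ℕ) : Nat.size (a ^ n) ≤ n * Nat.size a + 1 := by
  rw [Nat.size_le]
  calc a ^ n ≤ (2 ^ Nat.size a) ^ n := Nat.pow_le_pow_left (Nat.lt_size_self a).le n
    _ = 2 ^ (n * Nat.size a) := by rw [← pow_mul, mul_comm]
    _ < 2 ^ (n * Nat.size a + 1) := Nat.pow_lt_pow_right (by norm_num) (Nat.lt_succ_self _)

theorem size_prod_le (l : List ℕ) : Nat.size l.prod ≤ (l.map Nat.size).sum + 1 := by
  induction l with
  | nil => simp
  | cons a l ih =>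
    rw [List.prod_cons, List.map_cons, List.sum_cons]
    have := size_mul_le a l.prod
    omega

/-- one step of the multiplication, most significant digit first -/
def mulStep (y : Bn) (acc : Bn) (b : Bool) : Bn :=
  Bn.add (Bn.add acc acc) (bif b then y else ⟨0⟩)

theorem foldl_mulStep (y : Bn) (l : List Bool) :
    l.foldl (mulStep y) ⟨0⟩ = ⟨bval l.reverse * y.val⟩ := by
  rw [← List.reverse_reverse l, List.foldl_reverse, List.reverse_reverse]
  generalize l.reverse = m
  induction m with
  | nil =>
    rw [List.foldr_nil, bval_nil, Nat.zero_mul]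
  | cons b m ih =>
    rw [List.foldr_cons, ih, bval_cons]
    apply Bn.ext
    cases b
    · simp only [mulStep, Bn.add_val, Nat.bit, cond_false]
      ring
    · simp only [mulStep, Bn.add_val, Nat.bit, cond_true]
      ring

theorem bnMul_eq (x y : Bn) : Bn.mul x y = x.bits.reverse.foldl (mulStep y) ⟨0⟩ := by
  rw [foldl_mulStep, List.reverse_reverse]
  apply Bn.ext
  rw [Bn.mul_val]
  change _ = bval (Nat.bits x.val) * y.val
  rw [bval_natBits]

theorem sz_mulStep (y : Bn) (l : List Bool) :
    sz (l.foldl (mulStep y) ⟨0⟩) ≤ 4 * (l.length + Nat.size y.val) + 1 := by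
  refine (sz_bn_le _).trans ?_
  rw [foldl_mulStep]
  have h1 : Nat.size (bval l.reverse) ≤ l.length := by
    rw [Nat.size_le]
    have := bval_lt l.reverse
    rwa [List.length_reverse] at this
  have h2 := size_mul_le (bval l.reverse) y.val
  change 4 * Nat.size (bval l.reverse * y.val) + 1 ≤ _
  omega

@[fun_prop] theorem PT.bnMul {f g : α → Bn} (hf : PT f) (hg : PT g) :
    PT (fun a => Bn.mul (f a) (g a)) := by
  have h : (fun a => Bn.mul (f a) (g a)) =
      fun a => (f a).bits.reverse.foldl (mulStep (g a)) ⟨0⟩ := by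
    funext a
    exact bnMul_eq _ _
  rw [h]
  have hg' : PT (fun x : α × Bn × Bool => g x.1) := hg.comp (PT.fst PT.id)
  refine PT.foldl' (step := fun a => mulStep (g a)) ?_ (PT.reverse (PT.bnBits hf))
    (PT.const (⟨0⟩ : Bn)) ?_
  · unfold mulStep
    exact PT.bnAdd (PT.bnAdd (PT.fst (PT.snd PT.id)) (PT.fst (PT.snd PT.id)))
      (PT.bif (PT.snd (PT.snd PT.id)) hg' (PT.const (⟨0⟩ : Bn)))
  · refine ⟨fun a => 4 * (sz (f a) + sz (g a)) + 1,
      ((PB.const 4).mul (hf.pb.add hg.pb)).add (PB.const 1), fun a l₁ l₂ h' => ?_⟩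
    have h1 := sz_mulStep (g a) l₁
    have h2 : l₁.length ≤ (f a).bits.reverse.length := by rw [h']; simp
    rw [List.length_reverse] at h2
    have h3 : (f a).bits.length = Nat.size (f a).val := length_natBits _
    have h4 := size_le_sz_bn (f a)
    have h5 := size_le_sz_bn (g a)
    change _ ≤ 4 * (sz (f a) + sz (g a)) + 1
    omega

theorem iterate_mul (x : Bn) (n : ℕ) : (fun y => Bn.mul y x)^[n] ⟨1⟩ = Bn.pow x n := by
  induction n with
  | zero => exact Bn.ext (pow_zero _).symm
  | succ n ih =>
    rw [Function.iterate_succ_apply', ih]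
    exact Bn.ext (pow_succ _ _).symm

@[fun_prop] theorem PT.bnPow {f : α → Bn} {n : α → ℕ} (hf : PT f) (hn : PT n) :
    PT (fun a => Bn.pow (f a) (n a)) := by
  have h : (fun a => Bn.pow (f a) (n a)) = fun a => (fun y => Bn.mul y (f a))^[n a] ⟨1⟩ := by
    funext a
    exact (iterate_mul _ _).symm
  rw [h]
  refine PT.iterate' (f := fun a y => Bn.mul y (f a))
    (PT.bnMul (PT.snd PT.id) (hf.comp (PT.fst PT.id))) hn (PT.const (⟨1⟩ : Bn)) ?_
  refine ⟨fun a => 4 * (sz (n a) * sz (f a) + 1) + 1,
    ((PB.const 4).mul ((hn.pb.mul hf.pb).add (PB.const 1))).add (PB.const 1), fun a i hi => ?_⟩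
  rw [iterate_mul]
  refine (sz_bn_le _).trans ?_
  have h1 := size_pow_le (f a).val i
  have h2 := size_le_sz_bn (f a)
  have h3 : i ≤ sz (n a) := by rw [sz_nat]; omega
  have h4 : i * Nat.size (f a).val ≤ sz (n a) * sz (f a) :=
    Nat.mul_le_mul h3 (by omega)
  change 4 * Nat.size ((f a).val ^ i) + 1 ≤ 4 * (sz (n a) * sz (f a) + 1) + 1
  omega

theorem foldl_mul (l : List Bn) : l.foldl Bn.mul ⟨1⟩ = Bn.prod l := by
  have key : ∀ (l : List Bn) (a : Bn), l.foldl Bn.mul a = Bn.mul a (Bn.prod l) := by
    intro l
    induction l with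
    | nil =>
      intro a
      exact Bn.ext (mul_one _).symm
    | cons b l ih =>
      intro a
      rw [List.foldl_cons, ih]
      apply Bn.ext
      simp only [Bn.mul_val, Bn.prod_val, List.map_cons, List.prod_cons]
      ring
  rw [key]
  exact Bn.ext (one_mul _)

theorem sum_size_le_sz (l : List Bn) : ((l.map Bn.val).map Nat.size).sum ≤ sz l := by
  induction l with
  | nil => exact Nat.zero_le _
  | cons a l ih =>
    rw [List.map_cons, List.map_cons, List.sum_cons, sz_cons]
    have := size_le_sz_bn a
    omega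

/-- product of a list -/
@[fun_prop] theorem PT.bnProd {l : α → List Bn} (hl : PT l) : PT (fun a => Bn.prod (l a)) := by
  have h : (fun a => Bn.prod (l a)) = fun a => (l a).foldl Bn.mul ⟨1⟩ := by
    funext a
    exact (foldl_mul _).symm
  rw [h]
  refine PT.foldl' (step := fun _ => Bn.mul)
    (PT.bnMul (PT.fst (PT.snd PT.id)) (PT.snd (PT.snd PT.id))) hl (PT.const (⟨1⟩ : Bn)) ?_
  refine ⟨fun a => 4 * (sz (l a) + 1) + 1,
    ((PB.const 4).mul (hl.pb.add (PB.const 1))).add (PB.const 1), fun a l₁ l₂ h' => ?_⟩
  rw [foldl_mul]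
  refine (sz_bn_le _).trans ?_
  have h1 := size_prod_le (l₁.map Bn.val)
  have h2 := sum_size_le_sz l₁
  have h3 := sz_prefix_le l₁ l₂
  rw [← h'] at h3
  change 4 * Nat.size (l₁.map Bn.val).prod + 1 ≤ 4 * (sz (l a) + 1) + 1
  omega

end Vale.Agent.Lib.Common.PolyTime

end

section

/-!
Binary naturals, module D: quotient and remainder.

Hints.  Long division: left fold over the digits of `x`, most significant first, state `(q, rem)`:
`rem' = 2 * rem + b`; if `y ≤ rem'` then `(2 * q + 1, rem' - y)` else `(2 * q, rem')`.  For `y = 0`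
Lean has `x / 0 = 0`, `x % 0 = x`: treat this case separately with `PT.ite`.
Invariant for `y ≠ 0` after the digits of the prefix number `p = x / 2 ^ (n - i)`:
`q = p / y`, `rem = p % y`; sizes at most `size x` resp. `size y`.
(`2 * rem + b` is `Bn.ofBits (b :: rem.bits)` or `Bn.add (Bn.add rem rem) (if b then 1 else 0)`.)
-/

namespace Vale.Agent.Lib.Common.PolyTime

variable {α : Type} [TEnc α]

/-- twice the remainder plus the next digit -/
def divNext (r : Bn) (b : Bool) : Bn := Bn.add (Bn.add r r) (bif b then ⟨1⟩ else ⟨0⟩)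

/-- one step of the long division, most significant digit first -/
def divStep (y : Bn) (s : Bn × Bn) (b : Bool) : Bn × Bn :=
  bif Bn.le y (divNext s.2 b) then
    (Bn.add (Bn.add s.1 s.1) ⟨1⟩, Bn.sub (divNext s.2 b) y)
  else (Bn.add s.1 s.1, divNext s.2 b)

/-- long division -/
def divMod (y : Bn) (l : List Bool) : Bn × Bn := l.foldl (divStep y) (⟨0⟩, ⟨0⟩)

theorem divNext_val (r : Bn) (b : Bool) : (divNext r b).val = Nat.bit b r.val := by
  cases b
  · simp only [divNext, Bn.add_val, Nat.bit, cond_false]
    ring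
  · simp only [divNext, Bn.add_val, Nat.bit, cond_true]
    ring

theorem divMod_concat (y : Bn) (l : List Bool) (b : Bool) :
    divMod y (l ++ [b]) = divStep y (divMod y l) b := by
  unfold divMod
  rw [List.foldl_append]
  rfl

theorem bval_concat_reverse (l : List Bool) (b : Bool) :
    bval (l ++ [b]).reverse = Nat.bit b (bval l.reverse) := by
  rw [List.reverse_append]
  rfl

theorem bit_eq (b : Bool) (n : ℕ) : Nat.bit b n = 2 * n + b.toNat := by
  cases b <;> rfl

theorem divMod_bound (y : Bn) (l : List Bool) :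
    (divMod y l).1.val < 2 ^ l.length ∧ (divMod y l).2.val ≤ bval l.reverse := by
  induction l using List.reverseRecOn with
  | nil => exact ⟨Nat.zero_lt_one, le_rfl⟩
  | append_singleton l b ih =>
    rw [divMod_concat, bval_concat_reverse, List.length_append, List.length_singleton, pow_succ,
      bit_eq]
    obtain ⟨h1, h2⟩ := ih
    have h3 := divNext_val (divMod y l).2 b
    rw [bit_eq] at h3
    unfold divStep
    cases h : Bn.le y (divNext (divMod y l).2 b)
    · simp only [cond_false, Bn.add_val]
      omega
    · simp only [cond_true, Bn.add_val, Bn.sub_val]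
      omega

theorem divMod_eq (y : Bn) (hy : y.val ≠ 0) (l : List Bool) :
    divMod y l = (⟨bval l.reverse / y.val⟩, ⟨bval l.reverse % y.val⟩) := by
  induction l using List.reverseRecOn with
  | nil =>
    have h1 : bval ([] : List Bool).reverse = 0 := rfl
    rw [h1, Nat.zero_div, Nat.zero_mod]
    rfl
  | append_singleton l b ih =>
    rw [divMod_concat, bval_concat_reverse, ih]
    have hy' : 0 < y.val := Nat.pos_of_ne_zero hy
    generalize bval l.reverse = v
    have hv := Nat.div_add_mod v y.val
    have hr := Nat.mod_lt v hy'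
    have hb : b.toNat ≤ 1 := Bool.toNat_le b
    have h3 : (divNext (⟨v % y.val⟩ : Bn) b).val = 2 * (v % y.val) + b.toNat := by
      rw [divNext_val, bit_eq]
    have hbit : Nat.bit b v = 2 * v + b.toNat := bit_eq b v
    unfold divStep
    cases h : Bn.le y (divNext (⟨v % y.val⟩ : Bn) b)
    · have hlt : 2 * (v % y.val) + b.toNat < y.val := by
        have h4 : ¬ (y.val ≤ (divNext (⟨v % y.val⟩ : Bn) b).val) := of_decide_eq_false h
        rw [h3] at h4
        omega
      have e1 : Nat.bit b v = (2 * (v % y.val) + b.toNat) + y.val * (2 * (v / y.val)) := by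
        rw [hbit]
        nlinarith [hv]
      simp only [cond_false]
      refine Prod.ext (Bn.ext ?_) (Bn.ext ?_)
      · simp only [Bn.add_val]
        rw [e1, Nat.add_mul_div_left _ _ hy', Nat.div_eq_of_lt hlt]
        omega
      · simp only
        rw [h3, e1, Nat.add_mul_mod_self_left, Nat.mod_eq_of_lt hlt]
    · have hle : y.val ≤ 2 * (v % y.val) + b.toNat := by
        have h4 : y.val ≤ (divNext (⟨v % y.val⟩ : Bn) b).val := of_decide_eq_true h
        rwa [h3] at h4
      obtain ⟨c, hc⟩ := Nat.exists_eq_add_of_le hle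
      have hc' : c < y.val := by omega
      have e1 : Nat.bit b v = c + y.val * (2 * (v / y.val) + 1) := by
        rw [hbit]
        nlinarith [hv]
      simp only [cond_true]
      refine Prod.ext (Bn.ext ?_) (Bn.ext ?_)
      · simp only [Bn.add_val]
        rw [e1, Nat.add_mul_div_left _ _ hy', Nat.div_eq_of_lt hc']
        omega
      · simp only [Bn.sub_val]
        rw [h3, e1, Nat.add_mul_mod_self_left, Nat.mod_eq_of_lt hc']
        omega

theorem PT.divNext : PT (fun x : Bn × Bool => PolyTime.divNext x.1 x.2) := by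
  unfold PolyTime.divNext
  exact PT.bnAdd (PT.bnAdd (PT.fst PT.id) (PT.fst PT.id))
    (PT.bif (PT.snd PT.id) (PT.const (⟨1⟩ : Bn)) (PT.const (⟨0⟩ : Bn)))

theorem PT.divStep : PT (fun x : Bn × (Bn × Bn) × Bool => PolyTime.divStep x.1 x.2.1 x.2.2) := by
  have hq : PT (fun x : Bn × (Bn × Bn) × Bool => x.2.1.1) := PT.fst (PT.fst (PT.snd PT.id))
  have hr : PT (fun x : Bn × (Bn × Bn) × Bool => PolyTime.divNext x.2.1.2 x.2.2) :=
    PT.divNext.comp (PT.pair (PT.snd (PT.fst (PT.snd PT.id))) (PT.snd (PT.snd PT.id)))
  unfold PolyTime.divStep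
  exact PT.bif (PT.bnLe (PT.fst PT.id) hr)
    (PT.pair (PT.bnAdd (PT.bnAdd hq hq) (PT.const (⟨1⟩ : Bn))) (PT.bnSub hr (PT.fst PT.id)))
    (PT.pair (PT.bnAdd hq hq) hr)

theorem sz_divMod (y : Bn) (l : List Bool) : sz (divMod y l) ≤ 8 * l.length + 3 := by
  have h := divMod_bound y l
  have h1 : Nat.size (divMod y l).1.val ≤ l.length := by
    rw [Nat.size_le]
    exact h.1
  have h2 : Nat.size (divMod y l).2.val ≤ l.length := by
    rw [Nat.size_le]
    have h3 := bval_lt l.reverse
    rw [List.length_reverse] at h3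
    exact lt_of_le_of_lt h.2 h3
  have h4 := sz_bn_le (divMod y l).1
  have h5 := sz_bn_le (divMod y l).2
  have h6 : sz (divMod y l) = sz (divMod y l).1 + sz (divMod y l).2 + 1 := rfl
  omega

theorem PT.divMod {f g : α → Bn} (hf : PT f) (hg : PT g) :
    PT (fun a => PolyTime.divMod (g a) (f a).bits.reverse) := by
  have hs : PT (fun x : α × (Bn × Bn) × Bool => PolyTime.divStep (g x.1) x.2.1 x.2.2) :=
    PT.divStep.comp (PT.pair (hg.comp (PT.fst PT.id)) (PT.snd PT.id))
  refine PT.foldl' (step := fun a => PolyTime.divStep (g a)) hs (PT.reverse (PT.bnBits hf))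
    (PT.const ((⟨0⟩, ⟨0⟩) : Bn × Bn)) ?_
  refine ⟨fun a => 8 * sz (f a) + 3,
    ((PB.const 8).mul hf.pb).add (PB.const 3), fun a l₁ l₂ h' => ?_⟩
  have h1 := sz_divMod (g a) l₁
  have h2 : l₁.length ≤ (f a).bits.reverse.length := by rw [h']; simp
  rw [List.length_reverse] at h2
  have h3 : (f a).bits.length = Nat.size (f a).val := length_natBits _
  have h4 := size_le_sz_bn (f a)
  unfold PolyTime.divMod at h1
  change _ ≤ 8 * sz (f a) + 3
  omega

@[fun_prop] theorem PT.bnDiv {f g : α → Bn} (hf : PT f) (hg : PT g) :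
    PT (fun a => Bn.div (f a) (g a)) := by
  have h : (fun a => Bn.div (f a) (g a)) =
      fun a => bif decide (g a = ⟨0⟩) then ⟨0⟩
        else (PolyTime.divMod (g a) (f a).bits.reverse).1 := by
    funext a
    by_cases h0 : g a = ⟨0⟩
    · rw [decide_eq_true h0, cond_true]
      apply Bn.ext
      rw [Bn.div_val, h0]
      exact Nat.div_zero _
    · rw [decide_eq_false h0, cond_false, divMod_eq _ (fun h1 => h0 (Bn.ext h1)),
        List.reverse_reverse]
      apply Bn.ext
      change _ = bval (Nat.bits (f a).val) / (g a).val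
      rw [bval_natBits]
      rfl
  rw [h]
  exact PT.bif (PT.decide_eq hg (PT.const (⟨0⟩ : Bn))) (PT.const (⟨0⟩ : Bn))
    (PT.fst (PT.divMod hf hg))

@[fun_prop] theorem PT.bnMod {f g : α → Bn} (hf : PT f) (hg : PT g) :
    PT (fun a => Bn.mod (f a) (g a)) := by
  have h : (fun a => Bn.mod (f a) (g a)) =
      fun a => bif decide (g a = ⟨0⟩) then f a
        else (PolyTime.divMod (g a) (f a).bits.reverse).2 := by
    funext a
    by_cases h0 : g a = ⟨0⟩
    · rw [decide_eq_true h0, cond_true]
      apply Bn.ext
      rw [Bn.mod_val, h0]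
      exact Nat.mod_zero _
    · rw [decide_eq_false h0, cond_false, divMod_eq _ (fun h1 => h0 (Bn.ext h1)),
        List.reverse_reverse]
      apply Bn.ext
      change _ = bval (Nat.bits (f a).val) % (g a).val
      rw [bval_natBits]
      rfl
  rw [h]
  exact PT.bif (PT.decide_eq hg (PT.const (⟨0⟩ : Bn))) hf (PT.snd (PT.divMod hf hg))

end Vale.Agent.Lib.Common.PolyTime

end
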